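import Vale.Agent.P073.H237.CovB
import Vale.Agent.P073.H926.CovB

/-!
# P073, (e3) COVER, part (B): the motion of the points of a cell in ROUND P
-/

open Set Metric Topology Filter

set_option linter.unusedSectionVars false

namespace P073.H237.Cov

open P073 P073.H936 P073.H936.K3 P073.H142 P073.H880 P073.H345 P073.H236 P073.H579 P073.H919
open _root_.P073.H880.RP (Sg3)
open Vale.Agent.P073.St (V)
open Vale.Agent.P073.H73 (Mesh)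
open Vale.Agent.P073.H471 Vale.Agent.P073.H267
open P073.Net P073.PA691
open Vale.Agent.P073.H926 (PMv)

variable {Ω Λ : Set V} {v : V} {K : BoxCx Λ v} {S : Rad K} {W : Wid K S} {B : Boxes W}
  {G : Geo B} {L : PLev G} {S₀ : Set K.S} {F : Bool → BFam 3 S₀ Λ}
  {T : Bool → ConHomeo Λ Λ} {M : Mesh Ω} {κ₀ κ₁ : V → V} {c d : ℝ} {Zb : S₀ → Set M.ι}
  {h2 h3 h4 : ConHomeo Ω Λ} {u : V} {H : HkG M L (Subtype.val : S₀ → K.S) F T κ₀ κ₁ c d Zb h2 h3 h4 u}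
  {hΩ : IsOpen Ω} {r q : S₀ → ℝ} {h5 : ConHomeo Ω Λ} {Fσ : Bool → BFam 3 S₀ Λ}
  {ς : Bool → S₀ → ℝ} {Tσ : Bool → ConHomeo Λ Λ} {f5 : ConHomeo Ω Λ}

/-- **PLoc, composed**: the motion of the points of a passive cell by the hook of the plates and the
second staircases -/
theorem pmv_cell (O : HkGF H hΩ r q h5) (P : Sg3 L S₀ Fσ ς Tσ)
    (hf5 : ∀ x ∈ Ω, f5.toFun x = PS.map Tσ (h5.toFun x)) (r0 : ∀ s, 0 ≤ r s) (r1 : ∀ s, r s < 1)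
    (hNlo : ∀ s X, ((H.hookIn s).boxK hΩ).Near X
      {y | y ∈ HB G c d s.1 ∧ y (tg s.1 (!X)) ≤ K.slo s.1 (tg s.1 (!X)) + G.p s.1})
    (hNhi : ∀ s X, ((H.hookIn s).boxK hΩ).Near X
      {y | y ∈ HB G c d s.1 ∧ K.shi s.1 (tg s.1 (!X)) - G.p s.1 ≤ y (tg s.1 (!X))})
    {i : M.ι} (hi : ∀ s, i ∉ Zb s)
    (hZn : ∀ s : S₀, ¬ h4.toFun '' M.Q i ⊆ interior (HB G c d s.1))
    {o w δ : S₀ → ℝ} {uu : K.S → ℝ} {ε : ℝ}
    (ho : ∀ s : S₀, (∃ x ∈ M.Q i, h4.toFun x ∈ HB G c d s.1) → ∀ x ∈ M.Q i, ∀ y ∈ M.Q i, ∀ k,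
      |h4.toFun x k - h4.toFun y k| ≤ o s)
    (hn : ∀ s : S₀, ∀ x ∈ M.Q i, h4.toFun x ∈ HB G c d s.1 →
      |h4.toFun x (K.nrm s.1) - K.slo s.1 (K.nrm s.1)| < d * B.τ s.1)
    (hw : ∀ s β, pst L s.1 β ≤ w s) (hδ : ∀ s β, (Fσ β).e s ≤ δ s)
    (hδa : ∀ s : S₀, 4 * δ s ≤ G.a s.1)
    (hnum : ∀ s : S₀, ∀ x ∈ M.Q i, h4.toFun x ∈ HB G c d s.1 →
      c * G.p s.1 + o s ≤ G.p s.1 ∧ 8 * w s + 4 * o s ≤ G.a s.1 ∧
        o s + 2 * w s + 2 * δ s ≤ uu s.1)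
    (hε0 : 0 ≤ ε) (hε : ∀ s : S₀, (∃ x ∈ M.Q i, h4.toFun x ∈ PK G s.1) → 2 * δ s ≤ ε)
    {x : V} (hx : x ∈ M.Q i) : PMv G S₀ c d uu ε (h4.toFun x) (f5.toFun x) := by
  have hxΩ := M.sub i hx
  refine ⟨fun hoff k => ?_, fun s hs hb => ?_, fun s hs hb m hm => ?_⟩
  · have e5 : h5.toFun x = h4.toFun x :=
      O.out.off hxΩ fun s hs => hoff s.1 s.2 (interior_subset hs)
    rw [hf5 x hxΩ, e5]
    have h1 := sg3_disp P (y := h4.toFun x) (δ := ε / 2) (by linarith) (fun s hs β => by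
      have h2 := hε s ⟨x, hx, hs⟩
      have h3 := hδ s β
      linarith) k
    linarith
  · exact (O.mem_boxσ P hf5 ⟨s, hs⟩ hxΩ).2 hb
  · obtain ⟨n1, n2, n3⟩ := hnum ⟨s, hs⟩ x hx hb
    obtain ⟨-, -, h3⟩ := ploc_cell O P hf5 (s := ⟨s, hs⟩) (r0 _) (r1 _) (hNlo _) (hNhi _) (hi _)
      (hZn _) (ho _ ⟨x, hx, hb⟩) (hn _) n1 (hw _) n2 (hδ _) (hδa _) hx hb
    obtain ⟨⟨h4, h5'⟩, h6⟩ := h3 m hm
    have hcp : 0 < c * G.p s := mul_pos (by linarith [H.hc]) (Geo.p_pos (G := G) s)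
    change K.slo s m + c * G.p s ≤ f5.toFun x m at h4
    change f5.toFun x m ≤ K.shi s m - c * G.p s at h5'
    rcases h6 with h6 | ⟨h6, h7⟩ | ⟨h6, h7⟩
    · exact Or.inl (h6.trans n3)
    · exact Or.inr (Or.inl ⟨h6, by linarith, h7⟩)
    · exact Or.inr (Or.inr ⟨h6, h7, by linarith⟩)

end P073.H237.Cov
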