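import Vale.Agent.P073.H237.Elip1
import Vale.Agent.P073.H267.K3T2
import Vale.Agent.P073.H31.SK5
import Vale.Agent.P073.H142.FaceF

/-!
# P073, [K3-TOP]: the last map on a peeled face, over 267's structures

`S5.latC_pk`: `LAtC` for the last map on a peeled face, with the cost `bandD (h3 ·) (h3 ·)`.
-/

open Set Metric Topology Filter MeasureTheory
open scoped ENNReal

set_option linter.unusedSectionVars false

namespace Vale.Agent.P073.H267.K3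

open _root_.P073 _root_.P073.Net _root_.P073.PA691 _root_.P073.H236 _root_.P073.H579
open _root_.P073.H936 _root_.P073.H936.K3
open _root_.P073.H142
open _root_.P073.H345 (PK PB_sub_PK PK_sub_ss tg PLev)
open _root_.P073.H880.RP
open _root_.P073.H919 (HkG HkGF HkGO ZbP sfam HB PI bw_pos' sfam_e slAK_sfam_plate)
open _root_.P073.H429
open Vale.Agent.P073.St (V)
open Vale.Agent.P073.H471 Vale.Agent.P073.H267
open Vale.Agent.P073.H73 (Mesh)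
open Vale.Agent.P073.H193 (Edges edges LAtC)
open Vale.Agent.P073.H926
open Vale.Agent.P073.H238.K3
open Vale.Agent.P073.H233 (Xp)
open Vale.Agent.P073.H31.K3 (pos3 pos3' pos4)

variable {c₀ n δ : ℝ} {j : ℕ} {Ω Λ : Set V} {v w : V} {ρ : V → ℝ} {M : Mesh Ω} {h : ConHomeo Ω Λ}
  {J₀ J : Set (ℕ × (Fin 3 → ℤ))} {P Z : Set M.ι} {K : BoxCx Λ w}
  {D : KIn3 c₀ n j δ v w ρ M h J₀ J P Z} {C : Cells ρ w K} {C₀ μT : ℝ}
  {X : S1 D C C₀ μT} {Y₂ : S2 X} {Ys : Set M.κ} {sc : Sharp} {Y₃ : S3 Y₂ Ys sc}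
  {Y₄ : S4 Y₃} {s : K.S} {k : M.κ}

/-- the processed edges and vertices of the processed squares -/
theorem pclosed_Xp (C : Cells ρ w K) (J₀ : Set (ℕ × (Fin 3 → ℤ))) : PClosed (Xp C J₀) where
  e := fun s hs i hi => pG_of_pS hs hi
  a := fun s hs i hi => pW_of_pS hs (hi (TM.wa_mem K i))
  b := fun s hs i hi => pW_of_pS hs (hi (TM.wb_mem K i))

/-- **the maps on a peeled face** -/
theorem S3.pk_map (Y₃ : S3 Y₂ Ys sc) (hk : (D.dat C).PkS (D.G C) X.h1 s k) {x : V}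
    (hx : x ∈ M.F k) : Y₃.h4.toFun x = PS.map Y₃.T3 (Y₃.h3.toFun x) ∧
      Y₃.h3p.toFun x = Y₃.h3.toFun x :=
  Y₃.map4B hk.1 (H193.mesh_sub M k hx) (pos3' Y₃ hk hx)

/-- **the peeled faces are in the box of the hook** -/
theorem S3.pk_HB (Y₃ : S3 Y₂ Ys sc) (hk : (D.dat C).PkS (D.G C) X.h1 s k) {x : V}
    (hx : x ∈ M.F k) : Y₃.h4.toFun x ∈ HB (D.G C) (29 / 32) (3 / 4) s := by
  obtain ⟨h1, h2⟩ := pos3 Y₃ hk hx
  rw [(Y₃.pk_map hk hx).1, _root_.P073.H919.mem_HB_iff (by norm_num)]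
  have h3 := PS3.nrm (s := (⟨s, hk.1⟩ : (D.dat C).S₀)) Y₃.ps
    (Vale.Agent.P073.H805.PB_mono (by norm_num) s h1)
  have h3' : PS.map Y₃.T3 (Y₃.h3.toFun x) (K.nrm s) = Y₃.h3.toFun x (K.nrm s) := h3
  refine ⟨PS3.mem_PB (s := (⟨s, hk.1⟩ : (D.dat C).S₀)) Y₃.ps (by norm_num) (by norm_num)
    (Vale.Agent.P073.H805.PB_mono (by norm_num) s h1), ?_⟩
  rw [h3']
  have h4 := (D.B C).τ_pos s
  linarith

/-- the supports of the staircase of the tubes -/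
noncomputable abbrev S5.Ft (Y₅ : S5 Y₄) : HFam 3 (pG C J₀) Λ :=
  tfam (YS (D.G C)) (rT (D.G C)) (rT_pos (D.G C))
    (fun e k => (YS_p_lt (D.G C) e k).le) (fun e k => (YS_q_lt (D.G C) e k).le)
    Y₅.H.inj Y₅.Th Y₅.ς0 Y₅.ς1

/-- **the last map on a peeled face** -/
theorem S5.latC_pk (Y₅ : S5 Y₄) (hk : (D.dat C).PkS (D.G C) X.h1 s k) {x : V} (hx : x ∈ M.F k)
    {Aq μ₂ κ ε₆ a' e₀ : ℝ} (hqr : 1 ≤ Aq * (Y₄.q ⟨s, hk.1⟩ * Y₄.r ⟨s, hk.1⟩)) (hAq : 0 ≤ Aq)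
    (hμ : ∀ b, 0 ≤ Y₅.μ b) (hμ2 : ∀ b, Y₅.μ b ≤ μ₂) (hμ20 : 0 ≤ μ₂) (hκ0 : 0 ≤ κ)
    (hκ : ∀ b : pG C J₀, Y₅.μ b * (ebe (D.W C) b.1 - eal (D.W C) b.1) ≤
      κ * ((D.G C).uT b.1 / 4))
    (hε6 : 0 ≤ ε₆)
    (hεb : ∀ b : pG C J₀, Y₄.f5.toFun x ∈ (Y₅.Ft.X b).K → Y₅.ε b ≤ ε₆)
    (ha' : (1 + μ₂ + κ) * Aq ≤ a') (he₀ : (1 + μ₂ + κ) * Y₄.ε ⟨s, hk.1⟩ + ε₆ ≤ e₀) :
    LAtC (D.B C) (Xp C J₀) (fun y => a' * bandD (Y₂.L.lv s) (Y₃.Lt.loP s) (Y₃.Lt.hiP s)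
      (Y₃.Lt.omP s) (Y₃.h3.toFun x) (Y₃.h3.toFun y) + e₀ * ‖y - x‖) (M.F k) Y₅.f.toFun x := by
  have hkΩ : M.F k ⊆ Ω := Vale.Agent.P073.H193.mesh_sub M k
  set sS : (D.dat C).S₀ := ⟨s, hk.1⟩ with hsS
  have hT := Y₅.lay
  have PST := _root_.P073.H919.PSt.of_PS3 Y₃.ps
  set om0 : ℝ := Y₂.L.om s true with hom0
  have hom : ∀ β, Y₂.L.om s β = om0 := fun β => Y₂.Lw.om_eq s β true
  have hst : ∀ β, stp (Y₃.Lt.N s β) (K.slo s (tg s β) + (D.G C).a s)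
      (K.shi s (tg s β) - (D.G C).a s) = om0 := hom
  have h00 : 0 < om0 := by
    rw [← hst true]
    exact stp_pos (Y₃.Lt.bx true s)
  have hqr0 := Y₄.p0 sS
  have hlv : Y₃.Lt.lv s = Y₂.L.lv s := funext fun j => thinL_lv s j
  have hpos : ∀ y ∈ M.F k, Y₃.h4.toFun y ∈ (D.G C).PB (7 / 8) s ∧
      |Y₃.h4.toFun y (K.nrm s) - K.slo s (K.nrm s)| < (D.B C).τ s := fun y hy => by
    rw [(Y₃.pk_map hk hy).1]
    exact pos4 Y₃ hk hy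
  have hD : Disjoint (M.F k) (⋃ b, ⋃ i ∈ ZbT Y₄ b, interior (M.Q i)) := by
    rw [Set.disjoint_left]
    intro y hy hy'
    obtain ⟨b', hy'⟩ := mem_iUnion.1 hy'
    obtain ⟨i', -, hy'⟩ := mem_iUnion₂.1 hy'
    exact _root_.P073.H919.not_interior_of_face M i' hy hy'
  have h5K : ∀ᶠ x' in 𝓝[M.F k] x,
      ‖Y₄.h5.toFun x' - Y₄.h5.toFun x‖ ≤ Y₄.K₂ sS * ‖x' - x‖ := by
    have h1 : Y₄.h5.toFun x ∈ PK (D.G C) s := by
      have h2 := (Y₄.hko.mem sS (hkΩ hx)).2 (Y₃.pk_HB hk hx)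
      exact PB_sub_PK (by norm_num) s (_root_.P073.H919.HB_PB Y₄.H.hc Y₄.H.hd s h2)
    exact nhdsWithin_le_nhds (Y₄.lip5 sS x (hkΩ hx) h1)
  -- one box of a tube at the point
  obtain ⟨ςm, K₆, ρt, h6a, h6b, h6c, h6d⟩ : ∃ ςm K₆ ρt : ℝ, 0 ≤ ςm ∧ 0 ≤ K₆ ∧ ςm * K₆ ≤ ε₆ ∧
      ∀ b, Y₄.f5.toFun x ∈ (Y₅.Ft.X b).K → Y₅.ς b ≤ ςm ∧ 0 < ρt ∧
        (∀ i, ρt ≤ (Y₅.Ft.X b).r i) ∧
        slG (Y₅.Ft.X b).al (Y₅.Ft.X b).be (fun i => (Y₅.Th b).c i - (Y₅.Th b).w i)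
          (fun i => (Y₅.Th b).c i + (Y₅.Th b).w i) (Y₅.ς b) ≤ 1 + μ₂ ∧
        (Y₅.Ft.X b).D / ρt ≤ κ ∧
        ∀ᶠ x' in 𝓝[M.F k] x, |Y₅.h6.toFun x' (Y₅.Ft.X b).j - Y₅.h6.toFun x (Y₅.Ft.X b).j| ≤
          K₆ * ‖x' - x‖ := by
    by_cases hb : ∃ b, Y₄.f5.toFun x ∈ (Y₅.Ft.X b).K
    · obtain ⟨b, hb⟩ := hb
      have hu : 0 < (D.G C).uT b.1 / 4 := by have := (D.G C).uT_pos b.1; positivity
      refine ⟨Y₅.ς b, Y₅.K₂ b, (D.G C).uT b.1 / 4, (Y₅.ς0 b).le, (Y₅.K₂0 b).le,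
        (Y₅.ςK b).trans (hεb b hb), fun b' hb' => ?_⟩
      have hbb : b' = b := by
        by_contra hne
        exact Set.disjoint_left.1 (disjoint_se fun e => hne (Subtype.ext e)) (hT.Ese b' hb')
          (hT.Ese b hb)
      subst hbb
      refine ⟨le_rfl, hu, fun i => le_rfl, ?_, ?_, ?_⟩
      · exact ((Y₅.Th b').slG_le (Y₅.ς0 b').le (Y₅.ς1 b') (hμ b')).trans (by linarith [hμ2 b'])
      · rw [div_le_iff₀ hu]
        exact ((Y₅.Th b').disp_le (hμ b')).trans (hκ b')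
      · have h2 : Y₅.h6.toFun x ∈ YB ((YS (D.G C)).add (rT (D.G C)) (rT_pos (D.G C))
            (fun e k => (YS_p_lt (D.G C) e k).le)
            fun e k => (YS_q_lt (D.G C) e k).le) b'.1 := by
          have hb'' := (hT.memK (hkΩ hx)).2 hb
          change Y₅.h6.toFun x ∈ (tX (YS (D.G C)) (rT (D.G C)) (rT_pos (D.G C)) (Y₅.Th b')
            (Y₅.ς0 b') (Y₅.ς1 b')).K at hb''
          rwa [tX_K (hp := fun e k => (YS_p_lt (D.G C) e k).le)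
            (hq := fun e k => (YS_q_lt (D.G C) e k).le)] at hb''
        filter_upwards [nhdsWithin_le_nhds (Y₅.lip6 b' x (hkΩ hx) h2)] with y h4
        have h5 := norm_le_pi_norm (Y₅.h6.toFun y - Y₅.h6.toFun x) (Y₅.Ft.X b').j
        rw [Pi.sub_apply, Real.norm_eq_abs] at h5
        exact h5.trans h4
    · push Not at hb
      exact ⟨0, 0, 0, le_rfl, le_rfl, by rw [mul_zero]; exact hε6,
        fun b hb' => absurd hb' (hb b)⟩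
  have key := _root_.P073.H142.latC_pk (s := sS) Y₄.hko hT (X := Xp C J₀) (pclosed_Xp C J₀) hk.1
    Y₄.sg Y₄.map5 (r' := Y₄.q sS * Y₄.r sS) hqr0
    (mul_le_of_le_one_left (Y₄.r0 sS).le (Y₄.q1 sS).le) (Y₄.r1 sS) (k := k) hpos
    (fun β => bw_pos' PST β sS) (fun β => sfam_e PST Y₄.p0 Y₄.p1 β sS) (a := Aq / 2)
    (om := om0) (ρ := 1)
    (fun β => ?_) (by positivity) h00.le zero_le_one (fun β => ?_) hD
    (fun b hb => tfit_of hb) hx (K₅ := Y₄.K₂ sS) (K₆ := K₆) (e₁ := Y₄.ε sS) (sl := 1 + μ₂)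
    (κ := κ) (ςm := ςm) (ρt := ρt) (a' := a') (e₀ := e₀) h5K (Y₄.ςK · sS) ?_ h6b h6d
    (by linarith) ?_ ?_ h6a
  · rw [hlv] at key
    refine key.mono ?_
    filter_upwards [self_mem_nhdsWithin] with y hy
    rw [one_mul, (Y₃.pk_map hk hx).2, (Y₃.pk_map hk hy).2]
  · have h1 := slAK_sfam_plate PST Y₄.p0 Y₄.p1 (ς := Y₄.ς β) (fun b => (Y₄.ς0 β b).le) β sS
    have h2 : stp (Y₃.Lt.N sS.1 β) (K.slo sS.1 (tg sS.1 β) + (D.G C).a sS.1)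
      (K.shi sS.1 (tg sS.1 β) - (D.G C).a sS.1) = om0 := hst β
    rw [h2] at h1
    refine h1.trans ?_
    rw [div_le_iff₀ hqr0]
    nlinarith
  · have h2 : stp (Y₃.Lt.N sS.1 β) (K.slo sS.1 (tg sS.1 β) + (D.G C).a sS.1)
      (K.shi sS.1 (tg sS.1 β) - (D.G C).a sS.1) = om0 := hst β
    rw [h2, one_mul]
  · have h1 := Y₄.ςK true sS
    have h2 := mul_pos (Y₄.ς0 true sS) (Y₄.K₂0 sS)
    linarith
  · refine le_trans (le_of_eq ?_) ha'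
    ring
  · linarith

end Vale.Agent.P073.H267.K3
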