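import Vale.Agent.P073.H805.ConfW
import Vale.Agent.P073.H429.THBox
import Vale.Agent.P073.H936.K3Tube
import Vale.Agent.P073.H429.THk

/-!
# P073, (e3) COVER, part (C): cells which are not drawn in the hook of the tubes

`Tube.confW`: a connected passive set which meets the boundary of the box stays on its side of
every band which is far from its old image.
`Thn.exists_band`: a thin band inside every interval which is not too short.
-/

open Set Metric Topology Filter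

namespace P073.H936.K3.BoxK

open P073 P073.H936 P073.H880 P073.H669 P073.H579

variable {ι : Type*} [Fintype ι] {E : Type} [NormedAddCommGroup E] [NormedSpace ℝ E]
  {side : ι → Bool} {ax : Bool → Fin 3} {lo hi : Fin 3 → ℝ} {c w : ι → ℝ} {U : Set E} {Q : Type}
  {D : BoxK side ax lo hi c w U Q} {g : ConHomeo U (Icc lo hi)}

/-- **confinement for one family** -/
theorem Tube.confW (T : D.Tube g) {W : Set E} (hWU : W ⊆ U) (hWc : IsPreconnected W)
    (hWp : ∀ q, Disjoint W (interior (D.K.C q))) (hWb : (W ∩ D.Bd).Nonempty) {j : ι} :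
    ((∀ x ∈ W, D.h.toFun x (ax (side j)) < c j - w j) → ∀ x ∈ W,
      g.toFun x (ax (side j)) < c j - w j) ∧
    ((∀ x ∈ W, c j + w j < D.h.toFun x (ax (side j))) → ∀ x ∈ W,
      c j + w j < g.toFun x (ax (side j))) := by
  have hw := (D.H.ok j).pos
  obtain ⟨x₀, hx₀, hx₀b⟩ := hWb
  have hgx₀ : g.toFun x₀ = D.h.toFun x₀ := T.bd hx₀b
  have hB : g.toFun '' (D.vf.N j) = {y | y ∈ Icc lo hi ∧ |y (ax (side j)) - c j| ≤ 1 * w j} := by
    rw [one_mul]
    ext y
    constructor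
    · rintro ⟨x, hx, rfl⟩
      have hxU := D.N_sub j hx
      exact ⟨g.mapsTo hxU, (T.mem_iff j hxU).1 hx⟩
    · rintro ⟨hy, hyj⟩
      refine ⟨g.invFun y, ?_, g.right_inv hy⟩
      rw [T.mem_iff j (g.mapsTo_inv hy), g.right_inv hy]
      exact hyj
  have hrw : 0 ≤ 1 * w j := by linarith
  have key : (∀ x ∈ W, w j < |D.h.toFun x (ax (side j)) - c j|) → Disjoint W (D.vf.N j) := by
    intro h
    rw [disjoint_left]
    intro x hx hN
    exact absurd (h x hx) (not_lt.2 (le_of_mem_N hN fun q hq => disjoint_left.1 (hWp q) hx hq))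
  have e1 : c j - 1 * w j = c j - w j := by rw [one_mul]
  have e2 : c j + 1 * w j = c j + w j := by rw [one_mul]
  constructor
  · intro hlt
    have hm := key fun x hx => lt_of_lt_of_le (by linarith [hlt x hx]) (neg_le_abs _)
    have h1 := (side_of (D.N_sub j) hB hrw hWU hWc hm hx₀).1
    rw [e1] at h1
    refine h1 ?_
    rw [hgx₀]; exact (hlt x₀ hx₀).le
  · intro hlt
    have hm := key fun x hx => lt_of_lt_of_le (by linarith [hlt x hx]) (le_abs_self _)
    have h1 := (side_of (D.N_sub j) hB hrw hWU hWc hm hx₀).2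
    rw [e2] at h1
    refine h1 ?_
    rw [hgx₀]; exact (hlt x₀ hx₀).le

end P073.H936.K3.BoxK

namespace P073.H237.Cov

open P073 P073.H936 P073.H936.K3 P073.H880 P073.H429 P073.H236 P073.H196

/-- **a thin band inside an interval** -/
theorem exists_band {al be : ℝ} {sl : Finset (ℝ × ℝ)} {μ : ℝ} (T : Thn al be sl μ) (hμ : 0 ≤ μ)
    {x y : ℝ} (hx : al ≤ x) (hy : y ≤ be) (h : μ * (be - al) + 2 * T.om < y - x) :
    ∃ i : T.I, x < T.c i - T.w i ∧ T.c i + T.w i < y := by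
  by_contra hcon
  push Not at hcon
  have hom := T.om_pos
  have hab := T.hab
  have hm : 0 ≤ μ * (be - al) := mul_nonneg hμ (by linarith)
  have hxy : x + T.om ≤ y - T.om := by linarith
  have e1 : bt (fun i : T.I => T.c i - T.w i) (fun i => T.c i + T.w i) (y - T.om) =
      bt (fun i : T.I => T.c i - T.w i) (fun i => T.c i + T.w i) (x + T.om) := by
    unfold bt
    refine Finset.sum_congr rfl fun i _ => ?_
    have hw := T.w_pos i
    have hwo : 2 * T.w i ≤ T.om := by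
      have := T.e0
      show 2 * (T.om / 2 - T.e) ≤ T.om
      linarith
    by_cases h1 : T.c i + T.w i ≤ x + T.om
    · rw [clam_of_ge (by linarith) (h1.trans hxy), clam_of_ge (by linarith) h1]
    · have h2 : y ≤ T.c i + T.w i := by
        refine hcon i ?_
        push Not at h1
        linarith
      have h3 : y - T.om ≤ T.c i - T.w i := by linarith
      rw [clam_of_le h3, clam_of_le (hxy.trans h3)]
  have h1 := T.bs.bt_sub_le (s := y - T.om) (t := be) (by linarith)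
  have h2 := T.bs.bt_sub_le (s := al) (t := x + T.om) (by linarith)
  rw [T.bs.bt_be le_rfl, clam_of_ge hab.le le_rfl, clam_of_mem (by linarith) (by linarith)] at h1
  rw [T.bs.bt_al le_rfl, clam_of_mem (by linarith) (by linarith), clam_of_le le_rfl] at h2
  have h3 := T.fill'
  set b := blen (fun i : T.I => T.c i - T.w i) (fun i => T.c i + T.w i) with hb
  have h4 : b ≤ (be - al) - (y - x - 2 * T.om) := by linarith
  have h5 : (1 + μ) * b ≤ (1 + μ) * ((be - al) - (y - x - 2 * T.om)) :=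
    mul_le_mul_of_nonneg_left h4 (by linarith)
  have h6 : 0 ≤ μ * (y - x - 2 * T.om) := mul_nonneg hμ (by linarith)
  nlinarith


open Vale.Agent.P073.St (V)
open Vale.Agent.P073.H73 (Mesh)
open Vale.Agent.P073.H471 Vale.Agent.P073.H267
open P073.Net P073.PA691

variable {Ω Λ : Set V} {v : V} {K : BoxCx Λ v} {S : Rad K} {W : Wid K S} {B : Boxes W}
  {M : Mesh Ω} {γ : Type*} {φ : γ → K.G} {sl : γ → Finset (ℝ × ℝ)} {μ : γ → ℝ} {Y : Lat B}
  {T : ∀ b, Thn (eal W (φ b)) (ebe W (φ b)) (sl b) (μ b)} {Zb : γ → Set M.ι}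
  {f5 : ConHomeo Ω Λ} {u : V} {H : HkT M Y φ T Zb f5 u} {hΩ : IsOpen Ω} {h6 : ConHomeo Ω Λ}

/-- **a passive connected set which is not inside the box stays on its side of every band** -/
theorem comp_side (O : HTube hΩ H.hookIn h6) {b : γ} {Z : Set V} (hZΩ : Z ⊆ Ω) (hZ : IsCompact Z)
    (hZc : IsPreconnected Z) (hZp : ∀ q, Disjoint Z (interior ((H.hookIn b).K.C q)))
    (hZn : ¬ f5.toFun '' Z ⊆ interior (YB Y (φ b))) (j : (T b).I) :
    ((∀ x ∈ Z, f5.toFun x ∈ YB Y (φ b) → f5.toFun x (K.dir (φ b)) < (T b).c j - (T b).w j) →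
      ∀ x ∈ Z, f5.toFun x ∈ YB Y (φ b) → h6.toFun x (K.dir (φ b)) < (T b).c j - (T b).w j) ∧
    ((∀ x ∈ Z, f5.toFun x ∈ YB Y (φ b) → (T b).c j + (T b).w j < f5.toFun x (K.dir (φ b))) →
      ∀ x ∈ Z, f5.toFun x ∈ YB Y (φ b) → (T b).c j + (T b).w j < h6.toFun x (K.dir (φ b))) := by
  obtain ⟨g, hg, hg1, -⟩ := O.tube b
  have key : ∀ x ∈ Z, f5.toFun x ∈ YB Y (φ b) → ∃ C ⊆ Z, x ∈ C ∧
      (∀ z ∈ C, f5.toFun z ∈ YB Y (φ b)) ∧ C ⊆ (thook Y M φ T Zb b).U f5 ∧
      IsPreconnected C ∧ (C ∩ ((H.hookIn b).boxK hΩ).Bd).Nonempty := by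
    intro x hx hxY
    obtain ⟨C, hC1, hC2, hC3, hC4, ⟨z, hz, hzf⟩⟩ := BoxK.exists_compIn f5 hZΩ hZ hZc
      (X := YB Y (φ b)) isClosed_Icc hZn hx hxY
    refine ⟨C, hC1, hC3, hC4, fun y hy => (H.mem_U b (hZΩ (hC1 hy))).2 (hC4 y hy), hC2,
      ⟨z, hz, ?_⟩⟩
    exact ⟨f5.toFun z, hzf, f5.left_inv (hZΩ (hC1 hz))⟩
  constructor
  · intro h x hx hxY
    obtain ⟨C, hC1, hC3, hC4, hCU, hC2, hCb⟩ := key x hx hxY
    rw [hg1 (hCU hC3)]
    exact (hg.confW hCU hC2 (fun q => (hZp q).mono_left hC1) hCb (j := j)).1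
      (fun y hy => h y (hC1 hy) (hC4 y hy)) x hC3
  · intro h x hx hxY
    obtain ⟨C, hC1, hC3, hC4, hCU, hC2, hCb⟩ := key x hx hxY
    rw [hg1 (hCU hC3)]
    exact (hg.confW hCU hC2 (fun q => (hZp q).mono_left hC1) hCb (j := j)).2
      (fun y hy => h y (hC1 hy) (hC4 y hy)) x hC3

/-- **upper bound of the level coordinate after the hook** -/
theorem v_lt (O : HTube hΩ H.hookIn h6) {b : γ} (hμ : 0 ≤ μ b) {Z : Set V} (hZΩ : Z ⊆ Ω)
    (hZ : IsCompact Z) (hZc : IsPreconnected Z)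
    (hZp : ∀ q, Disjoint Z (interior ((H.hookIn b).K.C q)))
    (hZn : ¬ f5.toFun '' Z ⊆ interior (YB Y (φ b))) {t t' : ℝ}
    (ht : ∀ x ∈ Z, f5.toFun x ∈ YB Y (φ b) → f5.toFun x (K.dir (φ b)) ≤ t)
    (hal : eal W (φ b) ≤ t) (hbe : t' ≤ ebe W (φ b))
    (h : μ b * (ebe W (φ b) - eal W (φ b)) + 2 * (T b).om < t' - t) :
    ∀ x ∈ Z, f5.toFun x ∈ YB Y (φ b) → h6.toFun x (K.dir (φ b)) < t' := by
  obtain ⟨i, h1, h2⟩ := exists_band (T b) hμ hal hbe h
  intro x hx hxY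
  have h3 := (comp_side O hZΩ hZ hZc hZp hZn i).1
    (fun y hy hyY => (ht y hy hyY).trans_lt h1) x hx hxY
  linarith [(T b).w_pos i]

/-- **lower bound of the level coordinate after the hook** -/
theorem lt_v (O : HTube hΩ H.hookIn h6) {b : γ} (hμ : 0 ≤ μ b) {Z : Set V} (hZΩ : Z ⊆ Ω)
    (hZ : IsCompact Z) (hZc : IsPreconnected Z)
    (hZp : ∀ q, Disjoint Z (interior ((H.hookIn b).K.C q)))
    (hZn : ¬ f5.toFun '' Z ⊆ interior (YB Y (φ b))) {t t' : ℝ}
    (ht : ∀ x ∈ Z, f5.toFun x ∈ YB Y (φ b) → t ≤ f5.toFun x (K.dir (φ b)))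
    (hal : eal W (φ b) ≤ t') (hbe : t ≤ ebe W (φ b))
    (h : μ b * (ebe W (φ b) - eal W (φ b)) + 2 * (T b).om < t - t') :
    ∀ x ∈ Z, f5.toFun x ∈ YB Y (φ b) → t' < h6.toFun x (K.dir (φ b)) := by
  obtain ⟨i, h1, h2⟩ := exists_band (T b) hμ hal hbe h
  intro x hx hxY
  have h3 := (comp_side O hZΩ hZ hZc hZp hZn i).2
    (fun y hy hyY => h2.trans_le (ht y hy hyY)) x hx hxY
  linarith [(T b).w_pos i]

/-- the ends of an edge -/
theorem ends_lt (W : Wid K S) (e : K.G) :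
    K.w (K.a e) (K.dir e) + 2 * W.wv (K.a e) + 2 * W.wv (K.b e) < K.w (K.b e) (K.dir e) := by
  have hne : K.a e ≠ K.b e := by
    intro h
    have := K.ab_dir e
    rw [h] at this
    exact lt_irrefl _ this
  have h1 := vdist S hne (l := K.dir e) fun k hk => K.ab_off e k hk
  have h2 := K.ab_dir e
  rw [abs_of_neg (by linarith)] at h1
  have h3 := W.wv_le (K.a e)
  have h4 := W.wv_le (K.b e)
  linarith

/-- **the position after the hook, near a vertex** -/
theorem pos_h6 (O : HTube hΩ H.hookIn h6) (hμ : ∀ b, 0 ≤ μ b) {i' : K.W} {Z : Set V}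
    (hZΩ : Z ⊆ Ω) (hZ : IsCompact Z) (hZc : IsPreconnected Z)
    (hZp : ∀ b q, Disjoint Z (interior ((H.hookIn b).K.C q)))
    (hZn : ∀ b, ¬ f5.toFun '' Z ⊆ interior (YB Y (φ b))) {m m' : ℝ}
    (hm : ∀ x ∈ Z, ∀ k, |f5.toFun x k - K.w i' k| ≤ m) (hmv : W.wv i' / 2 ≤ m) (hmm : m ≤ m')
    (hm' : m' ≤ W.wv i')
    (hd : ∀ b, (i' = K.a (φ b) ∨ i' = K.b (φ b)) →
      μ b * (ebe W (φ b) - eal W (φ b)) + 2 * (T b).om < m' - m) :
    ∀ x ∈ Z, ∀ k, |h6.toFun x k - K.w i' k| ≤ m' := by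
  intro x hx k
  have hxΩ := hZΩ hx
  have hwv := W.wv_pos i'
  have hr := W.wv_le i'
  by_cases hY : ∃ b, f5.toFun x ∈ YB Y (φ b)
  · obtain ⟨b, hb⟩ := hY
    set e := φ b with he
    have hb6 : h6.toFun x ∈ YB Y e := (HkT.mem O b hxΩ).2 hb
    obtain ⟨h61, h62⟩ := mem_YB.1 hb6
    have hend : i' = K.a e ∨ i' = K.b e := by
      refine end_of_se (YB_sub_se Y e hb) ?_
      refine (pi_norm_le_iff_of_nonneg (by linarith [S.r_pos i'])).2 fun l => ?_
      rw [Pi.sub_apply, Real.norm_eq_abs]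
      have := hm x hx l
      linarith [S.r_pos i']
    have hd' := hd b hend
    have hlt := ends_lt W e
    have h7 := W.wv_pos (K.a e)
    have h8 := W.wv_pos (K.b e)
    have hTa := B.T_le_a e
    have hTb := B.T_le_b e
    by_cases hk : k = K.dir e
    · subst hk
      have hfe : ∀ y ∈ Z, |f5.toFun y (K.dir e) - K.w i' (K.dir e)| ≤ m := fun y hy => hm y hy _
      rcases hend with h | h
      · have e1 : eal W e = K.w i' (K.dir e) + W.wv i' / 2 := by rw [h]; rfl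
        have e2 : ebe W e = K.w (K.b e) (K.dir e) - W.wv (K.b e) / 2 := rfl
        rw [← h] at hlt
        have h9 := v_lt O (hμ b) hZΩ hZ hZc (hZp b) (hZn b)
          (t := K.w i' (K.dir e) + m) (t' := K.w i' (K.dir e) + m')
          (fun y hy _ => by linarith [(abs_le.1 (hfe y hy)).2]) (by rw [← he, e1]; linarith)
          (by rw [← he, e2]; linarith) (by linarith) x hx hb
        rw [← he] at h9
        rw [abs_le]
        rw [e1] at h61
        constructor <;> linarith [h61.1]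
      · have e1 : ebe W e = K.w i' (K.dir e) - W.wv i' / 2 := by rw [h]; rfl
        have e2 : eal W e = K.w (K.a e) (K.dir e) + W.wv (K.a e) / 2 := rfl
        rw [← h] at hlt
        have h9 := lt_v O (hμ b) hZΩ hZ hZc (hZp b) (hZn b)
          (t := K.w i' (K.dir e) - m) (t' := K.w i' (K.dir e) - m')
          (fun y hy _ => by linarith [(abs_le.1 (hfe y hy)).1]) (by rw [← he, e2]; linarith)
          (by rw [← he, e1]; linarith) (by linarith) x hx hb
        rw [← he] at h9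
        rw [abs_le]
        rw [e1] at h61
        constructor <;> linarith [h61.2]
    · have h10 := h62 k hk
      have h11 := Y.pT e k
      have h12 := Y.qT e k
      have h13 : K.w (K.a e) k = K.w i' k ∧ 8 * B.T e ≤ W.wv i' := by
        rcases hend with h | h
        · rw [h]; exact ⟨rfl, hTa⟩
        · rw [h]; exact ⟨wab K e hk, hTb⟩
      rw [h13.1] at h10
      rw [abs_le]
      have h14 := h13.2
      have h15 := B.T_pos e
      constructor <;> linarith [h10.1, h10.2]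
  · push Not at hY
    rw [HkT.off_box O hxΩ fun b hb => hY b (interior_subset hb)]
    exact (hm x hx k).trans hmm

variable {r : K.G → Fin 3 → ℝ} {hr : ∀ e k, 0 < r e k} {Y' : Lat B}
  {hp : ∀ e k, Y'.p e k + r e k ≤ B.T e} {hq : ∀ e k, Y'.q e k + r e k ≤ B.T e}
  {hφ : Function.Injective φ} {ς : γ → ℝ} {h0 : ∀ b, 0 < ς b} {h1 : ∀ b, ς b ≤ 1}
  {S' : ConHomeo Λ Λ}

/-- **(e3) COVER, (C)**: passive cells in the vertex zone before the hook of the tubes, not inside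
a box of the hook, are in the vertex zone for the last map -/
theorem covC (O : HTube hΩ H.hookIn h6) (hμ : ∀ b, 0 ≤ μ b)
    (hS : (tfam Y' r hr hp hq hφ T h0 h1).IsH S') {i' : K.W} {Z : Set V}
    (hZΩ : Z ⊆ Ω) (hZ : IsCompact Z) (hZc : IsPreconnected Z)
    (hZp : ∀ b q, Disjoint Z (interior ((H.hookIn b).K.C q)))
    (hZn : ∀ b, ¬ f5.toFun '' Z ⊆ interior (YB Y (φ b))) {m m' m'' : ℝ}
    (hm : ∀ x ∈ Z, ∀ k, |f5.toFun x k - K.w i' k| ≤ m) (hmv : W.wv i' / 2 ≤ m) (hmm : m ≤ m')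
    (hmm' : m' ≤ m'') (hm'' : m'' ≤ W.wv i')
    (hd : ∀ b, (i' = K.a (φ b) ∨ i' = K.b (φ b)) →
      μ b * (ebe W (φ b) - eal W (φ b)) + 2 * (T b).om < m' - m)
    (hd' : ∀ b, (i' = K.a (φ b) ∨ i' = K.b (φ b)) →
      μ b * (ebe W (φ b) - eal W (φ b)) ≤ m'' - m') :
    ∀ x ∈ Z, ∀ k, |S'.toFun (h6.toFun x) k - K.w i' k| ≤ m'' := by
  intro x hx k
  have hpos := pos_h6 O hμ hZΩ hZ hZc hZp hZn hm hmv hmm (hmm'.trans hm'') hd x hx
  have hwv := W.wv_pos i'
  have hrv := W.wv_le i'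
  by_cases hY : ∃ b, h6.toFun x ∈ YB (Y'.add r hr hp hq) (φ b)
  · obtain ⟨b, hb⟩ := hY
    have hend : i' = K.a (φ b) ∨ i' = K.b (φ b) := by
      refine end_of_se (YB_sub_se _ (φ b) hb) ?_
      refine (pi_norm_le_iff_of_nonneg (by linarith [S.r_pos i'])).2 fun l => ?_
      rw [Pi.sub_apply, Real.norm_eq_abs]
      have := hpos l
      linarith [S.r_pos i']
    have h2 := tfam_disp hμ hS hb
    have h3 := hd' b hend
    have h4 := norm_le_pi_norm (S'.toFun (h6.toFun x) - h6.toFun x) k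
    rw [Pi.sub_apply, Real.norm_eq_abs] at h4
    have h5 := abs_le.1 (h4.trans h2)
    have h6' := abs_le.1 (hpos k)
    rw [abs_le]
    constructor <;> linarith [h5.1, h5.2, h6'.1, h6'.2]
  · push Not at hY
    rw [tfam_off hS hY]
    exact (hpos k).trans hmm'

/-- **(e3) COVER, (C)**, for cells -/
theorem covC_cell (O : HTube hΩ H.hookIn h6) (hμ : ∀ b, 0 ≤ μ b)
    (hS : (tfam Y' r hr hp hq hφ T h0 h1).IsH S') {i' : K.W} {i : M.ι} (hi : ∀ b, i ∉ Zb b)
    (hZn : ∀ b, ¬ f5.toFun '' M.Q i ⊆ interior (YB Y (φ b))) {m m' m'' : ℝ}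
    (hm : ∀ x ∈ M.Q i, ∀ k, |f5.toFun x k - K.w i' k| ≤ m) (hmv : W.wv i' / 2 ≤ m)
    (hmm : m ≤ m') (hmm' : m' ≤ m'') (hm'' : m'' < W.wv i')
    (hd : ∀ b, (i' = K.a (φ b) ∨ i' = K.b (φ b)) →
      μ b * (ebe W (φ b) - eal W (φ b)) + 2 * (T b).om < m' - m)
    (hd' : ∀ b, (i' = K.a (φ b) ∨ i' = K.b (φ b)) →
      μ b * (ebe W (φ b) - eal W (φ b)) ≤ m'' - m') :
    (fun x => S'.toFun (h6.toFun x)) '' M.Q i ⊆ interior (Zv W i') := by
  have hcb := Vale.Agent.P073.H244.conBall_cell M i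
  rintro _ ⟨x, hx, rfl⟩
  have hZp : ∀ b q, Disjoint (M.Q i) (interior ((H.hookIn b).K.C q)) := fun b q => by
    rw [disjoint_left]
    exact fun y hy => H.off (Or.inl ⟨i, hi b, Subset.rfl⟩) q hy
  have hpos := covC O hμ hS (M.sub i) hcb.isCompact hcb.isPreconnected hZp hZn hm hmv hmm hmm'
    hm''.le hd hd' x hx
  have h0' := (W.wv_pos i')
  have hmem : S'.toFun (h6.toFun x) ∈ ball (K.w i') (W.wv i') := by
    rw [mem_ball, dist_eq_norm]
    refine (pi_norm_lt_iff h0').2 fun l => ?_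
    rw [Pi.sub_apply, Real.norm_eq_abs]
    exact (hpos l).trans_lt hm''
  exact interior_mono ball_subset_closedBall (by rwa [isOpen_ball.interior_eq])

end P073.H237.Cov
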