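import Vale.Agent.P073.H429.Prot3E
import Vale.Agent.P073.H193.LipCell
import Vale.Agent.P073.H926.RTDat

/-!
# P073, H237, K3C: **[LIP-W]**, `Last3.lip` on the passive cells with a given map

Over 267's structures `S1` .. `S5`.
-/

open Set Metric Topology Filter

set_option linter.unusedSectionVars false

namespace Vale.Agent.P073.H267.K3

open _root_.P073 _root_.P073.Net _root_.P073.PA691 _root_.P073.H236 _root_.P073.H579
open _root_.P073.H936 _root_.P073.H936.K3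
open _root_.P073.H142
open _root_.P073.H345 (PK tg PLev)
open _root_.P073.H429
open Vale.Agent.P073.St (V)
open Vale.Agent.P073.H471 Vale.Agent.P073.H267
open Vale.Agent.P073.H73 (Mesh)
open Vale.Agent.P073.H193 (Edges Cyc edges prot_off)
open Vale.Agent.P073.H304 (Nb In Zmax)
open Vale.Agent.P073.H926
open Vale.Agent.P073.H238.K3
open Vale.Agent.P073.H233 (LAt Xp PSet FullJ)

variable {c₀ n δ : ℝ} {j : ℕ} {Ω Λ : Set V} {v w : V} {ρ : V → ℝ} {M : Mesh Ω} {h : ConHomeo Ω Λ}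
  {J₀ J : Set (ℕ × (Fin 3 → ℤ))} {P Z : Set M.ι} {K : BoxCx Λ w}
  {D : KIn3 c₀ n j δ v w ρ M h J₀ J P Z} {C : Cells ρ w K} {C₀ μT : ℝ}
  {X : S1 D C C₀ μT} {Y₂ : S2 X} {Ys : Set M.κ} {sc : Sharp} {Y₃ : S3 Y₂ Ys sc}
  {Y₄ : S4 Y₃}

/-- a point near a box of round T around an edge, and near the lower end -/
theorem end_near {Λ : Set V} {v : V} {K : BoxCx Λ v} {S : Rad K} {W : Wid K S} {B : Boxes W}
    {G : Geo B} {e : K.G} {y : V} (hse : y ∈ W.se e)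
    (hlat : ∀ k, k ≠ K.dir e → |y k - K.w (K.a e) k| ≤ 3 / 2 * G.lam e)
    (h1 : |y (K.dir e) - K.w (K.a e) (K.dir e)| ≤ 2 * G.be (K.a e) ∨
      |y (K.dir e) - K.w (K.b e) (K.dir e)| ≤ 2 * G.be (K.b e)) :
    ∃ k, (k = K.a e ∨ k = K.b e) ∧ y ∈ interior (Zv W k) ∧ ∀ e', y ∉ B.E e' := by
  have hl := G.lam_pos e
  have hla := G.lam_a e
  have hlb := G.lam_b e
  have hwa := G.be_wv (K.a e)
  have hwb := G.be_wv (K.b e)
  have hba := G.be_pos (K.a e)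
  have hbb := G.be_pos (K.b e)
  have key : ∀ e', y ∈ B.E e' → e' = e := fun e' he' => by
    by_contra hne
    exact Set.disjoint_left.1 (disjoint_se (W := W) hne) (Ze_subset (B.E_subset e' he')) hse
  rcases h1 with h1 | h1
  · refine ⟨_, Or.inl rfl, mem_interior.2 ⟨ball (K.w (K.a e)) (W.wv (K.a e)),
      ball_subset_closedBall, isOpen_ball, ?_⟩, fun e' he' => ?_⟩
    · rw [mem_ball, dist_pi_lt_iff (by linarith)]
      intro k
      rw [Real.dist_eq]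
      by_cases hk : k = K.dir e
      · subst hk; linarith
      · linarith [hlat k hk]
    · obtain rfl := key e' he'
      have h2 := abs_le.1 h1
      have h3 := he'.1.1
      linarith [h2.2]
  · refine ⟨_, Or.inr rfl, mem_interior.2 ⟨ball (K.w (K.b e)) (W.wv (K.b e)),
      ball_subset_closedBall, isOpen_ball, ?_⟩, fun e' he' => ?_⟩
    · rw [mem_ball, dist_pi_lt_iff (by linarith)]
      intro k
      rw [Real.dist_eq]
      by_cases hk : k = K.dir e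
      · subst hk; linarith
      · rw [← wab K e hk]
        linarith [hlat k hk]
    · obtain rfl := key e' he'
      have h2 := abs_le.1 h1
      have h3 := he'.1.2
      linarith [h2.1]

theorem clm_of_mem {lo hi t : ℝ} (h1 : lo ≤ t) (h2 : t ≤ hi) :
    Vale.Agent.P073.H238.K3.clm lo hi t = t := by
  unfold Vale.Agent.P073.H238.K3.clm
  rw [min_eq_right h2, max_eq_right h1]

/-- **the positions of a point of a passive cell with a given map after ROUND T** -/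
theorem S1.wc_cases (X : S1 D C C₀ μT) (hC : 1 ≤ C₀) {i : M.ι} (hi : i ∈ Wc D C) {L : ℝ}
    (hL : 0 < L) (hLip : ∀ x ∈ M.Q i, ∀ y ∈ M.Q i, ‖h.toFun x - h.toFun y‖ ≤ L * ‖x - y‖)
    {x : V} (hx : x ∈ M.Q i) :
    (∀ᶠ y in 𝓝[M.Q i] x, ∀ l, |X.h1.toFun y l - X.h1.toFun x l| ≤ L * ‖y - x‖) ∨
    (∃ k ∈ pW C J₀, X.h1.toFun x ∈ interior (Zv (D.W C) k) ∧
      ∀ e, X.h1.toFun x ∉ (D.B C).E e) ∨
    ∃ e ∈ pG C J₀, X.h1.toFun x ∈ (D.W C).se e ∧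
      (∀ k, k ≠ K.dir e → |X.h1.toFun x k - K.w (K.a e) k| ≤ 3 / 2 * (D.G C).lam e) ∧
      (X.h1.toFun x ∈ interior ((D.B C).E e) ∨ X.h1.toFun x ∈ interior (Zv (D.W C) (K.a e)) ∨
        X.h1.toFun x ∈ interior (Zv (D.W C) (K.b e))) ∧
      ∀ᶠ y in 𝓝[M.Q i] x, |X.h1.toFun y (K.dir e) - X.h1.toFun x (K.dir e)| ≤
        C₀ * L * ‖y - x‖ := by
  have hxΩ := M.sub i hx
  by_cases hoff : ∀ b ∈ pB C J₀, h.toFun x ∉ (D.G C).TB false b
  · left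
    filter_upwards [prot_off X.out (Or.inr hi) hx hoff, self_mem_nhdsWithin] with y hy hyQ l
    rw [hy, X.out.offg i (Or.inr hi) x hx hoff]
    have h1 := norm_le_pi_norm (h.toFun y - h.toFun x) l
    rw [Pi.sub_apply, Real.norm_eq_abs] at h1
    exact h1.trans (hLip y hyQ x hx)
  right
  by_cases hr : ∃ H : Hang K, (.inr H : TBx K) ∈ pB C J₀ ∧ h.toFun x ∈ (D.G C).TB false (.inr H)
  · left
    obtain ⟨H, hH, hxH⟩ := hr
    have h1 := X.out.dispT x hxΩ _ hH hxH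
    have h2 : 16777216 * ω3T δ C (.inr H) ≤ (D.G C).oW H.i := D.ω3T_oT C (.inr H)
    have h3 := (D.G C).oW_be H.i
    have h4 := D.ω3T_pos C (.inr H)
    obtain ⟨h5, h6⟩ := zv_near hxH (y := X.h1.toFun x) (by linarith)
    exact ⟨H.i, pW_of_pS (inr_mem_pB.1 hH) (Geo.hang_mem H), h5, h6⟩
  push Not at hoff hr
  obtain ⟨b, hb, hxb⟩ := hoff
  rcases b with e | H
  · have h1 := X.out.dispT x hxΩ _ hb hxb
    have h2 : 16777216 * ω3T δ C (.inl e) ≤ (D.G C).oG e := D.ω3T_oT C (.inl e)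
    have h3 := (D.G C).oG_uT e
    have h3' := (D.G C).uT_lam e
    have h4 := D.ω3T_pos C (.inl e)
    have h5 := (D.G C).uT_pos e
    have hla := (D.G C).lam_a e
    have hlb := (D.G C).lam_b e
    have hbwa := (D.G C).be_wv (K.a e)
    have hbwb := (D.G C).be_wv (K.b e)
    obtain ⟨a1, a2, a3⟩ := zone_near hxb (y := X.h1.toFun x) (by linarith)
    have he : e ∈ pG C J₀ := inl_mem_pB.1 hb
    have h6 := norm_le_pi_norm (X.h1.toFun x - h.toFun x) (K.dir e)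
    rw [Pi.sub_apply, Real.norm_eq_abs] at h6
    have h6' := abs_le.1 (h6.trans h1)
    have h7 := (Geo.mem_inl.1 hxb).1
    have h8 := eal_lt_ebe (D.W C) e
    unfold eal ebe at h8
    have e1 : (D.G C).tlo true (.inl e) (TBx.ax (.inl e)) =
        K.w (K.a e) (K.dir e) + (D.G C).be (K.a e) := by
      simp only [Geo.tlo, TBx.ax, if_true]
    have e2 : (D.G C).thi true (.inl e) (TBx.ax (.inl e)) =
        K.w (K.b e) (K.dir e) - (D.G C).be (K.b e) := by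
      simp only [Geo.thi, TBx.ax, if_true]
    by_cases hin : K.w (K.a e) (K.dir e) + (D.G C).be (K.a e) + 50 * ω3T δ C (.inl e) <
        X.h1.toFun x (K.dir e) ∧ X.h1.toFun x (K.dir e) <
        K.w (K.b e) (K.dir e) - (D.G C).be (K.b e) - 50 * ω3T δ C (.inl e)
    · right
      refine ⟨e, he, a1, a2, a3, ?_⟩
      have h9 := X.out.lip3 i hi L hL hLip (.inl e) hb _ _ le_rfl (by rw [e1, e2]; linarith)
        le_rfl x hx hxb
      rw [e1, e2] at h9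
      have hcont : ContinuousWithinAt X.h1.toFun (M.Q i) x := (X.h1.cont.mono (M.sub i)) x hx
      have hc2 : ContinuousWithinAt (fun y => X.h1.toFun y (K.dir e)) (M.Q i) x :=
        (continuous_apply (K.dir e)).continuousAt.comp_continuousWithinAt hcont
      filter_upwards [h9, hc2.eventually (isOpen_Ioo.mem_nhds hin)] with y h10 h11
      change |Vale.Agent.P073.H238.K3.clm _ _ (X.h1.toFun y (K.dir e)) -
        Vale.Agent.P073.H238.K3.clm _ _ (X.h1.toFun x (K.dir e))| ≤ _ at h10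
      rwa [clm_of_mem h11.1.le h11.2.le, clm_of_mem hin.1.le hin.2.le] at h10
    · left
      obtain ⟨k, hk, b1, b2⟩ := end_near (G := D.G C) a1 a2 (by
        rw [not_and_or, not_lt, not_lt] at hin
        rcases hin with h9 | h9
        · left
          rw [abs_le]
          constructor <;> linarith [h6'.1, h7.1]
        · right
          rw [abs_le]
          constructor <;> linarith [h6'.2, h7.2])
      exact ⟨k, pW_of_pG he hk, b1, b2⟩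
  · exact absurd hxb (hr H hb)

/-- the last map before the tubes on the passive cells with a given map -/
theorem S4.wc_f5 (Y₄ : S4 Y₃) {i : M.ι} (hi : i ∈ Wc D C) : EqOn Y₄.f5.toFun X.h1.toFun (M.Q i) :=
  Y₄.mvOut.miss i fun _ hx _ hs => X.out.wc_PK D C hi hs hx

/-- **the last map on the passive cells with a given map**, for any layer of the tubes -/
theorem S4.wc_last (Y₄ : S4 Y₃) (hC : 1 ≤ C₀)
    {Pb : pG C J₀ → Set V} {Ft : HFam 3 (pG C J₀) Λ} {Dr : Set V} {ι' : pG C J₀ → Type}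
    [∀ b, Fintype (ι' b)] {l hh : ∀ b, ι' b → ℝ} {ςt : pG C J₀ → ℝ} {h6 : ConHomeo Ω Λ}
    {Sm : ConHomeo Λ Λ}
    (HT : TLay (D.B C) (Subtype.val : pG C J₀ → K.G) Pb Ft Dr l hh ςt Y₄.f5 h6 Sm)
    (NT : TLn (D.G C) (Subtype.val : pG C J₀ → K.G) Ft l hh ςt)
    {i : M.ι} (hi : i ∈ Wc D C) (hDr : Disjoint (M.Q i) Dr) {L : ℝ} (hL : 0 < L)
    (hLip : ∀ x ∈ M.Q i, ∀ y ∈ M.Q i, ‖h.toFun x - h.toFun y‖ ≤ L * ‖x - y‖)
    {x : V} (hx : x ∈ M.Q i) (h6K : H6K Ft ςt Y₄.f5 h6 (M.Q i) L x) :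
    LAt (D.B C) (Xp C J₀) ((3 * C₀ + 1) * L) (M.Q i) (fun y => Sm.toFun (h6.toFun y)) x := by
  have hQ := M.sub i
  have hC0 : 0 ≤ C₀ := by linarith
  have h5 := Y₄.wc_f5 hi
  have h5x := h5 hx
  rcases X.wc_cases hC hi hL hLip hx with h1 | ⟨k, hk, h1, h2⟩ | ⟨e, he, h1, h2, h3, h4⟩
  · refine lat_full HT NT hQ hDr hx (C := C₀) (q := L) hC0 hL.le h6K xp_b ?_
    filter_upwards [h1, self_mem_nhdsWithin] with y h2 hy l
    rw [h5 hy, h5x]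
    refine (h2 l).trans (mul_le_mul_of_nonneg_right ?_ (norm_nonneg _))
    nlinarith
  · rw [← h5x] at h1
    refine lat_zv HT NT hQ hDr hx (C := C₀) (q := L) hC0 hL.le h6K (i := k) hk h1 fun e => ?_
    rw [h5x]; exact h2 e
  · rw [← h5x] at h1 h3
    refine lat_v HT NT hQ hDr hx (C := C₀) (q := L) hC0 hL.le h6K (e := e)
      (xp_b ⟨e, he⟩) h1 ?_ h3 ?_
    · rw [h5x]; exact h2
    · filter_upwards [h4, self_mem_nhdsWithin] with y h6 hy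
      rw [h5 hy, h5x]
      exact h6

/-- **`Last3.lip`, the passive cells with a given map** -/
theorem S5.lip_W (Y₅ : S5 Y₄) (hC : 1 ≤ C₀)
    (μ0 : ∀ b, 0 ≤ Y₅.μ b) (μ1 : ∀ b, Y₅.μ b ≤ 1)
    (μu : ∀ b : pG C J₀, Y₅.μ b * (ebe (D.W C) b.1 - eal (D.W C) b.1) ≤ (D.G C).uT b.1 / 4)
    (hε5 : ∀ i ∉ P, ∀ L, (∀ x ∈ M.Q i, ∀ y ∈ M.Q i, ‖h.toFun x - h.toFun y‖ ≤ L * ‖x - y‖) →
      ∀ b : pG C J₀, (∃ x ∈ M.Q i, Y₅.h6.toFun x ∈ (D.B C).E b.1) → Y₅.ε b ≤ L)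
    (hJ : FullJ w ρ J₀ J) {i : M.ι} (hi : i ∉ P) (hiZ : i ∉ Zd D) {L : ℝ} (hL : 0 < L)
    (hLip : ∀ x ∈ M.Q i, ∀ y ∈ M.Q i, ‖h.toFun x - h.toFun y‖ ≤ L * ‖x - y‖)
    {D₁ : ℝ} (hD₁ : 3 * C₀ + 1 ≤ D₁) {x : V} (hx : x ∈ M.Q i) :
    LAt (D.B C) (Xp C J₀) (D₁ * L) (M.Q i) Y₅.f.toFun x := by
  have hiW : i ∈ Wc D C := ⟨Vale.Agent.P073.H926.full_of C hJ, hi, hiZ⟩
  refine LAt.mono (mul_le_mul_of_nonneg_right hD₁ hL.le) Subset.rfl ?_
  refine Y₄.wc_last hC Y₅.lay (Y₅.tln μ0 μ1 μu) hiW ?_ hL hLip hx ?_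
  · rw [Set.disjoint_iUnion_right]
    intro b
    rw [Set.disjoint_iUnion₂_right]
    intro i' hi'
    refine (M.disj i' i ?_).symm
    rintro rfl
    exact hiZ hi'.1.1
  · intro b hb
    have hxΩ := M.sub i hx
    have h1 := (Y₅.lay.memK (b := b) hxΩ).2 hb
    have h2 : Y₅.h6.toFun x ∈ YB ((YS (D.G C)).add (rT (D.G C)) (rT_pos (D.G C))
        (fun e k => (YS_p_lt (D.G C) e k).le) fun e k => (YS_q_lt (D.G C) e k).le) b.1 := by
      rw [← tX_K (hp := fun e k => (YS_p_lt (D.G C) e k).le)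
        (hq := fun e k => (YS_q_lt (D.G C) e k).le) (T := Y₅.Th b) (h0 := Y₅.ς0 b)
        (h1 := Y₅.ς1 b)]
      exact h1
    refine ⟨Y₅.K₂ b, (Y₅.K₂0 b).le, (Y₅.ςK b).trans (hε5 i hi L hLip b
      ⟨x, hx, Y₅.lay.KE b h1⟩), ?_⟩
    filter_upwards [nhdsWithin_le_nhds (Y₅.lip6 b x hxΩ h2)] with y h3
    have h4 := norm_le_pi_norm (Y₅.h6.toFun y - Y₅.h6.toFun x) (((tfam (Λ := Λ) (YS (D.G C))
      (rT (D.G C)) (rT_pos (D.G C)) (fun e k => (YS_p_lt (D.G C) e k).le)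
      (fun e k => (YS_q_lt (D.G C) e k).le) Y₅.H.inj Y₅.Th Y₅.ς0 Y₅.ς1).X b).j)
    rw [Pi.sub_apply, Real.norm_eq_abs] at h4
    exact h4.trans h3

/-! ### the coordinate of a tube on a passive cell with a given map -/

/-- **the coordinate of a tube** near a point of a passive cell with a given map, in the box of the
tube -/
theorem S4.lipW_dir (Y₄ : S4 Y₃) (hC : 1 ≤ C₀) {i : M.ι} (hi : i ∈ Wc D C) {L : ℝ} (hL : 0 < L)
    (hLip : ∀ x ∈ M.Q i, ∀ y ∈ M.Q i, ‖h.toFun x - h.toFun y‖ ≤ L * ‖x - y‖) {b : pG C J₀}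
    {x : V} (hx : x ∈ M.Q i) (hb : Y₄.f5.toFun x ∈ (D.B C).E b.1) :
    ∀ᶠ y in 𝓝[M.Q i] x, |Y₄.f5.toFun y (K.dir b.1) - Y₄.f5.toFun x (K.dir b.1)| ≤
      C₀ * L * ‖y - x‖ := by
  have h5 := Y₄.wc_f5 hi
  have h5x := h5 hx
  rw [h5x] at hb
  rcases X.wc_cases hC hi hL hLip hx with h1 | ⟨k, hk, h1, h2⟩ | ⟨e, he, h1, h2, h3, h4⟩
  · filter_upwards [h1, self_mem_nhdsWithin] with y h2 hy
    rw [h5 hy, h5x]
    refine (h2 _).trans (mul_le_mul_of_nonneg_right ?_ (norm_nonneg _))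
    nlinarith
  · exact absurd hb (h2 b.1)
  · have hbe : b.1 = e := by
      by_contra hne
      exact Set.disjoint_left.1 (disjoint_se (W := D.W C) hne)
        (Ze_subset ((D.B C).E_subset b.1 hb)) h1
    rw [hbe]
    filter_upwards [h4, self_mem_nhdsWithin] with y h6 hy
    rw [h5 hy, h5x]
    exact h6

/-- **the thin bands of a tube** near a point of a passive cell with a given map -/
theorem S5.lipW_band (Y₅ : S5 Y₄) (hC : 1 ≤ C₀) (F : FullJ w ρ J₀ J) {i : M.ι} (hi : i ∉ P)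
    (hiZ : i ∉ Zd D) {L : ℝ} (hL : 0 < L)
    (hLip : ∀ x ∈ M.Q i, ∀ y ∈ M.Q i, ‖h.toFun x - h.toFun y‖ ≤ L * ‖x - y‖) {b : pG C J₀}
    {x : V} (hx : x ∈ M.Q i) (hb : Y₄.f5.toFun x ∈ (D.B C).E b.1) :
    ∀ᶠ y in 𝓝[M.Q i] x, ∑ i, |clam ((Y₅.Th b).c i - (Y₅.Th b).w i)
        ((Y₅.Th b).c i + (Y₅.Th b).w i) (Y₄.f5.toFun y (K.dir b.1)) -
      clam ((Y₅.Th b).c i - (Y₅.Th b).w i) ((Y₅.Th b).c i + (Y₅.Th b).w i)
        (Y₄.f5.toFun x (K.dir b.1))| ≤ C₀ * L * ‖y - x‖ := by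
  have hiW : i ∈ Wc D C := ⟨Vale.Agent.P073.H926.full_of C F, hi, hiZ⟩
  filter_upwards [Y₄.lipW_dir hC hiW hL hLip hx hb] with y h1
  exact ((Y₅.Th b).sum_clam_le _ _).trans h1

/-- a point of the support of the last staircase of a tube is in the box of the tube -/
theorem YK_sub_E (D : KIn3 c₀ n j δ v w ρ M h J₀ J P Z) (C : Cells ρ w K) (e : K.G) :
    YB ((YS (D.G C)).add (rT (D.G C)) (rT_pos (D.G C))
      (fun e k => (YS_p_lt (D.G C) e k).le) fun e k => (YS_q_lt (D.G C) e k).le) e ⊆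
      (D.B C).E e := by
  intro y hy
  obtain ⟨h1, h2⟩ := mem_YB.1 hy
  have hT := (D.B C).T_pos e
  have ha := (D.W C).wv_pos (K.a e)
  have hb := (D.W C).wv_pos (K.b e)
  refine ⟨?_, fun k hk => ?_⟩
  · exact h1
  · have h3 := h2 k hk
    have h4 := YS_p_lt (D.G C) e k
    have h5 := YS_q_lt (D.G C) e k
    change K.w (K.a e) k - ((YS (D.G C)).p e k + rT (D.G C) e k) ≤ y k ∧
      y k ≤ K.w (K.a e) k + ((YS (D.G C)).q e k + rT (D.G C) e k) at h3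
    rw [abs_le]
    constructor <;> linarith [h3.1, h3.2]

/-! ### tolerances -/

/-- **a tolerance for the cells which meet a compact set** -/
theorem exists_tolW {Ω Λ : Set V} (M : Mesh Ω) (h f : ConHomeo Ω Λ) {A : Set V}
    (hA : IsCompact A) (hAΛ : A ⊆ Λ) : ∃ t > 0, ∀ i, ∀ L,
      (∀ x ∈ M.Q i, ∀ y ∈ M.Q i, ‖h.toFun x - h.toFun y‖ ≤ L * ‖x - y‖) →
      (∃ x ∈ M.Q i, f.toFun x ∈ A) → t ≤ L := by
  obtain ⟨lam, h0, h1⟩ := Vale.Agent.P073.H193.exists_lipMin M (h := h.toFun) h.injOn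
  have hK : IsCompact (f.invFun '' A) := hA.image_of_continuousOn (f.cont_inv.mono hAΛ)
  have hKΩ : f.invFun '' A ⊆ Ω := by
    rintro _ ⟨y, hy, rfl⟩
    exact f.mapsTo_inv (hAΛ hy)
  have hfin := M.fin _ hKΩ hK
  set T := hfin.toFinset with hT
  obtain ⟨t, ht, hle⟩ : ∃ t > 0, ∀ i ∈ T, t ≤ lam i := by
    rcases T.eq_empty_or_nonempty with h2 | h2
    · exact ⟨1, one_pos, fun i hi => by rw [h2] at hi; exact absurd hi (Finset.notMem_empty i)⟩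
    · exact ⟨T.inf' h2 lam, (Finset.lt_inf'_iff h2).2 fun i _ => h0 i, fun i hi =>
        Finset.inf'_le lam hi⟩
  refine ⟨t, ht, fun i L hL ⟨x, hx, hxA⟩ => (hle i ?_).trans (h1 i L hL)⟩
  rw [hT, Set.Finite.mem_toFinset]
  exact ⟨x, hx, _, hxA, f.left_inv (M.sub i hx)⟩

/-- **tolerances over the tubes, all cells** -/
theorem exists_tol5W (D : KIn3 c₀ n j δ v w ρ M h J₀ J P Z) (C : Cells ρ w K)
    (f : ConHomeo Ω Λ) : ∃ t : pG C J₀ → ℝ, (∀ b, 0 < t b) ∧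
      ∀ i, ∀ L, (∀ x ∈ M.Q i, ∀ y ∈ M.Q i, ‖h.toFun x - h.toFun y‖ ≤ L * ‖x - y‖) →
      ∀ b : pG C J₀, (∃ x ∈ M.Q i, f.toFun x ∈ (D.B C).E b.1) → t b ≤ L := by
  have h1 : ∀ b : pG C J₀, ∃ t > 0, ∀ i, ∀ L,
      (∀ x ∈ M.Q i, ∀ y ∈ M.Q i, ‖h.toFun x - h.toFun y‖ ≤ L * ‖x - y‖) →
      (∃ x ∈ M.Q i, f.toFun x ∈ (D.B C).E b.1) → t ≤ L := fun b => by
    have h2 : IsCompact ((D.B C).E b.1) := by
      rw [← YB_sym_one]
      exact isCompact_Icc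
    have h3 : (D.B C).E b.1 ⊆ Λ := by
      rw [← YB_sym_one]
      exact YB_sub _ _
    exact exists_tolW M h f h2 h3
  choose t ht0 ht using h1
  exact ⟨t, ht0, fun i L hL b hb => ht b i L hL hb⟩

/-- **`Last3.lip`, the passive cells with a given map**, with the tolerance of `exists_tol5W` -/
theorem S5.lip_WN (Y₅ : S5 Y₄) (hC : 1 ≤ C₀)
    (μ0 : ∀ b, 0 ≤ Y₅.μ b) (μ1 : ∀ b, Y₅.μ b ≤ 1)
    (μu : ∀ b : pG C J₀, Y₅.μ b * (ebe (D.W C) b.1 - eal (D.W C) b.1) ≤ (D.G C).uT b.1 / 4)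
    {t5 : pG C J₀ → ℝ}
    (ht5 : ∀ i, ∀ L, (∀ x ∈ M.Q i, ∀ y ∈ M.Q i, ‖h.toFun x - h.toFun y‖ ≤ L * ‖x - y‖) →
      ∀ b : pG C J₀, (∃ x ∈ M.Q i, Y₅.h6.toFun x ∈ (D.B C).E b.1) → t5 b ≤ L)
    (hε5 : ∀ b, Y₅.ε b ≤ t5 b) {D₁ : ℝ} (hD₁ : 3 * C₀ + 1 ≤ D₁)
    (hJ : FullJ w ρ J₀ J) : ∀ i, i ∉ P → i ∉ Zd D → ∀ L > 0,
    (∀ i', (M.Q i ∩ M.Q i').Nonempty →
      ∀ x ∈ M.Q i', ∀ y ∈ M.Q i', ‖h.toFun x - h.toFun y‖ ≤ L * ‖x - y‖) →
    ∀ x ∈ M.Q i, LAt (D.B C) (Xp C J₀) (D₁ * L) (M.Q i) Y₅.f.toFun x :=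
  fun i hi hiZ L hL hLip x hx => Y₅.lip_W hC μ0 μ1 μu
    (fun i _ L h1 b hb => (hε5 b).trans (ht5 i L h1 b hb)) hJ hi hiZ hL
    (hLip i ⟨x, hx, hx⟩) hD₁ hx

end Vale.Agent.P073.H267.K3
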