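import Vale.Agent.P073.H267.K3St2
import Vale.Agent.P073.H429.Near3
import Vale.Agent.P073.H926.CovE

/-!
# P073, [K3-TOP]: the fields `off`, `near` of `Last3`, over 267's structures

`S3.mvOut`, `S3.mvOut4`, `S4.mvOut`: positions of `h3`, `h4`, `f5`; `S3.off4`, `S3.near4`: for `h4`;
`S5.off`, `S5.near`: for the last map.
-/

open Set Metric Topology Filter
open scoped ENNReal

set_option linter.unusedSectionVars false

namespace Vale.Agent.P073.H267.K3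

open _root_.P073 _root_.P073.Net _root_.P073.PA691 _root_.P073.H236 _root_.P073.H579
open _root_.P073.H936 _root_.P073.H936.K3
open _root_.P073.H142
open _root_.P073.H196 (ThP)
open _root_.P073.H345 (PK tg PLev)
open _root_.P073.H880.RP
open _root_.P073.H155 (Band3 RelT)
open _root_.P073.H919 (HkG HkGF HkGO ZbP sfam HB PI)
open _root_.P073.H429
open Vale.Agent.P073.St (V)
open Vale.Agent.P073.H471 Vale.Agent.P073.H267
open Vale.Agent.P073.H73 (Mesh)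
open Vale.Agent.P073.H193 (Edges Cyc edges)
open Vale.Agent.P073.H304 (Nb In Zmax)
open Vale.Agent.P073.H926
open Vale.Agent.P073.H238.K3
open Vale.Agent.P073.H341 (HtOk ROutZ vFam)

variable {c₀ n δ : ℝ} {j : ℕ} {Ω Λ : Set V} {v w : V} {ρ : V → ℝ} {M : Mesh Ω} {h : ConHomeo Ω Λ}
  {J₀ J : Set (ℕ × (Fin 3 → ℤ))} {P Z : Set M.ι} {K : BoxCx Λ w}
  {D : KIn3 c₀ n j δ v w ρ M h J₀ J P Z} {C : Cells ρ w K} {C₀ μT : ℝ}
  {X : S1 D C C₀ μT} {Y₂ : S2 X} {Ys : Set M.κ} {sc : Sharp} {Y₃ : S3 Y₂ Ys sc}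
  {Y₄ : S4 Y₃}

/-- positions of `h3` -/
theorem S3.mvOut (Y₃ : S3 Y₂ Ys sc) : MvOut (D.G C) (pS C J₀) M P X.h1 Y₃.h3 :=
  mvOut_h3 (D := D.dat C) Y₂.ex.ex (fun s _ => D.PE_sub_PK C s)
    (fun y => mv_kP (Y₃.ins.isQ false) (Y₃.ins.isQ true) y) (fun i => Y₃.ins.out.img_cell i)
    (fun y => mv_theta Y₃.ins.isΘ y) (fun i hi x hx => Y₃.ins.out.givc i hi x hx) Y₃.missC

theorem S2.muP_pos (Y₂ : S2 X) (s : K.S) : 0 < Y₂.muP s := by
  linarith [Y₂.Lw.δ0 s, Y₂.Lw.δμ s]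

/-- the staircases with a two-stage fade move the points in the supports -/
theorem S3.mv2 (Y₃ : S3 Y₂ Ys sc) (y : V) : _root_.P073.H429.Mv (D.G C) (pS C J₀) y (PS.map Y₃.T2 y) := by
  have key : ∀ β y, _root_.P073.H429.Mv (D.G C) (pS C J₀) y ((Y₃.T2 β).toFun y) := fun β y =>
    _root_.P073.H429.Mv.of_K (Kf := fun s : (D.dat C).S₀ => ((Y₃.F β).B s).K) (φ := Subtype.val) (fun b => b.2)
      (fun _ _ hy => PS3.mem_K Y₃.ps hy)
      (fun s hb => (Y₃.isT2 β).mem (Y₂.muP_pos s.1).le hb) fun ho => (Y₃.isT2 β).off y ho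
  exact (key false y).trans (key true _)

/-- positions of `h4` -/
theorem S3.mvOut4 (Y₃ : S3 Y₂ Ys sc) : MvOut (D.G C) (pS C J₀) M P X.h1 Y₃.h4 :=
  Y₃.mvOut.step fun x hx => by
    rw [Y₃.map4 x hx]
    exact Y₃.mv2 _

/-- positions of `f5` -/
theorem S4.mvOut (Y₄ : S4 Y₃) : MvOut (D.G C) (pS C J₀) M P X.h1 Y₄.f5 :=
  (Y₃.mvOut4.step fun _ hx => mv_hook Y₄.hko hx).step fun x hx => by
    rw [Y₄.map5 x hx]; exact mv_sg3 Y₄.sg _

theorem S3.off4 (Y₃ : S3 Y₂ Ys sc) {x : V} (hx : x ∈ Ω) (hx0 : h.toFun x ∉ Nb w J₀ c₀) :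
    Y₃.h4.toFun x = h.toFun x :=
  f5_off D C X.out.near3 X.out.off3 Y₃.mvOut4 hx hx0

theorem S3.near4 (Y₃ : S3 Y₂ Ys sc) {x : V} (hx : x ∈ Ω) :
    H581.Near 256 ρ (h.toFun x) (Y₃.h4.toFun x) :=
  f5_near D C X.out.near3 Y₃.mvOut4 hx

/-- **`Last3.off`** -/
theorem S5.off (Y₅ : S5 Y₄) : ∀ x ∈ Ω, h.toFun x ∉ Nb w J₀ c₀ → Y₅.f.toFun x = h.toFun x :=
  fun _ hx hx0 => last_off D C Y₅.lay (fun b => b.2)
    (fun _ hx h0 => f5_off D C X.out.near3 X.out.off3 Y₄.mvOut hx h0) hx hx0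

/-- **`Last3.near`** -/
theorem S5.near (Y₅ : S5 Y₄) : ∀ x ∈ Ω, H581.Near 8192 ρ (h.toFun x) (Y₅.f.toFun x) :=
  fun _ hx => last_near D C Y₅.lay (fun _ hx => f5_near D C X.out.near3 Y₄.mvOut hx) hx

end Vale.Agent.P073.H267.K3
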