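import Vale.Agent.P073.H237.LatP
import Vale.Agent.P073.H926.RTDat

/-!
# P073, [ELIP3]: the clause `Last3.elip`

* `S5.latC_top`: `S5.latC_pk` with the demands of 212's `l1_top`;
* `KIn3.edge_act`: the faces at an edge with a small image are drawn;
* `S5.elip`: the clause `elip`, from `latC_top` (peeled faces) and from the estimate of the drawn
  faces which are not peeled (hypothesis `hg`: 142's `latC_giv`).
-/

open Set Metric Topology Filter MeasureTheory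
open scoped ENNReal

set_option linter.unusedSectionVars false

namespace Vale.Agent.P073.H267.K3

open _root_.P073 _root_.P073.Net _root_.P073.PA691 _root_.P073.H236 _root_.P073.H579
open _root_.P073.H936 _root_.P073.H936.K3
open _root_.P073.H142
open _root_.P073.H345 (PK PB_sub_PK PK_sub_ss tg PLev)
open _root_.P073.H880.RP
open _root_.P073.H429
open Vale.Agent.P073.St (V)
open Vale.Agent.P073.H471 Vale.Agent.P073.H267
open Vale.Agent.P073.H73 (Mesh onSeg)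
open Vale.Agent.P073.H193 (Edges edges LAtC)
open Vale.Agent.P073.H304 (Nb Zmax)
open Vale.Agent.P073.H926
open Vale.Agent.P073.H238.K3
open Vale.Agent.P073.H233 (Xp ElipOK3 Adm)

variable {c₀ n δ : ℝ} {j : ℕ} {Ω Λ : Set V} {v w : V} {ρ : V → ℝ} {M : Mesh Ω} {h : ConHomeo Ω Λ}
  {J₀ J : Set (ℕ × (Fin 3 → ℤ))} {P Z : Set M.ι} {K : BoxCx Λ w}
  {D : KIn3 c₀ n j δ v w ρ M h J₀ J P Z} {C : Cells ρ w K} {C₀ μT : ℝ}

/-! ### edges with a small image -/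

/-- **the cells of an edge with a small image are drawn** -/
theorem edge_zd (D : KIn3 c₀ n j δ v w ρ M h J₀ J P Z) (C : Cells ρ w K) {e : (edges M).ε}
    (hη : h.toFun '' (edges M).seg e ⊆ Nb w J₀ (1 / 2 ^ j))
    (hP : ¬ ∃ i ∈ P, (edges M).seg e ⊆ M.Q i) {i : M.ι} (hi : (edges M).seg e ⊆ M.Q i) :
    i ∈ Zd D := by
  have hx : (edges M).a e ∈ (edges M).seg e := left_mem_segment ℝ _ _
  have h1 := D.δpos
  have h2 := D.δle
  have h3 : (1:ℝ) / 2 ^ j ≤ 2 / 2 ^ j - δ := by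
    have e1 : (2:ℝ) / 2 ^ j = 1 / 2 ^ j + 1 / 2 ^ j := by ring
    rw [e1]
    linarith
  refine D.mem_Zmax C ?_ (fun h => hP ⟨i, h, hi⟩) (hi hx)
    (Nb.mono h3 (hη (mem_image_of_mem _ hx)))
  have h4 := D.κ_le_c₀
  have h5 := D.c₀_pos
  have ho := o3_pos D.pos
  have hδ3 := δ3_eq (n := n)
  have hκo := o3_eq (n := n)
  have hκ := D.κ_lt
  have h6 := D.δ_le
  have hj := D.jle
  have e1 : (2:ℝ) / 2 ^ j = 1 / 2 ^ j + 1 / 2 ^ j := by ring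
  rw [e1]
  linarith

/-- **the faces at an edge with a small image are drawn and active** -/
theorem edge_act (D : KIn3 c₀ n j δ v w ρ M h J₀ J P Z) (C : Cells ρ w K) {e : (edges M).ε}
    (hη : h.toFun '' (edges M).seg e ⊆ Nb w J₀ (1 / 2 ^ j))
    (hP : ¬ ∃ i ∈ P, (edges M).seg e ⊆ M.Q i) {k : M.κ} (hk : (edges M).seg e ⊆ M.F k) :
    k ∈ Act D C ∧ k ∈ (D.dat C).DF := by
  refine ⟨?_, ?_, fun i hi hki => hP ⟨i, hi, hk.trans hki⟩⟩
  · rintro i (hi | hi) hki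
    · exact hP ⟨i, hi, hk.trans hki⟩
    · exact hi.2.2 (edge_zd D C hη hP (hk.trans hki))
  · obtain ⟨i, _, -, h1⟩ := M.two k
    exact ⟨i, edge_zd D C hη hP (hk.trans (h1.trans inter_subset_left)),
      h1.trans inter_subset_left⟩

variable {X : S1 D C C₀ μT} {Y₂ : S2 X} {Ys : Set M.κ} {sc : Sharp} {Y₃ : S3 Y₂ Ys sc}
  {Y₄ : S4 Y₃}

/-- the support of the staircase of a tube -/
theorem S5.Ft_K (Y₅ : S5 Y₄) (b : pG C J₀) : (Y₅.Ft.X b).K =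
    YB ((YS (D.G C)).add (rT (D.G C)) (rT_pos (D.G C)) (fun e k => (YS_p_lt (D.G C) e k).le)
      fun e k => (YS_q_lt (D.G C) e k).le) b.1 :=
  tX_K (hp := fun e k => (YS_p_lt (D.G C) e k).le) (hq := fun e k => (YS_q_lt (D.G C) e k).le)
    (h0 := Y₅.ς0 b) (h1 := Y₅.ς1 b)

/-- **the last map on the peeled faces**, with the demands of `l1_top` -/
theorem S5.latC_top (Y₅ : S5 Y₄) (hq : ∀ s, 1 - n / 2048 ≤ Y₄.q s)
    (hr : ∀ s, 1 - n / 2048 ≤ Y₄.r s)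
    (hμ : ∀ b, 0 ≤ Y₅.μ b) (hμ2 : ∀ b, Y₅.μ b ≤ n / 256)
    (hκ : ∀ b : pG C J₀, Y₅.μ b * (ebe (D.W C) b.1 - eal (D.W C) b.1) ≤
      n / 256 * ((D.G C).uT b.1 / 4)) {τ : M.κ → ℝ} (hτ : ∀ k, 0 < τ k)
    (hε5 : ∀ (s : K.S) (k : M.κ) (hk : (D.dat C).PkS (D.G C) X.h1 s k),
      16 * Y₄.ε ⟨s, hk.1⟩ ≤ τ k)
    (hε6 : ∀ (b : pG C J₀) k, (Y₄.f5.toFun '' M.F k ∩
      YB ((YS (D.G C)).add (rT (D.G C)) (rT_pos (D.G C))
      (fun e k => (YS_p_lt (D.G C) e k).le)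
      fun e k => (YS_q_lt (D.G C) e k).le) b.1).Nonempty → 16 * Y₅.ε b ≤ τ k)
    {s : K.S} {k : M.κ} (hk : (D.dat C).PkS (D.G C) X.h1 s k) {x : V} (hx : x ∈ M.F k) :
    LAtC (D.B C) (Xp C J₀) (fun y => 3 * bandD (Y₂.L.lv s) (Y₃.Lt.loP s) (Y₃.Lt.hiP s)
      (Y₃.Lt.omP s) (Y₃.h3.toFun x) (Y₃.h3.toFun y) + τ k * ‖y - x‖) (M.F k)
      Y₅.f.toFun x := by
  have hn := D.pos
  have hn1 := D.nle
  have hn2 := D.le
  have h1 := hq ⟨s, hk.1⟩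
  have h2 := hr ⟨s, hk.1⟩
  have h3 := Y₄.q1 ⟨s, hk.1⟩
  have h4 := Y₄.r1 ⟨s, hk.1⟩
  have h5 := hε5 s k hk
  have h6 := hτ k
  have h7 : 0 ≤ Y₄.ε ⟨s, hk.1⟩ := by
    have h8 := Y₄.ςK true ⟨s, hk.1⟩
    have h9 := mul_pos (Y₄.ς0 true ⟨s, hk.1⟩) (Y₄.K₂0 ⟨s, hk.1⟩)
    linarith
  refine Y₅.latC_pk hk hx (Aq := 2) (μ₂ := n / 256) (κ := n / 256) (ε₆ := τ k / 16) ?_
    (by norm_num) hμ hμ2 (by positivity) (by positivity) hκ (by positivity) (fun b hb => ?_)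
    ?_ ?_
  · nlinarith
  · have h8 := hε6 b k ⟨_, mem_image_of_mem _ hx, by rwa [← Y₅.Ft_K b]⟩
    linarith
  · linarith
  · nlinarith

/-- **the clause `elip`**; `hg`: the drawn faces which are not peeled (142), with any cost which is
controlled along the edge -/
theorem S5.elip (Y₅ : S5 Y₄) (hq : ∀ s, 1 - n / 2048 ≤ Y₄.q s)
    (hr : ∀ s, 1 - n / 2048 ≤ Y₄.r s)
    (hμ : ∀ b, 0 ≤ Y₅.μ b) (hμ2 : ∀ b, Y₅.μ b ≤ n / 256)
    (hκ : ∀ b : pG C J₀, Y₅.μ b * (ebe (D.W C) b.1 - eal (D.W C) b.1) ≤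
      n / 256 * ((D.G C).uT b.1 / 4)) {τ : M.κ → ℝ} (hτ : ∀ k, 0 < τ k)
    (hε5 : ∀ (s : K.S) (k : M.κ) (hk : (D.dat C).PkS (D.G C) X.h1 s k),
      16 * Y₄.ε ⟨s, hk.1⟩ ≤ τ k)
    (hε6 : ∀ (b : pG C J₀) k, (Y₄.f5.toFun '' M.F k ∩
      YB ((YS (D.G C)).add (rT (D.G C)) (rT_pos (D.G C))
      (fun e k => (YS_p_lt (D.G C) e k).le)
      fun e k => (YS_q_lt (D.G C) e k).le) b.1).Nonempty → 16 * Y₅.ε b ≤ τ k)
    -- numbers of the edges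
    (hτe : ∀ k e, (edges M).seg e ⊆ M.F k →
      τ k * ‖(edges M).b e - (edges M).a e‖ ≤ X.bn e)
    -- the faces which are not peeled
    {ag Cg : ℝ} (hag : 0 ≤ ag) {cst : M.κ → V → V → ℝ}
    (hcst : ∀ k ∈ Act D C, ∀ e, (edges M).seg e ⊆ M.F k → ∀ x ∈ (edges M).seg e,
      ∀ y ∈ (edges M).seg e, cst k x y ≤ Cg * X.La e * ‖x - y‖) (hCg : 0 ≤ Cg)
    (hg : ∀ k ∈ (D.dat C).DF, k ∉ (D.dat C).Peel (D.G C) X.h1 → ∀ x ∈ M.F k,
      LAtC (D.B C) (Xp C J₀) (fun y => ag * cst k x y + τ k * ‖y - x‖) (M.F k) Y₅.f.toFun x)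
    {C₁ C₁' D₀ : ℝ} (hD₀ : 1 ≤ D₀) {ε : M.κ → ℝ}
    (hε : ∀ k e, (edges M).seg e ⊆ M.F k → X.εe e ≤ ε k)
    (hC₁ : 3 * Y₃.q + 1 ≤ C₁) (hC₁g : ag * (Cg * C₀) + 1 ≤ C₁) (hC₁' : C₁ ≤ C₁') :
    ∀ k e, (edges M).seg e ⊆ M.F k → h.toFun '' (edges M).seg e ⊆ Nb w J₀ (1 / 2 ^ j) →
      (∃ i ∈ P, (edges M).seg e ⊆ M.Q i) ∨
      ∀ c, Adm M Ys C₁ C₁' ((edges M).seg e) c →
        ElipOK3 (D.B C) (Xp C J₀) h.toFun Y₅.f.toFun c D₀ (ε k) e := by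
  intro k e he hη
  by_cases hP : ∃ i ∈ P, (edges M).seg e ⊆ M.Q i
  · exact Or.inl hP
  refine Or.inr fun c hc => ?_
  have hC₁c : C₁ ≤ c := by
    rcases hc with rfl | ⟨rfl, -⟩
    · exact hC₁'
    · exact le_rfl
  obtain ⟨hact, hDF⟩ := edge_act D C hη hP he
  have hpos := _root_.P073.H142.elen_pos (edges M) e
  have hb0 := X.num.b_pos e
  have hb : ENNReal.ofReal (X.bn e) ≤ ENNReal.ofReal D₀ *
      (len (onSeg h.toFun ((edges M).a e, (edges M).b e)) (Icc 0 1) +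
        ENNReal.ofReal (ε k)) := by
    have h1 := X.num.b_le e fun i hi hei => hi.2.2 (edge_zd D C hη hP hei)
    refine h1.trans ?_
    have h2 : ENNReal.ofReal (X.εe e) ≤ ENNReal.ofReal (ε k) :=
      ENNReal.ofReal_le_ofReal (hε k e he)
    have h3 : (1:ℝ≥0∞) ≤ ENNReal.ofReal D₀ := by
      rw [← ENNReal.ofReal_one]
      exact ENNReal.ofReal_le_ofReal hD₀
    refine (add_le_add_right h2 _).trans ?_
    conv_lhs => rw [← one_mul (_ + _)]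
    gcongr
    exact le_rfl
  have he₀ : τ k ≤ X.bn e / ‖(edges M).b e - (edges M).a e‖ := by
    rw [le_div_iff₀ hpos]
    exact hτe k e he
  by_cases hpk : k ∈ (D.dat C).Peel (D.G C) X.h1
  · obtain ⟨s, hk⟩ := hpk
    refine _root_.P073.H237.Elip.elipOK3_of_latC hb0 hb (C₁ := Y₃.q) (a := 3) (e₀ := τ k)
      (cst := fun x y => bandD (Y₂.L.lv s) (Y₃.Lt.loP s) (Y₃.Lt.hiP s) (Y₃.Lt.omP s)
        (Y₃.h3.toFun x) (Y₃.h3.toFun y)) (fun x hx y hy => ?_) (by norm_num) he₀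
      (hC₁.trans hC₁c) fun x hx => ?_
    · refine (Y₃.band_edge hk he (Y₃.La0 e) x hx y hy).trans ?_
      refine mul_le_mul_of_nonneg_right ?_ (norm_nonneg _)
      rw [mul_div_assoc', le_div_iff₀ hpos]
      exact Y₃.Lq e
    · exact (Y₅.latC_top hq hr hμ hμ2 hκ hτ hε5 hε6 hk (he hx)).anti he
  · refine _root_.P073.H237.Elip.elipOK3_of_latC hb0 hb (C₁ := Cg * C₀) (a := ag) (e₀ := τ k)
      (cst := cst k) (fun x hx y hy => ?_) hag he₀ (hC₁g.trans hC₁c) fun x hx => ?_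
    · refine (hcst k hact e he x hx y hy).trans ?_
      refine mul_le_mul_of_nonneg_right ?_ (norm_nonneg _)
      rw [mul_div_assoc', le_div_iff₀ hpos]
      have h1 := mul_le_mul_of_nonneg_left (X.num.La_le e) hCg
      calc Cg * X.La e * ‖(edges M).b e - (edges M).a e‖
          = Cg * (X.La e * ‖(edges M).b e - (edges M).a e‖) := by ring
        _ ≤ Cg * (C₀ * X.bn e) := h1
        _ = Cg * C₀ * X.bn e := by ring
    · exact (hg k hDF hpk x (he hx)).anti he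

/-- the cost of the drawn faces which are not peeled, along an edge -/
theorem S1.tube_edge (X : S1 D C C₀ μT) {k : M.κ} (hk : k ∈ Act D C) {e : (edges M).ε}
    (he : (edges M).seg e ⊆ M.F k) {l : Fin 3}
    (hl : ∃ b ∈ pB C J₀, b.ax = l ∧ InTm 64 (D.G C) M h (ω3T δ C) b k) :
    ∀ x ∈ (edges M).seg e, ∀ y ∈ (edges M).seg e,
      |X.h1.toFun x l - X.h1.toFun y l| ≤ X.La e * ‖x - y‖ := by
  obtain ⟨b, hb, rfl, hin⟩ := hl
  exact X.out.elip k hk ⟨b, hb⟩ hin e he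

end Vale.Agent.P073.H267.K3
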