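import Vale.Agent.P073.H237.SharpDefs2

/-!
# P073, H237, SHARP2: piecewise affine maps which move disjoint intervals
-/

set_option linter.unusedSectionVars false

open Set Metric Topology Filter

namespace P073.H237

open P073.H31

/-- `0, a 0, b 0, a 1, b 1, …, a (N-1), b (N-1), 1` -/
noncomputable def nd (a b : ℕ → ℝ) (N i : ℕ) : ℝ :=
  if i = 0 then 0 else if 2 * N + 1 ≤ i then 1 else if i % 2 = 1 then a (i / 2) else b (i / 2 - 1)

/-- `N` intervals in increasing order -/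
structure Seq (a b : ℕ → ℝ) (N : ℕ) : Prop where
  pos : 0 < N
  zero : 0 < a 0
  ab : ∀ r < N, a r < b r
  ba : ∀ r, r + 1 < N → b r < a (r + 1)
  one : b (N - 1) < 1

theorem nd_zero (a b : ℕ → ℝ) (N : ℕ) : nd a b N 0 = 0 := by simp [nd]

theorem nd_last (a b : ℕ → ℝ) (N : ℕ) : nd a b N (2 * N + 1) = 1 := by simp [nd]

theorem nd_a (a b : ℕ → ℝ) {N r : ℕ} (hr : r < N) : nd a b N (2 * r + 1) = a r := by
  unfold nd
  rw [if_neg (by omega), if_neg (by omega), if_pos (by omega)]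
  congr 1; omega

theorem nd_b (a b : ℕ → ℝ) {N r : ℕ} (hr : r < N) : nd a b N (2 * r + 2) = b r := by
  unfold nd
  rw [if_neg (by omega), if_neg (by omega), if_neg (by omega)]
  congr 1; omega

/-- the steps -/
theorem nd_cases {N i : ℕ} (hN : 0 < N) (hi : i < 2 * N + 1) (P : ℕ → Prop) (h0 : P 0)
    (ha : ∀ r < N, P (2 * r + 1)) (hb : ∀ r, r + 1 < N → P (2 * r + 2)) (h1 : P (2 * (N - 1) + 2)) :
    P i := by
  rcases Nat.even_or_odd' i with ⟨r, hr | hr⟩
  · rcases Nat.eq_zero_or_pos r with h | h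
    · rw [hr, h]; exact h0
    · obtain ⟨q, rfl⟩ : ∃ q, r = q + 1 := ⟨r - 1, by omega⟩
      rcases Nat.lt_or_ge (q + 1) N with h2 | h2
      · rw [hr]; exact hb q h2
      · have : q = N - 1 := by omega
        rw [hr, this]; exact h1
  · rw [hr]; exact ha r (by omega)

variable {a b a' b' : ℕ → ℝ} {N : ℕ}

theorem Seq.step (h : Seq a b N) {i : ℕ} (hi : i < 2 * N + 1) : nd a b N i < nd a b N (i + 1) := by
  refine nd_cases h.pos hi (fun i => nd a b N i < nd a b N (i + 1)) ?_ ?_ ?_ ?_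
  · rw [nd_zero, show 0 + 1 = 2 * 0 + 1 by rfl, nd_a a b h.pos]; exact h.zero
  · intro r hr
    show nd a b N (2 * r + 1) < nd a b N (2 * r + 2)
    rw [nd_a a b hr, nd_b a b hr]; exact h.ab r hr
  · intro r hr
    show nd a b N (2 * r + 2) < nd a b N (2 * (r + 1) + 1)
    rw [nd_b a b (by omega), nd_a a b hr]; exact h.ba r hr
  · show nd a b N (2 * (N - 1) + 2) < nd a b N (2 * (N - 1) + 2 + 1)
    have e : 2 * (N - 1) + 2 + 1 = 2 * N + 1 := by have := h.pos; omega
    rw [e, nd_last, nd_b a b (by have := h.pos; omega)]; exact h.one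

/-- **the map between two sequences of intervals** -/
theorem exists_T (hS : SpecNodes) (h : Seq a b N) (h' : Seq a' b' N) {L η : ℝ} (hL : 1 ≤ L)
    (l0 : a' 0 ≤ L * a 0) (lab : ∀ r < N, b' r - a' r ≤ L * (b r - a r))
    (lba : ∀ r, r + 1 < N → a' (r + 1) - b' r ≤ L * (a (r + 1) - b r))
    (l1 : 1 - b' (N - 1) ≤ L * (1 - b (N - 1))) (hη : 0 ≤ η)
    (ha : ∀ r < N, |a' r - a r| ≤ η) (hb : ∀ r < N, |b' r - b r| ≤ η) :
    ∃ T T' : ℝ → ℝ, PL1 L T T' ∧ (∀ t ∈ Icc (0:ℝ) 1, |T t - t| ≤ η) ∧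
      ∀ r < N, ∀ t ∈ Icc (a r) (b r), T t = a' r + (b' r - a' r) * ((t - a r) / (b r - a r)) := by
  have hp := h.pos
  have c1 : ∀ i < 2 * N + 1, nd a' b' N (i + 1) - nd a' b' N i ≤
      L * (nd a b N (i + 1) - nd a b N i) := by
    intro i hi
    refine nd_cases hp hi (fun i => nd a' b' N (i + 1) - nd a' b' N i ≤
      L * (nd a b N (i + 1) - nd a b N i)) ?_ ?_ ?_ ?_
    · show nd a' b' N (2 * 0 + 1) - nd a' b' N 0 ≤ L * (nd a b N (2 * 0 + 1) - nd a b N 0)
      rw [nd_zero, nd_zero, nd_a a b hp, nd_a a' b' hp, sub_zero, sub_zero]; exact l0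
    · intro r hr
      show nd a' b' N (2 * r + 2) - nd a' b' N (2 * r + 1) ≤
        L * (nd a b N (2 * r + 2) - nd a b N (2 * r + 1))
      rw [nd_a a b hr, nd_b a b hr, nd_a a' b' hr, nd_b a' b' hr]; exact lab r hr
    · intro r hr
      show nd a' b' N (2 * (r + 1) + 1) - nd a' b' N (2 * r + 2) ≤
        L * (nd a b N (2 * (r + 1) + 1) - nd a b N (2 * r + 2))
      rw [nd_b a b (by omega), nd_a a b hr, nd_b a' b' (by omega), nd_a a' b' hr]; exact lba r hr
    · show nd a' b' N (2 * (N - 1) + 2 + 1) - nd a' b' N (2 * (N - 1) + 2) ≤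
        L * (nd a b N (2 * (N - 1) + 2 + 1) - nd a b N (2 * (N - 1) + 2))
      have e : 2 * (N - 1) + 2 + 1 = 2 * N + 1 := by omega
      rw [e, nd_last, nd_last, nd_b a b (by omega), nd_b a' b' (by omega)]; exact l1
  have c2 : ∀ i ≤ 2 * N + 1, |nd a' b' N i - nd a b N i| ≤ η := by
    intro i hi
    rcases Nat.lt_or_ge i (2 * N + 1) with h4 | h4
    · refine nd_cases hp h4 (fun i => |nd a' b' N i - nd a b N i| ≤ η) ?_ ?_ ?_ ?_
      · show |nd a' b' N 0 - nd a b N 0| ≤ η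
        rw [nd_zero, nd_zero, sub_self, abs_zero]; exact hη
      · intro r hr
        show |nd a' b' N (2 * r + 1) - nd a b N (2 * r + 1)| ≤ η
        rw [nd_a a b hr, nd_a a' b' hr]; exact ha r hr
      · intro r hr
        show |nd a' b' N (2 * r + 2) - nd a b N (2 * r + 2)| ≤ η
        rw [nd_b a b (by omega), nd_b a' b' (by omega)]; exact hb r (by omega)
      · show |nd a' b' N (2 * (N - 1) + 2) - nd a b N (2 * (N - 1) + 2)| ≤ η
        rw [nd_b a b (by omega), nd_b a' b' (by omega)]; exact hb _ (by omega)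
    · have : i = 2 * N + 1 := le_antisymm hi h4
      rw [this, nd_last, nd_last, sub_self, abs_zero]; exact hη
  obtain ⟨T, T', h1, h2, h3⟩ := hS (2 * N + 1) (nd a b N) (nd a' b' N) L η (by omega) hL
    (nd_zero _ _ _) (nd_zero _ _ _) (nd_last _ _ _) (nd_last _ _ _) (fun i hi => h.step hi)
    (fun i hi => h'.step hi) c1 c2
  refine ⟨T, T', h1, h2, fun r hr t ht => ?_⟩
  have := h3 (2 * r + 1) (by omega) t
  rw [show 2 * r + 1 + 1 = 2 * r + 2 by rfl, nd_a a b hr, nd_b a b hr, nd_a a' b' hr,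
    nd_b a' b' hr] at this
  exact this ht

end P073.H237
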