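import Vale.Agent.P073.H936.K3Vert

/-!
# P073, [FIB2] (c): the part of a K3 box near a wall (definitions)
-/

open Set Metric Topology Filter

namespace P073.H936.K3

open P073 P073.H936 P073.H880 P073.H669 P073.H579

variable {ι : Type*} {E : Type} [NormedAddCommGroup E] [NormedSpace ℝ E]
  {side : ι → Bool} {ax : Bool → Fin 3} {lo hi : Fin 3 → ℝ} {c w : ι → ℝ} {U : Set E} {Q : Type}

namespace BoxK

/-- **The part `T` of the target box** is away from the bands of the other family, it is a union of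
lines in direction `ax X`, and the sheets of the family `X` have a connected trace in `T` which
reaches the boundary of the box. -/
structure Near (D : BoxK side ax lo hi c w U Q) (X : Bool) (T : Set (Fin 3 → ℝ)) : Prop where
  sub : T ⊆ Icc lo hi
  conn : ∀ i, side i = X → IsPreconnected (T ∩ {y | y (ax X) = c i})
  bdry : ∀ i, side i = X → (T ∩ {y | y (ax X) = c i} ∩ frontier (Icc lo hi)).Nonempty
  vert : ∀ y ∈ T, ∀ y' ∈ Icc lo hi, (∀ l, l ≠ ax X → y' l = y l) → y' ∈ T
  far : ∀ j, side j ≠ X → ∀ y ∈ T, w j < |y (ax (side j)) - c j|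
  cell : ∀ q, (D.h.toFun '' D.K.C q ∩ T).Nonempty → ∀ j, side j ≠ X → ∀ x ∈ D.K.C q,
    w j < |D.h.toFun x (ax (side j)) - c j|

/-- the points of the domain near the wall: passive points with image in `T`, and points of cells
with image in `T` -/
def Nr (D : BoxK side ax lo hi c w U Q) (T : Set (Fin 3 → ℝ)) (x : E) : Prop :=
  x ∈ U ∧ ((D.h.toFun x ∈ T ∧ ∀ q, x ∉ interior (D.K.C q)) ∨
    ∃ q, x ∈ D.K.C q ∧ D.h.toFun '' D.K.C q ⊆ T)

end BoxK

end P073.H936.K3
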