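import Vale.Agent.P073.H237.SharpDefs

/-!
# P073, H237, SHARP2: definitions, second part: the orders of the arcs
-/

open Set Metric Topology

namespace P073.H237

open P073.H31

/-- the arc in the opposite chart, for arcs which separate the two base corners -/
noncomputable def flipA (A : ArcD) : ArcD := ⟨A.q - A.w' - 1 / 2, A.p + A.w + 1 / 2, A.w', A.w, A.om⟩

/-- the intervals, doubled to both sides, stay in their cells -/
structure Ends.Dbl (X : Ends) (m : ℝ) : Prop where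
  lo : ∀ i < X.n, ∀ s, m + (1 - 2 * m) * X.rk i s / (X.on (X.e i s)).card ≤
    X.lo i s - (X.hi i s - X.lo i s)
  hi : ∀ i < X.n, ∀ s, X.hi i s + (X.hi i s - X.lo i s) ≤
    m + (1 - 2 * m) * (X.rk i s + 1) / (X.on (X.e i s)).card

/-- **the orders**: `σ` lists the arcs around the corner `(0,0)`, then the through arcs, then the
others; `τ` lists, among the first `k1` of these, the through arcs first -/
structure Ends.Ord (X : Ends) (m c om : ℝ) (σ τ : Equiv.Perm ℕ) (k0 k1 : ℕ) : Prop where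
  le : k0 ≤ k1
  le' : k1 ≤ X.n
  σn : ∀ i, σ i < X.n ↔ i < X.n
  τn : ∀ i, τ i < k1 ↔ i < k1
  cls : ∀ i < X.n, (i < k1 ↔ X.thr (σ i) ∨ X.cor (σ i))
  cls' : ∀ i < k1, (i < k0 ↔ X.thr (σ (τ i)))
  pos : Pos X.n fun i => X.arc om (σ i)
  pos' : Pos k1 fun i => flipA (X.arc om (σ (τ i)))
  -- margins
  mg : ∀ i < k1, m / 4 ≤ (X.arc om (σ i)).p ∧ (X.arc om (σ i)).p + (X.arc om (σ i)).w ≤ 1 / 2 - m / 4 ∧
    1 / 2 + m / 4 ≤ (X.arc om (σ i)).q - (X.arc om (σ i)).w' ∧ (X.arc om (σ i)).q ≤ 1 - m / 4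
  -- widths and doubled intervals
  wid : ∀ i < X.n, om ≤ 16 / c * (X.arc om i).w ∧ om ≤ 16 / c * (X.arc om i).w'
  dj : ∀ i < X.n, ∀ j < X.n, i ≠ j →
    ((X.arc om i).p + 2 * (X.arc om i).w ≤ (X.arc om j).p ∨
      (X.arc om j).p + 2 * (X.arc om j).w ≤ (X.arc om i).p) ∧
    ((X.arc om i).q ≤ (X.arc om j).q - 2 * (X.arc om j).w' ∨
      (X.arc om j).q ≤ (X.arc om i).q - 2 * (X.arc om i).w')
  dj' : ∀ i < X.n, ∀ j < X.n, i ≠ j →
    ((flipA (X.arc om i)).p + 2 * (flipA (X.arc om i)).w ≤ (flipA (X.arc om j)).p ∨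
      (flipA (X.arc om j)).p + 2 * (flipA (X.arc om j)).w ≤ (flipA (X.arc om i)).p) ∧
    ((flipA (X.arc om i)).q ≤ (flipA (X.arc om j)).q - 2 * (flipA (X.arc om j)).w' ∨
      (flipA (X.arc om j)).q ≤ (flipA (X.arc om i)).q - 2 * (flipA (X.arc om i)).w')

/-- **[ORD]** -/
def SpecOrd : Prop :=
  ∃ M : ℝ, 0 < M ∧ ∀ (X : Ends) (m c ρ om : ℝ), 0 < m → m < 1 / 4 → 0 < c → c < 1 / 4 → 0 < ρ →
    M * ρ ≤ 1 → 0 < om → om ≤ ρ → X.Near m c ρ om → X.Dbl m →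
    ∃ (σ τ : Equiv.Perm ℕ) (k0 k1 : ℕ), X.Ord m c om σ τ k0 k1

end P073.H237
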