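import Vale.Agent.P073.H237.SharpLip
import Vale.Agent.P073.H31.ShRot

/-!
# P073, H237, SHARP2: drawings with given functions
-/

set_option linter.unusedSectionVars false

open Set Metric Topology Filter

namespace P073.H237

open P073.H31

variable {s h : ℝ}

/-- every pattern with the arcs `A` has a drawing with the functions `z` -/
def Draw (E : Type*) [NormedAddCommGroup E] [NormedSpace ℝ E] (N k : ℕ) (A : ℕ → ArcD)
    (z : ℕ → ℝ → ℝ → ℝ) : Prop :=
  ∀ (C B : Set E) (col : ℕ → Bool) (fn : ℕ → E → ℝ) (γ : ℝ × ℝ → E), Pat k A col C B fn γ →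
    ∃ Φ : ConHomeo Rct (Fil N k C fn),
      (∀ x ∈ Rct, ∀ i : Fin N, (Φ.toFun x).2 i = z i x.1 x.2) ∧
      (∀ x ∈ bR, (Φ.toFun x).1 = γ x)

/-- boundary values over the intervals of the arcs -/
structure IsE (k : ℕ) (A : ℕ → ArcD) (f : ℕ → ℝ → ℝ → ℝ) : Prop where
  top : ∀ i < k, ∀ a, (a ∈ Icc (A i).p ((A i).p + (A i).w) ∨ a ∈ Icc ((A i).q - (A i).w') (A i).q) →
    f i a 1 = (A i).sig a
  zero : ∀ i, k ≤ i → ∀ a t, f i a t = 0

theorem IsE.ins {k : ℕ} {A : ℕ → ArcD} {f : ℕ → ℝ → ℝ → ℝ} (H : IsE k A f) (hs : 0 < s)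
    (h2 : 2 * h < s) (h0 : 0 ≤ h) : IsE (k + 1) A (ins s h (A k) k f) where
  top := by
    intro i hi a ha
    by_cases hik : i = k
    · subst hik
      rw [ins_last, zl, sub_self, zero_div, sub_zero]; rfl
    · rw [ins_ne _ _ _ hik, chs_one hs h2 h0 (ArcD.lam_nonneg a)]
      exact H.top i (by omega) a ha
  zero := by
    intro i hi a t
    rw [ins_ne _ _ _ (by omega)]
    exact H.zero i (by omega) _ _

theorem sig_in {A : ArcD} (g : A.Good) {a : ℝ} (h1 : A.p + A.w ≤ a) (h2 : a ≤ A.q - A.w') :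
    A.sig a = 1 := by
  apply cl1_eq_one
  refine le_max_of_le_right (le_min (le_min one_le_two ?_) (le_min one_le_two ?_))
  · rw [le_div_iff₀ g.w0]; linarith
  · rw [le_div_iff₀ g.w0']; linarith

/-- the boundary values of a drawing -/
theorem isDr_of {E : Type*} [NormedAddCommGroup E] [NormedSpace ℝ E] {N k : ℕ} {A : ℕ → ArcD}
    {col : ℕ → Bool} {C B : Set E} {fn : ℕ → E → ℝ} {γ : ℝ × ℝ → E} {f : ℕ → ℝ → ℝ → ℝ}
    (hP : Pat k A col C B fn γ) (hkN : k ≤ N) (H : IsE k A f) {Φ : ConHomeo Rct (Fil N k C fn)}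
    (Φz : ∀ x ∈ Rct, ∀ i : Fin N, (Φ.toFun x).2 i = f i x.1 x.2)
    (Φb : ∀ x ∈ bR, (Φ.toFun x).1 = γ x) : IsDr k A f where
  zero := H.zero
  top := by
    intro i hi a ha
    have g := hP.pos.good i hi
    have hm : ((a, 1) : ℝ × ℝ) ∈ bR := top_bR ha.1 ha.2
    have hF := Φ.mapsTo hm.1
    obtain ⟨-, F2, F3, -⟩ := hF.2 ⟨i, lt_of_lt_of_le hi hkN⟩
    have hz := Φz _ hm.1 ⟨i, lt_of_lt_of_le hi hkN⟩
    rw [Φb _ hm] at F2 F3
    simp only at F2 F3 hz
    rcases lt_or_ge a (A i).p with c1 | c1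
    · rw [← hz, F2 hi (hP.neg_out i hi _ hm fun _ => Or.inl c1), ArcD.sig, g.lam_zero_left c1.le,
        cl1_eq_zero le_rfl]
    rcases lt_or_ge (A i).q a with c2 | c2
    · rw [← hz, F2 hi (hP.neg_out i hi _ hm fun _ => Or.inr c2), ArcD.sig, g.lam_zero_right c2.le,
        cl1_eq_zero le_rfl]
    rcases le_or_gt a ((A i).p + (A i).w) with c3 | c3
    · exact H.top i hi a (Or.inl ⟨c1, c3⟩)
    rcases le_or_gt ((A i).q - (A i).w') a with c4 | c4
    · exact H.top i hi a (Or.inr ⟨c4, c2⟩)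
    · rw [← hz, F3 hi (hP.pos_in i hi a c3 c4), sig_in g c3.le c4.le]

theorem mds_isE {s : ℝ} {h : ℕ → ℝ} {A : ℕ → ArcD} {k0 : ℕ} {f : ℕ → ℝ → ℝ → ℝ} (hf : IsE k0 A f)
    (hs : 0 < s) : ∀ (m : ℕ), (∀ j < m, 0 < h (k0 + j) ∧ 2 * h (k0 + j) < s) →
      IsE (k0 + m) A (mds s h A k0 f m)
  | 0, _ => hf
  | m + 1, hh => (mds_isE hf hs m fun j hj => hh j (by omega)).ins hs (hh m (by omega)).2
      (hh m (by omega)).1.le

/-- **insertion of all layers** -/
theorem layersE {E : Type*} [NormedAddCommGroup E] [NormedSpace ℝ E] {s : ℝ} {h : ℕ → ℝ}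
    {A : ℕ → ArcD} {k0 N : ℕ} {f : ℕ → ℝ → ℝ → ℝ} (hf : IsE k0 A f) (hs : 0 < s) (hs1 : s ≤ 1)
    (base : Draw E N k0 A f) :
    ∀ (m : ℕ), k0 + m ≤ N → (∀ j < m, 0 < h (k0 + j) ∧ 2 * h (k0 + j) < s) →
      Draw E N (k0 + m) A (mds s h A k0 f m) := by
  intro m
  induction m with
  | zero => intro _ _; exact base
  | succ m ih =>
    intro hkN hh C B col fn γ hP
    have hP' : Pat (k0 + m + 1) A col C B fn γ := hP
    obtain ⟨B₁, B₂, C₁, C₂, hc, hn, hp⟩ := hP'.cut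
    have H : Stp (k0 + m) A col C B fn γ B₁ B₂ C₁ C₂ := ⟨hP', hc, hn, hp⟩
    have hE := mds_isE hf hs m fun j hj => hh j (by omega)
    have IH := ih (by omega) (fun j hj => hh j (by omega))
    obtain ⟨L, hL⟩ := H.exists_L (N := N) (by omega)
    have hP'' := H.new_pat hL
    obtain ⟨Φ₁, Φz, Φb⟩ := IH _ _ _ _ _ hP''
    have hd := isDr_of hP'' (by omega) hE Φz Φb
    exact step' H hd hs hs1 (hh m (by omega)).1 (hh m (by omega)).2 (by omega)
      fun γ' hP'' => IH C₁ _ _ _ γ' hP''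

theorem Pos.congr {k : ℕ} {A A' : ℕ → ArcD} (h : Pos k A) (e : ∀ i < k, A i = A' i) : Pos k A' where
  good i hi := by rw [← e i hi]; exact h.good i hi
  disj i hi j hj hij := by rw [← e i hi, ← e j hj]; exact h.disj i hi j hj hij
  gap j hj i hij := by rw [← e i (hij.trans hj), ← e j hj]; exact h.gap j hj i hij
  ord j hj i hij := by rw [← e i (hij.trans hj), ← e j hj]; exact h.ord j hj i hij

theorem Pos.mono' {k l : ℕ} {A : ℕ → ArcD} (h : Pos k A) (hl : l ≤ k) : Pos l A where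
  good i hi := h.good i (by omega)
  disj i hi j hj hij := h.disj i (by omega) j (by omega) hij
  gap j hj i hij := h.gap j (by omega) i hij
  ord j hj i hij := h.ord j (by omega) i hij

theorem Pat.congr {E : Type*} [NormedAddCommGroup E] [NormedSpace ℝ E] {k : ℕ} {A A' : ℕ → ArcD}
    {col : ℕ → Bool} {C B : Set E} {fn : ℕ → E → ℝ} {γ : ℝ × ℝ → E}
    (h : Pat k A col C B fn γ) (e : ∀ i < k, A i = A' i) : Pat k A' col C B fn γ where
  pos := Pos.congr h.pos e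
  hC := h.hC
  hfn := h.hfn
  hS := h.hS
  γc := h.γc
  γk := h.γk
  γi := h.γi
  γf x hx y hy hxy := by
    rcases h.γf x hx y hy hxy with h1 | ⟨i, hi, h1⟩
    · exact Or.inl h1
    · exact Or.inr ⟨i, hi, by rw [← e i hi]; exact h1⟩
  γL i hi := by rw [← e i hi]; exact h.γL i hi
  γR i hi := by rw [← e i hi]; exact h.γR i hi
  zp i hi := by rw [← e i hi]; exact h.zp i hi
  zq i hi := by rw [← e i hi]; exact h.zq i hi
  pos_in i hi := by rw [← e i hi]; exact h.pos_in i hi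
  neg_out i hi := by rw [← e i hi]; exact h.neg_out i hi
  sub := h.sub
  dis := h.dis
  link i hi j hj hij hne := by rw [← e i hi, ← e j hj]; exact h.link i hi j hj hij hne

theorem Draw.congr {E : Type*} [NormedAddCommGroup E] [NormedSpace ℝ E] {N k : ℕ} {A A' : ℕ → ArcD}
    {z z' : ℕ → ℝ → ℝ → ℝ} (h : Draw E N k A z) (e : ∀ i < k, A i = A' i)
    (ez : ∀ i < N, ∀ x ∈ Rct, z i x.1 x.2 = z' i x.1 x.2) : Draw E N k A' z' := by
  intro C B col fn γ hP
  obtain ⟨Φ, h1, h2⟩ := h C B col fn γ (Pat.congr hP fun i hi => (e i hi).symm)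
  exact ⟨Φ, fun x hx i => (h1 x hx i).trans (ez i i.2 x hx), h2⟩

/-- **change of the order** -/
theorem Draw.perm {E : Type*} [NormedAddCommGroup E] [NormedSpace ℝ E] {N k : ℕ} {A : ℕ → ArcD}
    {z : ℕ → ℝ → ℝ → ℝ} (hkN : k ≤ N) {σ : Equiv.Perm ℕ} (hσ : ∀ i, σ i < k ↔ i < k)
    (hpos : Pos k fun i => A (σ i)) (h : Draw E N k (fun i => A (σ i)) z) :
    Draw E N k A (fun j a t => if j < k then z (σ.symm j) a t else 0) := by
  intro C B col fn γ hP
  have hR : ReC k A (fun i => A (σ i)) σ (fun _ => false) (ConHomeo.refl locCone_bR.conicalSet) := by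
    refine ⟨hσ, hpos, ?_, ?_, ?_, ?_, ?_⟩
    · intro i _ x hx
      simp only [Bool.false_eq_true, if_false]; exact hx
    · intro i _ x hx
      simp only [Bool.false_eq_true, if_false]; exact hx
    · intro i _ x hx
      simp only [Bool.false_eq_true, if_false]; exact hx
    · intro i _ x hx
      simp only [Bool.false_eq_true, if_false]; exact hx
    · intro i _ j _ _ hl; exact hl
  obtain ⟨Φ, h1, h2⟩ := h _ _ _ _ _ (hP.rechart hR)
  obtain ⟨Ψ, h3, h4⟩ := exists_rechart hkN hσ Φ (z := fun i (x : ℝ × ℝ) => z i x.1 x.2) h1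
  refine ⟨Ψ, fun x hx i => ?_, fun x hx => ?_⟩
  · rw [h3 x hx i, reZ]
    simp only [Bool.false_eq_true, if_false]
  · rw [h4, h2 x hx]; rfl

end P073.H237
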