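import Vale.Agent.P073.H805.ConfW
import Vale.Agent.P073.H919.HookF3
import Vale.Agent.P073.H155.SgN

/-!
# P073, (e3) COVER, part (B): position after the hook of the plates

`exists_pband`: a band of a plate inside every interval of length two steps.
`comp_sideP`: a passive connected set which crosses the wall of the box of the plate stays on its
side of every band.
`pos_h5`, `ploc`: the position after the hook of the plates and the second staircases.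
-/

open Set Metric Topology Filter

set_option linter.unusedSectionVars false

namespace P073.H237.Cov

open P073 P073.H936 P073.H936.K3 P073.H142 P073.H880 P073.H345 P073.H236 P073.H579 P073.H919
open _root_.P073.H880.RP (Sg3)
open Vale.Agent.P073.St (V)
open Vale.Agent.P073.H73 (Mesh)
open Vale.Agent.P073.H471 Vale.Agent.P073.H267
open P073.Net P073.PA691

section geo

variable {Λ : Set V} {v : V} {K : BoxCx Λ v} {S : Rad K} {W : Wid K S} {B : Boxes W}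
  {G : Geo B}

/-- the numbers at a corner of a plate -/
theorem a_le_wv (G : Geo B) (s : K.S) {x : V} (hx : x ∈ K.sq s)
    (h : ∀ k, k ≠ K.nrm s → x k = K.slo s k ∨ x k = K.shi s k) :
    ∃ i, K.w i = x ∧ 64 * G.a s ≤ S.r i := by
  obtain ⟨e, i, he, hi, hix⟩ := corner hx h
  refine ⟨i, hix, ?_⟩
  have h1 := G.a_u s
  have h2 := G.u_T s e he
  have h3 := B.T_le_a e
  have h4 := B.T_le_b e
  have h5 := W.wv_le i
  rcases hi with hi | hi
  · rw [← hi] at h3; linarith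
  · rw [← hi] at h4; linarith

/-- the sides of the squares are long -/
theorem side_len (G : Geo B) (s : K.S) {k : Fin 3} (hk : k ≠ K.nrm s) :
    256 * G.a s < K.shi s k - K.slo s k := by
  have hle : ∀ j, K.slo s j ≤ K.shi s j := fun j => (slo_mem s).2 j
  have hx' : Function.update (K.slo s) k (K.shi s k) ∈ K.sq s := by
    refine ⟨fun j => ?_, fun j => ?_⟩
    · by_cases hj : j = k
      · subst hj; rw [Function.update_self]; exact hle _
      · rw [Function.update_of_ne hj]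
    · by_cases hj : j = k
      · subst hj; rw [Function.update_self]
      · rw [Function.update_of_ne hj]; exact hle _
  obtain ⟨i, hi, h1⟩ := a_le_wv G s (slo_mem s) fun _ _ => Or.inl rfl
  obtain ⟨i', hi', h2⟩ := a_le_wv G s hx' fun j hj => by
    by_cases hjk : j = k
    · subst hjk; right; rw [Function.update_self]
    · left; rw [Function.update_of_ne hjk]
  have hne : i ≠ i' := by
    rintro rfl
    have e := hi.symm.trans hi'
    have := congrFun e k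
    rw [Function.update_self] at this
    exact absurd this (K.s_lt s k hk).ne
  have h3 := vdist S hne (l := k) fun j hj => by
    rw [hi, hi', Function.update_of_ne hj]
  rw [hi, hi', Function.update_self, abs_sub_comm, abs_of_nonneg (by linarith [hle k])] at h3
  linarith

/-! ### the bands of a plate -/

/-- the step of the staircases of a plate -/
noncomputable def pst (L : PLev G) (s : K.S) (β : Bool) : ℝ :=
  stp (L.N s β) (K.slo s (tg s β) + G.a s) (K.shi s (tg s β) - G.a s)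

variable (L : PLev G) (s : K.S) (β : Bool)

theorem win_lt : K.slo s (tg s β) + G.a s < K.shi s (tg s β) - G.a s := by
  have h1 := side_len G s (tg_ne s β)
  have h2 := Geo.p_pos (G := G) s
  have h3 := Geo.p_a (G := G) s
  linarith

theorem N_pst : (L.N s β : ℝ) * pst L s β =
    (K.shi s (tg s β) - G.a s) - (K.slo s (tg s β) + G.a s) := by
  have h1 : (L.N s β : ℝ) ≠ 0 := by
    have := (L.lvs s β).pos
    positivity
  unfold pst stp
  rw [mul_div_cancel₀ _ h1]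

theorem pst_pos : 0 < pst L s β := by
  have h1 : (0:ℝ) < (L.N s β : ℝ) := by exact_mod_cast (L.lvs s β).pos
  have h2 := win_lt (G := G) s β
  unfold pst stp
  exact div_pos (by linarith) h1

theorem pcen_sub (e : Bool → ℝ) (k : Fin (L.N s β)) : pcen L s ⟨β, k⟩ - pwid L e s ⟨β, k⟩ =
    K.slo s (tg s β) + G.a s + ((k : ℕ) : ℝ) * pst L s β + e β := by
  show (K.slo s (tg s β) + G.a s + (((k : ℕ) : ℝ) + 1 / 2) * pst L s β) -
    (pst L s β / 2 - e β) = _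
  ring

theorem pcen_add (e : Bool → ℝ) (k : Fin (L.N s β)) : pcen L s ⟨β, k⟩ + pwid L e s ⟨β, k⟩ =
    K.slo s (tg s β) + G.a s + (((k : ℕ) : ℝ) + 1) * pst L s β - e β := by
  show (K.slo s (tg s β) + G.a s + (((k : ℕ) : ℝ) + 1 / 2) * pst L s β) +
    (pst L s β / 2 - e β) = _
  ring

variable {L s β}

/-- **a band of a plate inside an interval** -/
theorem exists_pband {e : Bool → ℝ} (he : 0 < e β) {x : ℝ}
    (hx : K.slo s (tg s β) + G.a s ≤ x)
    (hy : x + 2 * pst L s β ≤ K.shi s (tg s β) - G.a s) :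
    ∃ k : Fin (L.N s β), x < pcen L s ⟨β, k⟩ - pwid L e s ⟨β, k⟩ ∧
      pcen L s ⟨β, k⟩ + pwid L e s ⟨β, k⟩ < x + 2 * pst L s β := by
  set al := K.slo s (tg s β) + G.a s with hal
  set st := pst L s β with hst
  have hst0 : 0 < st := pst_pos L s β
  have hN := N_pst L s β
  rw [← hst, ← hal] at hN
  set k := ⌈(x - al) / st⌉₊ with hk
  have h0 : 0 ≤ (x - al) / st := div_nonneg (by linarith) hst0.le
  have h1 : (x - al) / st ≤ k := Nat.le_ceil _
  have h2 : (k : ℝ) < (x - al) / st + 1 := Nat.ceil_lt_add_one h0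
  rw [div_le_iff₀ hst0] at h1
  have h3 : (k : ℝ) * st < (x - al) + st := by
    have := mul_lt_mul_of_pos_right h2 hst0
    rwa [add_mul, div_mul_cancel₀ _ hst0.ne', one_mul] at this
  have hkN : k < L.N s β := by
    have h4 : ((k : ℝ) + 1) * st < (L.N s β : ℝ) * st := by
      rw [hN]; linarith
    have h5 := lt_of_mul_lt_mul_right h4 hst0.le
    have h6 : (k : ℝ) < (L.N s β : ℝ) := by linarith
    exact_mod_cast h6
  refine ⟨⟨k, hkN⟩, ?_, ?_⟩
  · rw [pcen_sub]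
    show x < al + (k : ℝ) * st + e β
    linarith
  · rw [pcen_add]
    show al + ((k : ℝ) + 1) * st - e β < x + 2 * st
    linarith

end geo

section hook

variable {Ω Λ : Set V} {v : V} {K : BoxCx Λ v} {S : Rad K} {W : Wid K S} {B : Boxes W}
  {G : Geo B} {L : PLev G} {γ : Type*} {φ : γ → K.S} {F : Bool → BFam 3 γ Λ}
  {T : Bool → ConHomeo Λ Λ} {M : Mesh Ω} {κ₀ κ₁ : V → V} {c d : ℝ} {Zb : γ → Set M.ι}
  {h2 h3 h4 : ConHomeo Ω Λ} {u : V} {H : HkG M L φ F T κ₀ κ₁ c d Zb h2 h3 h4 u}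
  {hΩ : IsOpen Ω} {r q : γ → ℝ} {h5 : ConHomeo Ω Λ}

/-- **a passive connected set which crosses the wall stays on its side of every band** -/
theorem comp_sideP (O : HkGF H hΩ r q h5) {b : γ} (r0 : 0 ≤ r b) (r1 : r b < 1) {X : Bool}
    {T' : Set (Fin 3 → ℝ)} (hN : ((H.hookIn b).boxK hΩ).Near X T') {Z : Set V} (hZΩ : Z ⊆ Ω)
    (hZ : IsCompact Z) (hZc : IsPreconnected Z)
    (hZp : ∀ q, Disjoint Z (interior ((H.hookIn b).K.C q)))
    (hZn : ¬ h4.toFun '' Z ⊆ interior (HB G c d (φ b)))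
    (hZT : ∀ x ∈ Z, h4.toFun x ∈ HB G c d (φ b) → h4.toFun x ∈ T') (j : PI L (φ b)) :
    ((∀ x ∈ Z, h4.toFun x ∈ HB G c d (φ b) → h4.toFun x (tg (φ b) j.1) <
        pcen L (φ b) j - pwid L (fun β => (F β).e b) (φ b) j) →
      ∀ x ∈ Z, h4.toFun x ∈ HB G c d (φ b) → h5.toFun x (tg (φ b) j.1) <
        pcen L (φ b) j - r b * pwid L (fun β => (F β).e b) (φ b) j) ∧
    ((∀ x ∈ Z, h4.toFun x ∈ HB G c d (φ b) →
        pcen L (φ b) j + pwid L (fun β => (F β).e b) (φ b) j < h4.toFun x (tg (φ b) j.1)) →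
      ∀ x ∈ Z, h4.toFun x ∈ HB G c d (φ b) →
        pcen L (φ b) j + r b * pwid L (fun β => (F β).e b) (φ b) j <
          h5.toFun x (tg (φ b) j.1)) := by
  obtain ⟨g, ⟨L', O', hS⟩, hg1, -⟩ := O.sw b
  have key : ∀ x ∈ Z, h4.toFun x ∈ HB G c d (φ b) → ∃ C ⊆ Z, x ∈ C ∧
      (∀ z ∈ C, h4.toFun z ∈ HB G c d (φ b)) ∧ C ⊆ (phook M L φ F c d Zb b).U h4 ∧
      IsPreconnected C ∧ (C ∩ ((H.hookIn b).boxK hΩ).Bd).Nonempty := by
    intro x hx hxY
    obtain ⟨C, hC1, hC2, hC3, hC4, ⟨z, hz, hzf⟩⟩ := BoxK.exists_compIn h4 hZΩ hZ hZc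
      (X := HB G c d (φ b)) isClosed_Icc hZn hx hxY
    refine ⟨C, hC1, hC3, hC4, fun y hy => (H.mem_U b (hZΩ (hC1 hy))).2 (hC4 y hy), hC2,
      ⟨z, hz, ?_⟩⟩
    exact ⟨h4.toFun z, hzf, h4.left_inv (hZΩ (hC1 hz))⟩
  constructor
  · intro h x hx hxY
    obtain ⟨C, hC1, hC3, hC4, hCU, hC2, hCb⟩ := key x hx hxY
    rw [hg1 (hCU hC3)]
    exact (hS.confW r0 r1 hN hCU hC2 (fun q => (hZp q).mono_left hC1)
      (fun y hy => hZT y (hC1 hy) (hC4 y hy)) hCb (j := j)).1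
      (fun y hy => h y (hC1 hy) (hC4 y hy)) x hC3
  · intro h x hx hxY
    obtain ⟨C, hC1, hC3, hC4, hCU, hC2, hCb⟩ := key x hx hxY
    rw [hg1 (hCU hC3)]
    exact (hS.confW r0 r1 hN hCU hC2 (fun q => (hZp q).mono_left hC1)
      (fun y hy => hZT y (hC1 hy) (hC4 y hy)) hCb (j := j)).2
      (fun y hy => h y (hC1 hy) (hC4 y hy)) x hC3

/-- `Z` is passive, crosses the wall of the box of the plate `b`, and is near one side -/
structure Cross (H : HkG M L φ F T κ₀ κ₁ c d Zb h2 h3 h4 u) (hΩ : IsOpen Ω) (r : γ → ℝ) (b : γ)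
    (X : Bool) (T' Z : Set V) : Prop where
  r0 : 0 ≤ r b
  r1 : r b < 1
  near : ((H.hookIn b).boxK hΩ).Near X T'
  sub : Z ⊆ Ω
  cpt : IsCompact Z
  con : IsPreconnected Z
  pas : ∀ q, Disjoint Z (interior ((H.hookIn b).K.C q))
  wall : ¬ h4.toFun '' Z ⊆ interior (HB G c d (φ b))
  inT : ∀ x ∈ Z, h4.toFun x ∈ HB G c d (φ b) → h4.toFun x ∈ T'

variable {b : γ} {X : Bool} {T' Z : Set V}

theorem pwid_nonneg (H : HkG M L φ F T κ₀ κ₁ c d Zb h2 h3 h4 u) (j : PI L (φ b)) :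
    0 ≤ pwid L (fun β => (F β).e b) (φ b) j :=
  ((bands_plate L (φ b) (fun β => (F β).he b) (fun β => by
      have h1 := (F β).heo b
      rw [(H.P.B β b).N, (H.P.B β b).al, (H.P.B β b).be] at h1
      exact h1) (c := c) (d := d) H.hc2 H.hd0).ok j).pos.le

/-- upper bound, in the window -/
theorem Cross.lt_add (C : Cross H hΩ r b X T' Z) (O : HkGF H hΩ r q h5) {β : Bool} {t : ℝ}
    (ht : ∀ y ∈ Z, h4.toFun y ∈ HB G c d (φ b) → h4.toFun y (tg (φ b) β) ≤ t)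
    (hal : K.slo (φ b) (tg (φ b) β) + G.a (φ b) ≤ t)
    (hbe : t + 2 * pst L (φ b) β ≤ K.shi (φ b) (tg (φ b) β) - G.a (φ b)) :
    ∀ x ∈ Z, h4.toFun x ∈ HB G c d (φ b) →
      h5.toFun x (tg (φ b) β) < t + 2 * pst L (φ b) β := by
  obtain ⟨k, h6, h7⟩ := exists_pband (L := L) (e := fun β => (F β).e b) ((F β).he b) hal hbe
  intro x hx hxY
  have h8 := (comp_sideP O C.r0 C.r1 C.near C.sub C.cpt C.con C.pas C.wall C.inT ⟨β, k⟩).1
    (fun y hy hyY => (ht y hy hyY).trans_lt h6) x hx hxY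
  have h9 := pwid_nonneg H (b := b) ⟨β, k⟩
  have h10 := mul_nonneg C.r0 h9
  change h5.toFun x (tg (φ b) β) < _ at h8
  linarith

/-- lower bound, in the window -/
theorem Cross.sub_lt (C : Cross H hΩ r b X T' Z) (O : HkGF H hΩ r q h5) {β : Bool} {t : ℝ}
    (ht : ∀ y ∈ Z, h4.toFun y ∈ HB G c d (φ b) → t ≤ h4.toFun y (tg (φ b) β))
    (hal : K.slo (φ b) (tg (φ b) β) + G.a (φ b) ≤ t - 2 * pst L (φ b) β)
    (hbe : t ≤ K.shi (φ b) (tg (φ b) β) - G.a (φ b)) :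
    ∀ x ∈ Z, h4.toFun x ∈ HB G c d (φ b) →
      t - 2 * pst L (φ b) β < h5.toFun x (tg (φ b) β) := by
  obtain ⟨k, h6, h7⟩ := exists_pband (L := L) (e := fun β => (F β).e b) ((F β).he b) hal
    (by linarith)
  intro x hx hxY
  have h8 := (comp_sideP O C.r0 C.r1 C.near C.sub C.cpt C.con C.pas C.wall C.inT ⟨β, k⟩).2
    (fun y hy hyY => lt_of_lt_of_le (by linarith) (ht y hy hyY)) x hx hxY
  have h9 := pwid_nonneg H (b := b) ⟨β, k⟩
  have h10 := mul_nonneg C.r0 h9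
  change _ < h5.toFun x (tg (φ b) β) at h8
  linarith

/-- below the window -/
theorem Cross.lt_first (C : Cross H hΩ r b X T' Z) (O : HkGF H hΩ r q h5) {β : Bool}
    (ht : ∀ y ∈ Z, h4.toFun y ∈ HB G c d (φ b) →
      h4.toFun y (tg (φ b) β) ≤ K.slo (φ b) (tg (φ b) β) + G.a (φ b)) :
    ∀ x ∈ Z, h4.toFun x ∈ HB G c d (φ b) →
      h5.toFun x (tg (φ b) β) < K.slo (φ b) (tg (φ b) β) + G.a (φ b) + pst L (φ b) β := by
  intro x hx hxY
  have hpos := (L.lvs (φ b) β).pos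
  have he := (F β).he b
  have e1 := pcen_sub L (φ b) β (fun β => (F β).e b) ⟨0, hpos⟩
  have e2 := pcen_add L (φ b) β (fun β => (F β).e b) ⟨0, hpos⟩
  simp only [Nat.cast_zero, zero_mul, add_zero, zero_add, one_mul] at e1 e2
  have h8 := (comp_sideP O C.r0 C.r1 C.near C.sub C.cpt C.con C.pas C.wall C.inT
    ⟨β, ⟨0, hpos⟩⟩).1 (fun y hy hyY => by
      have := ht y hy hyY
      change h4.toFun y (tg (φ b) β) < _
      rw [e1]
      linarith) x hx hxY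
  change h5.toFun x (tg (φ b) β) < _ at h8
  have h9 := pwid_nonneg H (b := b) ⟨β, ⟨0, hpos⟩⟩
  have h10 := mul_nonneg C.r0 h9
  linarith

/-- above the window -/
theorem Cross.last_lt (C : Cross H hΩ r b X T' Z) (O : HkGF H hΩ r q h5) {β : Bool}
    (ht : ∀ y ∈ Z, h4.toFun y ∈ HB G c d (φ b) →
      K.shi (φ b) (tg (φ b) β) - G.a (φ b) ≤ h4.toFun y (tg (φ b) β)) :
    ∀ x ∈ Z, h4.toFun x ∈ HB G c d (φ b) →
      K.shi (φ b) (tg (φ b) β) - G.a (φ b) - pst L (φ b) β < h5.toFun x (tg (φ b) β) := by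
  intro x hx hxY
  have hpos := (L.lvs (φ b) β).pos
  have hlt : L.N (φ b) β - 1 < L.N (φ b) β := Nat.sub_lt hpos one_pos
  have he := (F β).he b
  have e1 := pcen_sub L (φ b) β (fun β => (F β).e b) ⟨L.N (φ b) β - 1, hlt⟩
  have e2 := pcen_add L (φ b) β (fun β => (F β).e b) ⟨L.N (φ b) β - 1, hlt⟩
  have e3 : ((L.N (φ b) β - 1 : ℕ) : ℝ) + 1 = (L.N (φ b) β : ℝ) := by
    have : L.N (φ b) β - 1 + 1 = L.N (φ b) β := Nat.sub_add_cancel hpos
    exact_mod_cast this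
  have e4 : ((L.N (φ b) β - 1 : ℕ) : ℝ) = (L.N (φ b) β : ℝ) - 1 := by linarith
  have hN := N_pst L (φ b) β
  simp only [e3] at e2
  simp only [e4] at e1
  rw [hN] at e2
  rw [sub_mul, hN, one_mul] at e1
  have h8 := (comp_sideP O C.r0 C.r1 C.near C.sub C.cpt C.con C.pas C.wall C.inT
    ⟨β, ⟨L.N (φ b) β - 1, hlt⟩⟩).2 (fun y hy hyY => by
      have := ht y hy hyY
      change _ < h4.toFun y (tg (φ b) β)
      linarith) x hx hxY
  change _ < h5.toFun x (tg (φ b) β) at h8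
  have h9 := pwid_nonneg H (b := b) ⟨β, ⟨L.N (φ b) β - 1, hlt⟩⟩
  have h10 := mul_nonneg C.r0 h9
  linarith

/-- **the three cases for a tangential coordinate** -/
theorem Cross.tri (C : Cross H hΩ r b X T' Z) (O : HkGF H hΩ r q h5) {β : Bool} {o : ℝ}
    (ho : ∀ x ∈ Z, ∀ y ∈ Z, |h4.toFun x (tg (φ b) β) - h4.toFun y (tg (φ b) β)| ≤ o)
    (hw : 8 * pst L (φ b) β + 4 * o ≤ G.a (φ b)) {x : V} (hx : x ∈ Z)
    (hxY : h4.toFun x ∈ HB G c d (φ b)) :
    |h5.toFun x (tg (φ b) β) - h4.toFun x (tg (φ b) β)| ≤ o + 2 * pst L (φ b) β ∨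
    (h4.toFun x (tg (φ b) β) ≤ K.slo (φ b) (tg (φ b) β) + 3 / 2 * G.a (φ b) ∧
      h5.toFun x (tg (φ b) β) ≤ K.slo (φ b) (tg (φ b) β) + 3 / 2 * G.a (φ b)) ∨
    (K.shi (φ b) (tg (φ b) β) - 3 / 2 * G.a (φ b) ≤ h4.toFun x (tg (φ b) β) ∧
      K.shi (φ b) (tg (φ b) β) - 3 / 2 * G.a (φ b) ≤ h5.toFun x (tg (φ b) β)) := by
  have hst := pst_pos L (φ b) β
  have hlen := side_len G (φ b) (tg_ne (φ b) β)
  have hap : 0 < G.a (φ b) := by
    have h2 := Geo.p_pos (G := G) (φ b)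
    have h3 := Geo.p_a (G := G) (φ b)
    linarith
  have ho0 : 0 ≤ o := (abs_nonneg _).trans (ho x hx x hx)
  set m := tg (φ b) β with hm
  set y := h4.toFun x m with hy
  have hup : ∀ z ∈ Z, h4.toFun z ∈ HB G c d (φ b) → h4.toFun z m ≤ y + o := fun z hz _ => by
    have := (abs_le.1 (ho z hz x hx)).2
    linarith
  have hdn : ∀ z ∈ Z, h4.toFun z ∈ HB G c d (φ b) → y - o ≤ h4.toFun z m := fun z hz _ => by
    have := (abs_le.1 (ho z hz x hx)).1
    linarith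
  by_cases h1 : y + o ≤ K.slo (φ b) m + G.a (φ b)
  · right; left
    have := C.lt_first O (β := β) (fun z hz hzY => (hup z hz hzY).trans h1) x hx hxY
    constructor <;> linarith
  by_cases h2 : K.shi (φ b) m - G.a (φ b) ≤ y - o
  · right; right
    have := C.last_lt O (β := β) (fun z hz hzY => h2.trans (hdn z hz hzY)) x hx hxY
    constructor <;> linarith
  push Not at h1 h2
  have hU : y + o + 2 * pst L (φ b) β ≤ K.shi (φ b) m - G.a (φ b) →
      h5.toFun x m < y + o + 2 * pst L (φ b) β := fun h =>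
    C.lt_add O hup h1.le h x hx hxY
  have hL : K.slo (φ b) m + G.a (φ b) ≤ y - o - 2 * pst L (φ b) β →
      y - o - 2 * pst L (φ b) β < h5.toFun x m := fun h =>
    C.sub_lt O hdn h h2.le x hx hxY
  by_cases h3 : y + o + 2 * pst L (φ b) β ≤ K.shi (φ b) m - G.a (φ b)
  · have h3' := hU h3
    by_cases h6 : K.slo (φ b) m + G.a (φ b) ≤ y - o - 2 * pst L (φ b) β
    · have h6' := hL h6
      left
      rw [abs_le]
      constructor <;> linarith
    · push Not at h6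
      right; left
      constructor <;> linarith
  · push Not at h3
    right; right
    have h6' := hL (by linarith)
    constructor <;> linarith

end hook

/-! ### the second staircases -/

section stair

variable {Ω Λ : Set V} {v : V} {K : BoxCx Λ v} {S : Rad K} {W : Wid K S} {B : Boxes W} {G : Geo B}
  {L : PLev G} {S₀ : Set K.S} {F : Bool → BFam 3 S₀ Λ} {ς : Bool → S₀ → ℝ}
  {T : Bool → ConHomeo Λ Λ} {y : V} {δ : ℝ}

/-- one family -/
theorem sg3_one (P : Sg3 L S₀ F ς T) (β : Bool) {s : S₀} (hy : y ∈ PK G s.1)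
    (hδ0 : 0 ≤ δ) (hδ : (F β).e s ≤ δ) :
    (T β).toFun y ∈ PK G s.1 ∧ ∀ k, |(T β).toFun y k - y k| ≤ δ := by
  by_cases hK : ∃ s', y ∈ ((F β).B s').K
  · obtain ⟨s', hs⟩ := hK
    have e : s' = s := Subtype.ext (PK_unique (P.mem_K hs) hy)
    subst e
    refine ⟨P.mem_K ((P.isS β).mem hs), fun k => ?_⟩
    have h6 := norm_le_pi_norm ((T β).toFun y - y) k
    rw [Pi.sub_apply, Real.norm_eq_abs] at h6
    exact h6.trans (((P.isS β).norm_sub_le hs).trans hδ)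
  · push Not at hK
    rw [(P.isS β).off y hK]
    exact ⟨hy, fun k => by rw [sub_self, abs_zero]; exact hδ0⟩

/-- **the displacement of the second staircases** -/
theorem sg3_disp (P : Sg3 L S₀ F ς T) (hδ0 : 0 ≤ δ)
    (hδ : ∀ s : S₀, y ∈ PK G s.1 → ∀ β, (F β).e s ≤ δ) (k : Fin 3) :
    |PS.map T y k - y k| ≤ 2 * δ := by
  by_cases hK : ∃ s : S₀, y ∈ PK G s.1
  · obtain ⟨s, hs⟩ := hK
    obtain ⟨h1, h2⟩ := sg3_one P false hs hδ0 (hδ s hs false)
    obtain ⟨h3, h4⟩ := sg3_one P true h1 hδ0 (hδ s hs true)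
    unfold PS.map
    have h7 := abs_sub_le ((T true).toFun ((T false).toFun y) k) ((T false).toFun y k) (y k)
    linarith [h2 k, h4 k]
  · push Not at hK
    have h1 : (T false).toFun y = y := (P.isS false).off y fun s hs => hK s (P.mem_K hs)
    have h2 : (T true).toFun y = y := (P.isS true).off y fun s hs => hK s (P.mem_K hs)
    unfold PS.map
    rw [h1, h2, sub_self, abs_zero]
    linarith

end stair

/-- points of the frontier of a box -/
theorem frontier_Icc_cases {lo hi y : V} (hy : y ∈ frontier (Icc lo hi)) :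
    ∃ k, y k = lo k ∨ y k = hi k := by
  rw [isClosed_Icc.frontier_eq] at hy
  by_contra hcon
  push Not at hcon
  refine hy.2 (mem_interior.2 ⟨{z | ∀ k, lo k < z k ∧ z k < hi k}, fun z hz =>
    ⟨fun k => (hz k).1.le, fun k => (hz k).2.le⟩, ?_, fun k =>
      ⟨lt_of_le_of_ne (hy.1.1 k) (hcon k).1.symm, lt_of_le_of_ne (hy.1.2 k) (hcon k).2⟩⟩)
  have e : {z : V | ∀ k, lo k < z k ∧ z k < hi k} = ⋂ k, {z : V | lo k < z k} ∩ {z : V | z k < hi k} := by
    ext z; simp only [mem_ofPred_eq, mem_iInter, mem_inter_iff]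
  rw [e]
  exact isOpen_iInter_of_finite fun k =>
    (isOpen_lt continuous_const (continuous_apply k)).inter
      (isOpen_lt (continuous_apply k) continuous_const)

section final

variable {Ω Λ : Set V} {v : V} {K : BoxCx Λ v} {S : Rad K} {W : Wid K S} {B : Boxes W}
  {G : Geo B} {L : PLev G} {S₀ : Set K.S} {F : Bool → BFam 3 S₀ Λ}
  {T : Bool → ConHomeo Λ Λ} {M : Mesh Ω} {κ₀ κ₁ : V → V} {c d : ℝ} {Zb : S₀ → Set M.ι}
  {h2 h3 h4 : ConHomeo Ω Λ} {u : V} {H : HkG M L (Subtype.val : S₀ → K.S) F T κ₀ κ₁ c d Zb h2 h3 h4 u}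
  {hΩ : IsOpen Ω} {r q : S₀ → ℝ} {h5 : ConHomeo Ω Λ} {Fσ : Bool → BFam 3 S₀ Λ}
  {ς : Bool → S₀ → ℝ} {Tσ : Bool → ConHomeo Λ Λ} {f5 : ConHomeo Ω Λ}

/-- **PLoc**: position of a passive connected set which crosses the wall of the box of a plate,
after the hook and the second staircases -/
theorem ploc (O : HkGF H hΩ r q h5) (P : Sg3 L S₀ Fσ ς Tσ)
    (hf5 : ∀ x ∈ Ω, f5.toFun x = PS.map Tσ (h5.toFun x)) {s : S₀} (r0 : 0 ≤ r s) (r1 : r s < 1)
    (hNlo : ∀ X, ((H.hookIn s).boxK hΩ).Near X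
      {y | y ∈ HB G c d s.1 ∧ y (tg s.1 (!X)) ≤ K.slo s.1 (tg s.1 (!X)) + G.p s.1})
    (hNhi : ∀ X, ((H.hookIn s).boxK hΩ).Near X
      {y | y ∈ HB G c d s.1 ∧ K.shi s.1 (tg s.1 (!X)) - G.p s.1 ≤ y (tg s.1 (!X))})
    {Z : Set V} (hZΩ : Z ⊆ Ω) (hZ : IsCompact Z) (hZc : IsPreconnected Z)
    (hZp : ∀ q, Disjoint Z (interior ((H.hookIn s).K.C q)))
    (hZn : ¬ h4.toFun '' Z ⊆ interior (HB G c d s.1)) {o w δ : ℝ}
    (ho : ∀ x ∈ Z, ∀ y ∈ Z, ∀ k, |h4.toFun x k - h4.toFun y k| ≤ o)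
    (hn : ∀ x ∈ Z, h4.toFun x ∈ HB G c d s.1 →
      |h4.toFun x (K.nrm s.1) - K.slo s.1 (K.nrm s.1)| < d * B.τ s.1)
    (hco : c * G.p s.1 + o ≤ G.p s.1) (hw : ∀ β, pst L s.1 β ≤ w)
    (hwo : 8 * w + 4 * o ≤ G.a s.1) (hδ : ∀ β, (Fσ β).e s ≤ δ) (hδa : 4 * δ ≤ G.a s.1)
    {x : V} (hx : x ∈ Z) (hxY : h4.toFun x ∈ HB G c d s.1) :
    |f5.toFun x (K.nrm s.1) - K.slo s.1 (K.nrm s.1)| ≤ d * B.τ s.1 ∧
    (∃ l, l ≠ K.nrm s.1 ∧
      ((|h4.toFun x l - K.slo s.1 l| ≤ G.p s.1 ∧ |f5.toFun x l - K.slo s.1 l| ≤ 2 * G.a s.1) ∨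
        (|h4.toFun x l - K.shi s.1 l| ≤ G.p s.1 ∧
          |f5.toFun x l - K.shi s.1 l| ≤ 2 * G.a s.1))) ∧
    ∀ m, m ≠ K.nrm s.1 →
      (K.slo s.1 m + c * G.p s.1 ≤ f5.toFun x m ∧ f5.toFun x m ≤ K.shi s.1 m - c * G.p s.1) ∧
      (|f5.toFun x m - h4.toFun x m| ≤ o + 2 * w + 2 * δ ∨
        (h4.toFun x m ≤ K.slo s.1 m + 2 * G.a s.1 ∧ f5.toFun x m ≤ K.slo s.1 m + 2 * G.a s.1) ∨
        (K.shi s.1 m - 2 * G.a s.1 ≤ h4.toFun x m ∧
          K.shi s.1 m - 2 * G.a s.1 ≤ f5.toFun x m)) := by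
  have hp := Geo.p_pos (G := G) s.1
  have hpa := Geo.p_a (G := G) s.1
  have hxΩ := hZΩ hx
  have hδ0 : 0 ≤ δ := ((Fσ false).he s).le.trans (hδ false)
  have ho0 : 0 ≤ o := (abs_nonneg _).trans (ho x hx x hx 0)
  have hw0 : 0 < w := (pst_pos L s.1 false).trans_le (hw false)
  have h5Y : h5.toFun x ∈ HB G c d s.1 := (O.mem_box s hxΩ).2 hxY
  have h5P : h5.toFun x ∈ G.PB c s.1 := HB_PB le_rfl H.hd _ h5Y
  have h5P' : h5.toFun x ∈ G.PB (7 / 8) s.1 := HB_PB H.hc H.hd _ h5Y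
  have h5K : h5.toFun x ∈ PK G s.1 := PB_sub_PK (by norm_num) s.1 h5P'
  have hdisp : ∀ k, |f5.toFun x k - h5.toFun x k| ≤ 2 * δ := fun k => by
    rw [hf5 x hxΩ]
    refine sg3_disp P hδ0 (fun s' hs' β => ?_) k
    have e : s' = s := Subtype.ext (PK_unique hs' h5K)
    subst e
    exact hδ β
  have hcp : 0 < c * G.p s.1 := mul_pos (by linarith [H.hc]) hp
  obtain ⟨h51, h52⟩ := mem_HB.1 h5Y
  obtain ⟨h41, h42⟩ := mem_HB.1 hxY
  -- a point on the wall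
  obtain ⟨C, hC1, -, hC3, hC4, z, hz, hzf⟩ := BoxK.exists_compIn h4 hZΩ hZ hZc
    (X := HB G c d s.1) isClosed_Icc hZn hx hxY
  obtain ⟨l, hl⟩ := frontier_Icc_cases hzf
  have hzZ := hC1 hz
  have hln : l ≠ K.nrm s.1 := by
    rintro rfl
    have h1 := hn z hzZ (isClosed_Icc.frontier_subset hzf)
    rcases hl with hl | hl
    · simp only [hlo, if_true] at hl
      rw [hl, show K.slo s.1 (K.nrm s.1) - d * B.τ s.1 - K.slo s.1 (K.nrm s.1) =
        -(d * B.τ s.1) by ring, abs_neg] at h1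
      exact absurd (le_abs_self _) (not_le.2 h1)
    · simp only [hhi, if_true] at hl
      rw [hl, show K.slo s.1 (K.nrm s.1) + d * B.τ s.1 - K.slo s.1 (K.nrm s.1) =
        d * B.τ s.1 by ring] at h1
      exact absurd (le_abs_self _) (not_le.2 h1)
  simp only [hlo, hhi, if_neg hln] at hl
  obtain ⟨X, hX⟩ : ∃ X, tg s.1 (!X) = l := ⟨!(bt s.1 l), by rw [Bool.not_not]; exact tg_bt s.1 hln⟩
  -- the side
  have hside : ∃ T', Cross H hΩ r s X T' Z := by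
    rcases hl with hl | hl
    · refine ⟨_, ⟨r0, r1, hNlo X, hZΩ, hZ, hZc, hZp, hZn, fun y hy hyY => ⟨hyY, ?_⟩⟩⟩
      rw [hX]
      have := (abs_le.1 (ho y hy z hzZ l)).2
      linarith
    · refine ⟨_, ⟨r0, r1, hNhi X, hZΩ, hZ, hZc, hZp, hZn, fun y hy hyY => ⟨hyY, ?_⟩⟩⟩
      rw [hX]
      have := (abs_le.1 (ho y hy z hzZ l)).1
      linarith
  obtain ⟨T', HC⟩ := hside
  refine ⟨?_, ⟨l, hln, ?_⟩, fun m hm => ⟨?_, ?_⟩⟩
  · rw [hf5 x hxΩ, P.nrm h5P']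
    exact h52
  · have h6 := h41 l hln
    have h7 := h51 l hln
    have hxz := abs_le.1 (ho x hx z hzZ l)
    have hd' := abs_le.1 (hdisp l)
    rcases hl with hl | hl
    · left
      have h8 := HC.lt_first O (β := !X) (fun y hy hyY => by
        show h4.toFun y (tg s.1 (!X)) ≤ K.slo s.1 (tg s.1 (!X)) + G.a s.1
        rw [hX]
        have := (abs_le.1 (ho y hy z hzZ l)).2
        linarith) x hx hxY
      change h5.toFun x (tg s.1 (!X)) < K.slo s.1 (tg s.1 (!X)) + G.a s.1 + pst L s.1 (!X) at h8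
      rw [hX] at h8
      have h9 := hw (!X)
      rw [abs_le, abs_le]
      refine ⟨⟨?_, ?_⟩, ?_, ?_⟩ <;> linarith [h6.1, h6.2, h7.1, h7.2, hxz.1, hxz.2, hd'.1, hd'.2]
    · right
      have h8 := HC.last_lt O (β := !X) (fun y hy hyY => by
        show K.shi s.1 (tg s.1 (!X)) - G.a s.1 ≤ h4.toFun y (tg s.1 (!X))
        rw [hX]
        have := (abs_le.1 (ho y hy z hzZ l)).1
        linarith) x hx hxY
      change K.shi s.1 (tg s.1 (!X)) - G.a s.1 - pst L s.1 (!X) < h5.toFun x (tg s.1 (!X)) at h8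
      rw [hX] at h8
      have h9 := hw (!X)
      rw [abs_le, abs_le]
      refine ⟨⟨?_, ?_⟩, ?_, ?_⟩ <;> linarith [h6.1, h6.2, h7.1, h7.2, hxz.1, hxz.2, hd'.1, hd'.2]
  · rw [hf5 x hxΩ]
    have hc1 : c ≤ 1 := by
      by_contra hcon
      push Not at hcon
      have := mul_lt_mul_of_pos_right hcon hp
      linarith
    have h8 : PS.map Tσ (h5.toFun x) ∈ G.PB c s.1 := P.mem_PB H.hc hc1 h5P
    exact (Geo.mem_PB.1 h8).1 m hm
  · obtain ⟨β, rfl⟩ : ∃ β, m = tg s.1 β := ⟨bt s.1 m, (tg_bt s.1 hm).symm⟩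
    have h9 := hw β
    have hd' := abs_le.1 (hdisp (tg s.1 β))
    have h8 := HC.tri O (β := β) (o := o) (fun x hx y hy => ho x hx y hy _)
      (by show 8 * pst L s.1 β + 4 * o ≤ G.a s.1; linarith) hx hxY
    change |h5.toFun x (tg s.1 β) - h4.toFun x (tg s.1 β)| ≤ o + 2 * pst L s.1 β ∨
      (h4.toFun x (tg s.1 β) ≤ K.slo s.1 (tg s.1 β) + 3 / 2 * G.a s.1 ∧
        h5.toFun x (tg s.1 β) ≤ K.slo s.1 (tg s.1 β) + 3 / 2 * G.a s.1) ∨
      (K.shi s.1 (tg s.1 β) - 3 / 2 * G.a s.1 ≤ h4.toFun x (tg s.1 β) ∧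
        K.shi s.1 (tg s.1 β) - 3 / 2 * G.a s.1 ≤ h5.toFun x (tg s.1 β)) at h8
    rcases h8 with h8 | ⟨h8, h8'⟩ | ⟨h8, h8'⟩
    · left
      have h8' := abs_le.1 h8
      rw [abs_le]
      constructor <;> linarith [hd'.1, hd'.2, h8'.1, h8'.2]
    · right; left
      constructor <;> linarith [hd'.1, hd'.2]
    · right; right
      constructor <;> linarith [hd'.1, hd'.2]

/-- **PLoc** for a cell -/
theorem ploc_cell (O : HkGF H hΩ r q h5) (P : Sg3 L S₀ Fσ ς Tσ)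
    (hf5 : ∀ x ∈ Ω, f5.toFun x = PS.map Tσ (h5.toFun x)) {s : S₀} (r0 : 0 ≤ r s) (r1 : r s < 1)
    (hNlo : ∀ X, ((H.hookIn s).boxK hΩ).Near X
      {y | y ∈ HB G c d s.1 ∧ y (tg s.1 (!X)) ≤ K.slo s.1 (tg s.1 (!X)) + G.p s.1})
    (hNhi : ∀ X, ((H.hookIn s).boxK hΩ).Near X
      {y | y ∈ HB G c d s.1 ∧ K.shi s.1 (tg s.1 (!X)) - G.p s.1 ≤ y (tg s.1 (!X))})
    {i : M.ι} (hi : i ∉ Zb s) (hZn : ¬ h4.toFun '' M.Q i ⊆ interior (HB G c d s.1))
    {o w δ : ℝ}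
    (ho : ∀ x ∈ M.Q i, ∀ y ∈ M.Q i, ∀ k, |h4.toFun x k - h4.toFun y k| ≤ o)
    (hn : ∀ x ∈ M.Q i, h4.toFun x ∈ HB G c d s.1 →
      |h4.toFun x (K.nrm s.1) - K.slo s.1 (K.nrm s.1)| < d * B.τ s.1)
    (hco : c * G.p s.1 + o ≤ G.p s.1) (hw : ∀ β, pst L s.1 β ≤ w)
    (hwo : 8 * w + 4 * o ≤ G.a s.1) (hδ : ∀ β, (Fσ β).e s ≤ δ) (hδa : 4 * δ ≤ G.a s.1)
    {x : V} (hx : x ∈ M.Q i) (hxY : h4.toFun x ∈ HB G c d s.1) :
    |f5.toFun x (K.nrm s.1) - K.slo s.1 (K.nrm s.1)| ≤ d * B.τ s.1 ∧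
    (∃ l, l ≠ K.nrm s.1 ∧
      ((|h4.toFun x l - K.slo s.1 l| ≤ G.p s.1 ∧ |f5.toFun x l - K.slo s.1 l| ≤ 2 * G.a s.1) ∨
        (|h4.toFun x l - K.shi s.1 l| ≤ G.p s.1 ∧
          |f5.toFun x l - K.shi s.1 l| ≤ 2 * G.a s.1))) ∧
    ∀ m, m ≠ K.nrm s.1 →
      (K.slo s.1 m + c * G.p s.1 ≤ f5.toFun x m ∧ f5.toFun x m ≤ K.shi s.1 m - c * G.p s.1) ∧
      (|f5.toFun x m - h4.toFun x m| ≤ o + 2 * w + 2 * δ ∨
        (h4.toFun x m ≤ K.slo s.1 m + 2 * G.a s.1 ∧ f5.toFun x m ≤ K.slo s.1 m + 2 * G.a s.1) ∨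
        (K.shi s.1 m - 2 * G.a s.1 ≤ h4.toFun x m ∧
          K.shi s.1 m - 2 * G.a s.1 ≤ f5.toFun x m)) := by
  have hcb := Vale.Agent.P073.H244.conBall_cell M i
  exact ploc O P hf5 r0 r1 hNlo hNhi (M.sub i) hcb.isCompact hcb.isPreconnected (fun q => by
    rw [disjoint_left]
    exact fun y hy => H.off (Or.inl ⟨i, hi, Subset.rfl⟩) q hy) hZn ho hn hco hw hwo hδ hδa hx hxY

end final

end P073.H237.Cov
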