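import Vale.Agent.P073.H237.RowW
import Vale.Agent.P073.H237.Elip3
import Vale.Agent.P073.H142.FaceI
import Vale.Agent.P073.H194.FaceTop
import Vale.Agent.P073.H236.TopG
import Vale.Agent.P073.H523.TopP
import Vale.Agent.P073.H582.TopE
import Vale.Agent.P073.H233.Tail3I

/-!
# P073, H237, K3C: the rows **`off`, `near`, `prot`, `elip`** over the slots of `H880.TopN`

`GivRow`: 142's estimate of the drawn faces which are not peeled, as a row (hypothesis of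
`row_elip`).  The tolerances of the faces are functions of the lengths `bn` of ROUND T.
-/

open Set Metric Topology Filter

set_option linter.unusedSectionVars false

namespace Vale.Agent.P073.Top880

open _root_.P073 _root_.P073.Net _root_.P073.PA691 _root_.P073.H236 _root_.P073.H579
open _root_.P073.H936 _root_.P073.H936.K3
open _root_.P073.H142
open _root_.P073.H345 (PK tg PLev)
open _root_.P073.H429
open Vale.Agent.P073.St (V)
open Vale.Agent.P073.H471 Vale.Agent.P073.H267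
open Vale.Agent.P073.H73 (Mesh)
open Vale.Agent.P073.H193 (Edges edges LAtC mesh_sub)
open Vale.Agent.P073.H304 (Nb In Zmax)
open Vale.Agent.P073.H926
open Vale.Agent.P073.H238.K3
open Vale.Agent.P073.H267.K3
open Vale.Agent.P073.H212.K3
open Vale.Agent.P073.H233 (LAt Xp FullJ Adm ElipOK3)
open Vale.Agent.P073.H236.Slot (exists_min_over exists_givTolP)

variable {c₀ n δ : ℝ} {j : ℕ} {Ω Λ : Set V} {v w : V} {ρ : V → ℝ} {M : Mesh Ω} {h : ConHomeo Ω Λ}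
  {J₀ J : Set (ℕ × (Fin 3 → ℤ))} {P Z : Set M.ι} {K : BoxCx Λ w}
  {D : KIn3 c₀ n j δ v w ρ M h J₀ J P Z} {C : Cells ρ w K} {C₀ μT : ℝ}
  {Ys : Set M.κ} {sc : Sharp}

/-- the full box of the last staircase of the tube `e` -/
abbrev YK (D : KIn3 c₀ n j δ v w ρ M h J₀ J P Z) (C : Cells ρ w K) (e : K.G) : Set V :=
  YB ((YS (D.G C)).add (rT (D.G C)) (rT_pos (D.G C)) (fun e k => (YS_p_lt (D.G C) e k).le)
    fun e k => (YS_q_lt (D.G C) e k).le) e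

/-- **tolerances of the tubes** over the faces -/
theorem exists_tolYK (D : KIn3 c₀ n j δ v w ρ M h J₀ J P Z) (C : Cells ρ w K)
    (f : ConHomeo Ω Λ) {τ : M.κ → ℝ} (hτ : ∀ k, 0 < τ k) :
    ∃ t : pG C J₀ → ℝ, (∀ b, 0 < t b) ∧ ∀ (b : pG C J₀) k,
      (f.toFun '' M.F k ∩ YK D C b.1).Nonempty → ∀ e ≤ t b, 16 * e ≤ τ k := by
  obtain ⟨r, r0, hr⟩ := exists_min_over f (A := M.F) (mesh_sub M) M.ffin
    (N := fun b : pG C J₀ => YK D C b.1) (fun b => isCompact_Icc) (fun b => YB_sub _ _)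
    (m := fun k => τ k / 16) (fun k => by have := hτ k; positivity)
  refine ⟨r, r0, fun b k hk e he => ?_⟩
  have h1 := hr b k hk
  linarith

/-- a function of the lengths of ROUND T, for the tolerances of the faces -/
noncomputable def tauB (M : Mesh Ω) (b : (edges M).ε → ℝ) : M.κ → ℝ := by
  classical
  exact if hb : ∀ e, 0 < b e then (exists_tauk M hb).choose else fun _ => 1

theorem tauB_pos (M : Mesh Ω) (b : (edges M).ε → ℝ) (k : M.κ) : 0 < tauB M b k := by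
  unfold tauB
  split_ifs with hb
  · exact (exists_tauk M hb).choose_spec.1 k
  · exact one_pos

theorem tauB_le {b : (edges M).ε → ℝ} (hb : ∀ e, 0 < b e) (k : M.κ) (e : (edges M).ε)
    (he : (edges M).seg e ⊆ M.F k) : tauB M b k * ‖(edges M).b e - (edges M).a e‖ ≤ b e := by
  unfold tauB
  rw [dif_pos hb]
  exact (exists_tauk M hb).choose_spec.2 k e he

/-- **the estimate of the drawn faces which are not peeled**, as a row -/
def GivRow (D : KIn3 c₀ n j δ v w ρ M h J₀ J P Z) (C : Cells ρ w K) (C₀ μT : ℝ) (Ys : Set M.κ)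
    (sc : Sharp) : Prop :=
  ∀ τ : ((edges M).ε → ℝ) → M.κ → ℝ, (∀ b, (∀ e, 0 < b e) → ∀ k, 0 < τ b k) →
    ∃ S : Slots D C C₀ μT Ys sc, ∀ {N : RTn M C J₀} {X : S1 D C C₀ μT} {Y₂ : S2 X}
      {Y₃ : S3 Y₂ Ys sc} {Y₄ : S4 Y₃} (Y₅ : S5 Y₄), Ok5 S N Y₅ →
      ∀ k ∈ (D.dat C).DF, k ∉ (D.dat C).Peel (D.G C) X.h1 → ∀ x ∈ M.F k,
        LAtC (D.B C) (Xp C J₀) (fun y => 100 * wcst D C X.h1.toFun k x y + τ X.bn k * ‖y - x‖)
          (M.F k) Y₅.f.toFun x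

section row

variable {X : S1 D C C₀ μT}

/-- the cost of the given faces on the edges -/
theorem wcst_edgeW (X : S1 D C C₀ μT) {k : M.κ} (hk : k ∈ Act D C) {e : (edges M).ε}
    (he : (edges M).seg e ⊆ M.F k) {x y : V} (hx : x ∈ (edges M).seg e)
    (hy : y ∈ (edges M).seg e) : wcst D C X.h1.toFun k x y ≤ 3 * X.La e * ‖x - y‖ := by
  have h0 := X.num.La_nonneg e
  have h1 : wcst D C X.h1.toFun k x y ≤ 3 * (X.La e * ‖x - y‖) :=
    wcst_le (mul_nonneg h0 (norm_nonneg _)) fun b hb hin =>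
      X.tube_edge hk he ⟨b, hb, rfl, hin⟩ x hx y hy
  linarith

end row

/-- the edges of the faces of `Act` whose images are small -/
theorem row_offnear (D : KIn3 c₀ n j δ v w ρ M h J₀ J P Z) (C : Cells ρ w K)
    {X : S1 D C C₀ μT} {Y₂ : S2 X} {Y₃ : S3 Y₂ Ys sc} {Y₄ : S4 Y₃} (Y₅ : S5 Y₄) {D₁ : ℝ}
    (hD₁ : 8192 ≤ D₁) : (∀ x ∈ Ω, h.toFun x ∉ Nb w J₀ c₀ → Y₅.f.toFun x = h.toFun x) ∧
      ∀ x ∈ Ω, H581.Near D₁ ρ (h.toFun x) (Y₅.f.toFun x) :=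
  ⟨Y₅.off, fun x hx => (Y₅.near x hx).mono hD₁ (D.hρ.pos _ (h.mapsTo hx)).le
    (D.hρ.pos _ (Y₅.f.mapsTo hx)).le⟩

/-- **the row `Last3.prot`** -/
theorem row_prot (D : KIn3 c₀ n j δ v w ρ M h J₀ J P Z) (C : Cells ρ w K) (hC : 1 ≤ C₀)
    {D₁ : ℝ} (hD₁ : 1642 * C₀ ≤ D₁) :
    ∃ S : Slots D C C₀ μT Ys sc, ∀ {N : RTn M C J₀} {X : S1 D C C₀ μT} {Y₂ : S2 X}
      {Y₃ : S3 Y₂ Ys sc} {Y₄ : S4 Y₃} (Y₅ : S5 Y₄), Ok5 S N Y₅ →
      ∀ i ∈ P, ∀ q > 0, (∀ x ∈ M.Q i, ∀ y ∈ M.Q i, ‖h.toFun x - h.toFun y‖ = q * ‖x - y‖) →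
        ∀ x ∈ M.Q i, LAt (D.B C) (Xp C J₀) (D₁ * q) (M.Q i) Y₅.f.toFun x := by
  obtain ⟨m, m0, hm⟩ := exists_mP D C
  choose t4 t40 ht4 using exists_tol4 D C
  choose t5 t50 ht5 using exists_tol5 D C
  refine ⟨{ Slots.one with
    m := fun _ => m, m0 := fun _ => m0
    tol4 := fun _ f _ => t4 f, tol40 := fun _ f _ s => t40 f s
    tol5 := fun _ f _ => t5 f, tol50 := fun _ f _ b => t50 f b },
    fun {N X Y₂ Y₃ Y₄} Y₅ H => ?_⟩
  obtain ⟨a1, a2, a3, -⟩ := hm _ Y₃ (fun s => by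
    rw [H.J]
    have := D.ω3S_pos C s
    linarith) H.muP
  have hn := D.pos
  have hn4 := D.lt
  exact Y₅.protN hC a1 a2 a3 (fun s => by rw [H.r4]; linarith) (fun s => by rw [H.q4]; linarith)
    (ht4 Y₄.h5) H.ε4 (fun b => (H.μ0 b).le) H.μ1 H.μu (ht5 Y₅.h6) H.ε5 hD₁

/-- **the row `Last3.elip`** -/
theorem row_elip (D : KIn3 c₀ n j δ v w ρ M h J₀ J P Z) (C : Cells ρ w K)
    (HG : GivRow D C C₀ μT Ys sc) {ε : M.κ → ℝ} (hε : ∀ k, 0 < ε k) {C₁ C₁' D₀ : ℝ}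
    (hD₀ : 1 ≤ D₀) (hC₁ : 3 * (8 * (500 * C₀ + 700) + 32 * C₀) + 1 ≤ C₁)
    (hC₁g : 300 * C₀ + 1 ≤ C₁) (hC₁' : C₁ ≤ C₁') :
    ∃ S : Slots D C C₀ μT Ys sc, ∀ {N : RTn M C J₀} {X : S1 D C C₀ μT} {Y₂ : S2 X}
      {Y₃ : S3 Y₂ Ys sc} {Y₄ : S4 Y₃} (Y₅ : S5 Y₄), Ok5 S N Y₅ →
      ∀ k e, (edges M).seg e ⊆ M.F k → h.toFun '' (edges M).seg e ⊆ Nb w J₀ (1 / 2 ^ j) →
      (∃ i ∈ P, (edges M).seg e ⊆ M.Q i) ∨
      ∀ c, Adm M Ys C₁ C₁' ((edges M).seg e) c →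
        ElipOK3 (D.B C) (Xp C J₀) h.toFun Y₅.f.toFun c D₀ (ε k) e := by
  obtain ⟨S₀, hS₀⟩ := HG (tauB M) fun b _ => tauB_pos M b
  obtain ⟨x, x0, -, hx, -⟩ := Vale.Agent.P073.H582.exists_edge_le M (g := fun _ => 1)
    (fun _ => one_pos) hε (q := fun _ => 1) (fun _ => one_pos)
  choose t4 t40 ht4 using fun (X : S1 D C C₀ μT) => exists_givTolP (D := D) (C := C) X.h1
    (tauB_pos M X.bn)
  choose t5 t50 ht5 using fun (b : (edges M).ε → ℝ) (f : ConHomeo Ω Λ) =>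
    exists_tolYK D C f (tauB_pos M b)
  refine ⟨S₀.inf { Slots.one with
    εe := x, εe0 := x0
    tol4 := fun {X} _ _ _ _ => t4 X, tol40 := fun {X} _ _ _ _ s => t40 X s
    tol5 := fun {X} _ _ Y₄ _ _ => t5 X.bn Y₄.f5, tol50 := fun {X} _ _ Y₄ _ _ b => t50 X.bn Y₄.f5 b },
    fun {N X Y₂ Y₃ Y₄} Y₅ H => ?_⟩
  have H1 := H.left
  have H2 := H.right
  have hn := D.pos
  have hn4 := D.lt
  refine Y₅.elip (fun s => by rw [H.q4]) (fun s => by rw [H.r4]) (fun b => (H.μ0 b).le)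
    (fun b => by have := H.μ_le b; linarith) (fun b => ?_) (tauB_pos M X.bn)
    (fun s k hk => ht4 X ⟨s, hk.1⟩ k hk _ (H2.ε4 _)) (fun b k hk => ht5 X.bn Y₄.f5 b k hk _
      (H2.ε5 b)) (fun k e he => tauB_le X.num.b_pos k e he) (ag := 100) (Cg := 3) (by norm_num)
    (cst := wcst D C X.h1.toFun) (fun k hk e he x hx y hy => wcst_edgeW X hk he hx hy)
    (by norm_num) (hS₀ Y₅ H1) hD₀ (fun k e he => (H2.εe e).trans (hx k e he)) ?_ ?_ hC₁'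
  · rw [H.μ_len b]
    have h3 := (D.G C).uT_pos b.1
    nlinarith
  · rw [H.q]; exact hC₁
  · linarith

end Vale.Agent.P073.Top880
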