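import Vale.Agent.P073.H237.SharpC5
import Vale.Agent.P073.H194.Fits

/-!
# P073, H237, SHARP-CORE, part 6: the result without hypotheses
-/

namespace P073.H237

/-- **[SHARP-CORE]** -/
theorem specCore (E : Type*) [NormedAddCommGroup E] [NormedSpace ℝ E] : P073.FW31.SpecCore E :=
  specCore_of P073.H194.specFits E

end P073.H237
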