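import Vale.Agent.P073.H267.K3St2
import Vale.Agent.P073.H142.EdgeBand
import Vale.Agent.P073.H142.FaceG

/-!
# P073, [ELIP3], part 1

* `elipOK3_of_latC`: `ElipOK3` from `LAtC` on the edge, with a cost;
* `S3.band_edge`: the band coordinates of `h3` along an edge of a peeled face.
-/

open Set Metric Topology Filter MeasureTheory
open scoped ENNReal

set_option linter.unusedSectionVars false

namespace P073.H237.Elip

open _root_.P073 _root_.P073.Net _root_.P073.PA691 _root_.P073.H236 _root_.P073.H579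
open Vale.Agent.P073.St (V)
open Vale.Agent.P073.H73 (Mesh onSeg)
open Vale.Agent.P073.H471 Vale.Agent.P073.H267
open Vale.Agent.P073.H233 (PSet LAt ElipOK3)
open Vale.Agent.P073.H193 (LAtC FaceCl edges Edges)

section abs

variable {Ω Λ : Set V} {v : V} {K : BoxCx Λ v} {S : Rad K} {W : Wid K S} {B : Boxes W}
  {M : Mesh Ω} {X : PSet K}

/-- **`ElipOK3`** from `LAtC` with a cost -/
theorem elipOK3_of_latC {h f : V → V} {C₁ D₀ ε a e₀ C b : ℝ} {e : (edges M).ε} (hb0 : 0 < b)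
    (hb : ENNReal.ofReal b ≤ ENNReal.ofReal D₀ *
      (len (onSeg h ((edges M).a e, (edges M).b e)) (Icc 0 1) + ENNReal.ofReal ε))
    {cst : V → V → ℝ}
    (hcst : ∀ x ∈ (edges M).seg e, ∀ y ∈ (edges M).seg e,
      cst x y ≤ C₁ * (b / ‖(edges M).b e - (edges M).a e‖) * ‖x - y‖)
    (ha : 0 ≤ a) (he₀ : e₀ ≤ b / ‖(edges M).b e - (edges M).a e‖) (hC : a * C₁ + 1 ≤ C)
    (hlat : ∀ x ∈ (edges M).seg e,
      LAtC B X (fun y => a * cst x y + e₀ * ‖y - x‖) ((edges M).seg e) f x) :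
    ElipOK3 B X h f C D₀ ε e := by
  have hpos := _root_.P073.H142.elen_pos (edges M) e
  refine ⟨b, hb0, hb, fun x hx => (hlat x hx).lat ?_⟩
  filter_upwards [self_mem_nhdsWithin] with y hy
  have h0 : 0 < b / ‖(edges M).b e - (edges M).a e‖ := by positivity
  have h1 := mul_le_mul_of_nonneg_left (hcst x hx y hy) ha
  have h2 := mul_le_mul_of_nonneg_right he₀ (norm_nonneg (y - x))
  have h3 : 0 ≤ b / ‖(edges M).b e - (edges M).a e‖ * ‖y - x‖ := by positivity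
  have h4 := mul_le_mul_of_nonneg_right hC h3
  rw [norm_sub_rev x y] at h1
  linarith

end abs

end P073.H237.Elip

namespace Vale.Agent.P073.H267.K3

open _root_.P073 _root_.P073.Net _root_.P073.PA691 _root_.P073.H236 _root_.P073.H579
open _root_.P073.H142
open _root_.P073.H345 (PK PLev tg)
open _root_.P073.H880.RP
open Vale.Agent.P073.St (V)
open Vale.Agent.P073.H471 Vale.Agent.P073.H267 Vale.Agent.P073.H926
open Vale.Agent.P073.H73 (Mesh)
open Vale.Agent.P073.H193 (Edges edges)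
open Vale.Agent.P073.H341 (vFam)

variable {c₀ n δ : ℝ} {j : ℕ} {Ω Λ : Set V} {v w : V} {ρ : V → ℝ} {M : Mesh Ω} {h : ConHomeo Ω Λ}
  {J₀ J : Set (ℕ × (Fin 3 → ℤ))} {P Z : Set M.ι} {K : BoxCx Λ w}
  {D : KIn3 c₀ n j δ v w ρ M h J₀ J P Z} {C : Cells ρ w K} {C₀ μT : ℝ}
  {X : S1 D C C₀ μT} {Y₂ : S2 X} {Ys : Set M.κ} {sc : Sharp}

/-- **the band coordinates of `h3` along an edge of a peeled face** -/
theorem S3.band_edge (Y₃ : S3 Y₂ Ys sc) {s : K.S} {k : M.κ}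
    (hk : (D.dat C).PkS (D.G C) X.h1 s k) {e : (edges M).ε} (he : (edges M).seg e ⊆ M.F k)
    (hLa : 0 ≤ Y₃.La e) :
    ∀ x ∈ (edges M).seg e, ∀ y ∈ (edges M).seg e,
      bandD (Y₂.L.lv s) (Y₃.Lt.loP s) (Y₃.Lt.hiP s) (Y₃.Lt.omP s) (Y₃.h3.toFun x)
        (Y₃.h3.toFun y) ≤ Y₃.La e * ‖x - y‖ := by
  obtain ⟨f, h4, h5⟩ := Y₃.ins.out.edge k ⟨s, hk⟩ e he
  have hEA : EAct (edges M) ((D.dat C).PkS (D.G C) X.h1) s e := ⟨k, hk, he⟩
  obtain ⟨s1, s2, s3, s4, h6, -⟩ := h4 s hEA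
  have hsub := Vale.Agent.P073.H193.mesh_sub M k
  have hPA : PAct M (edges M) Y₂.h2 (Y₃.κ true ∘ Y₃.κ false) Λ
      ((D.dat C).PkS (D.G C) X.h1) Y₃.Lt.kP Y₂.L.lv Y₃.Lt.loP Y₃.Lt.hiP Y₃.Lt.omP :=
    Y₂.ex.ex.pact3 (β := false) (Y₃.ins.isQ false) (Y₃.ins.isQ true)
  obtain ⟨i, hi⟩ := Y₂.ex.fam (.inr (.inl e))
  have hi' : vFam M (edges M) i = (edges M).seg e := hi.symm
  have hpos : ∀ x ∈ (edges M).seg e, X.h1.toFun x ∈ (D.G C).PB (15 / 16) s := fun x hx =>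
    (Y₂.ex.ex.near s k hk x (he hx)).1
  obtain ⟨-, hfin, -⟩ := Y₂.ex.ex.cnt i ⟨(edges M).a e, (edges M).b e, hi'⟩
    (by rw [hi']; exact (edges M).seg_sub_Ω e) s hk.1
    (fun s' hs' hne x hx => Set.disjoint_left.1
      ((Geo.disjoint_PB (G := D.G C) (by norm_num : (1:ℝ) / 2 ≤ 15 / 16) hne.symm).mono_right
        ((D.PE_sub_PB C s').trans (Vale.Agent.P073.H805.PB_mono (by norm_num) s')))
      (hpos x (by rwa [hi'] at hx)))
  rw [hi', Y₂.L.lvs_lv s] at hfin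
  have hlv : Y₃.Lt.lv s = Y₂.L.lv s := funext fun j => thinL_lv s j
  have hins := Y₃.Lt.ins1P s
  rw [hlv] at hins
  have hband := band_le_seg ((edges M).ne e) h6 hins (fun x hx j j' hj hj' =>
    hPA.one s k hk e he x hx j j' hj hj') (fun j c _ => (Y₃.Lt.omP_pos s j c).le) hLa
    (hfin.subset (by
      rintro x ⟨hx, l, hl⟩
      exact ⟨hx, l, hl⟩))
    ((Y₃.h3.cont.mono (he.trans hsub)).congr fun x hx => (h5 hx).symm) (fun x hx => by
      have h7 : Y₃.h3.toFun x ∈ Pre (Y₃.κ true ∘ Y₃.κ false) Λ Y₂.h2 ((edges M).seg e) := by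
        rw [← Y₃.ins.out.img_edge]; exact mem_image_of_mem _ hx
      have h8 := (hPA.zone s k hk).z2 _ h7.1 (image_mono he h7.2)
      have h9 : (Y₃.κ true ∘ Y₃.κ false) (Y₃.h3.toFun x) ∈ Y₂.h2.toFun '' (edges M).seg e := h7.2
      rw [h8] at h9
      rw [← h5 hx]
      exact h9)
  intro x hx y hy
  rw [h5 hx, h5 hy]
  exact hband x hx y hy

end Vale.Agent.P073.H267.K3
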