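import Vale.Agent.P073.H237.Plug1
import Vale.Agent.P073.H155.K3S5

/-!
# P073, [K3-TOP]: the cover, over 267's structures

`S4.cover`, `S5.cover`: a drawn cell is drawn in a plate, or drawn in a tube, or its last image is in
the interior of the zone of a vertex.
-/

open Set Metric Topology Filter
open scoped ENNReal

set_option linter.unusedSectionVars false

namespace Vale.Agent.P073.H267.K3

open _root_.P073 _root_.P073.Net _root_.P073.PA691 _root_.P073.H236 _root_.P073.H579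
open _root_.P073.H936 _root_.P073.H936.K3
open _root_.P073.H142
open _root_.P073.H196 (ThP)
open _root_.P073.H345 (PK tg PLev)
open _root_.P073.H880.RP
open _root_.P073.H155 (Band3 RelT)
open _root_.P073.H919 (HkG HkGF HkGO ZbP sfam HB PI)
open _root_.P073.H429
open _root_.P073.H237.Cov (pst)
open Vale.Agent.P073.St (V)
open Vale.Agent.P073.H471 Vale.Agent.P073.H267
open Vale.Agent.P073.H73 (Mesh)
open Vale.Agent.P073.H193 (Edges Cyc edges)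
open Vale.Agent.P073.H304 (Nb In Zmax)
open Vale.Agent.P073.H926
open Vale.Agent.P073.H238.K3
open Vale.Agent.P073.H341 (HtOk ROutZ vFam)

variable {c₀ n δ : ℝ} {j : ℕ} {Ω Λ : Set V} {v w : V} {ρ : V → ℝ} {M : Mesh Ω} {h : ConHomeo Ω Λ}
  {J₀ J : Set (ℕ × (Fin 3 → ℤ))} {P Z : Set M.ι} {K : BoxCx Λ w}
  {D : KIn3 c₀ n j δ v w ρ M h J₀ J P Z} {C : Cells ρ w K} {C₀ μT : ℝ}
  {X : S1 D C C₀ μT} {Y₂ : S2 X} {Ys : Set M.κ} {sc : Sharp} {Y₃ : S3 Y₂ Ys sc}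
  {Y₄ : S4 Y₃}

/-- **the cover after ROUND P** -/
theorem S4.cover (Y₄ : S4 Y₃)
    (hst : ∀ s : (D.dat C).S₀, ∀ β, stp (Y₂.L.N s.1 β)
      (K.slo s.1 (tg s.1 β) + (D.G C).a s.1) (K.shi s.1 (tg s.1 β) - (D.G C).a s.1) ≤
        (D.G C).a s.1)
    (hc : ∀ s ∈ (D.dat C).S₀, ∀ β q, (q = K.sm s ∨ q = K.sp s) → Y₂.L.c s β ≤ (D.G C).om q)
    (hD : ∀ s : (D.dat C).S₀, ∀ β q, (q = K.sm s.1 ∨ q = K.sp s.1) →
      (Y₃.F β).D s ≤ (D.G C).om q)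
    (hpst : ∀ s : (D.dat C).S₀, ∀ β, pst Y₃.Lt s.1 β ≤ (D.G C).p s.1 / 4)
    (hσ : ∀ s : (D.dat C).S₀, ∀ β q, (q = K.sm s.1 ∨ q = K.sp s.1) →
      (Y₄.Fσ β).e s ≤ (D.G C).om q)
    {i : M.ι} (hi : i ∈ (D.dat C).Zd) :
    (∃ s ∈ pS C J₀, Y₃.h4.toFun '' M.Q i ⊆ interior (HB (D.G C) (29 / 32) (3 / 4) s)) ∨
    (∃ e ∈ pG C J₀, Y₄.f5.toFun '' M.Q i ⊆ interior (YB (YT (D.G C) (pS C J₀)) e)) ∨
    ∃ i' ∈ pW C J₀, ∀ x ∈ M.Q i, ∀ k, |Y₄.f5.toFun x k - K.w i' k| ≤ 7 / 8 * (D.W C).wv i' :=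
  D.cover3P C X.out.near3 (Y₄.preT hst) Y₄.mapT Y₃.ps le_rfl (by norm_num) Y₃.ins.isΘ hc hD hpst
    hσ
    (fun i _ => Y₃.ins.out.img_cell i) (fun i hi x hx => Y₃.ins.out.givc i hi x hx) hi

/-- **the cover**: a drawn cell is drawn in a plate, or drawn in a tube, or its last image is in the
interior of the zone of a vertex -/
theorem S5.cover (Y₅ : S5 Y₄)
    (hst : ∀ s : (D.dat C).S₀, ∀ β, stp (Y₂.L.N s.1 β)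
      (K.slo s.1 (tg s.1 β) + (D.G C).a s.1) (K.shi s.1 (tg s.1 β) - (D.G C).a s.1) ≤
        (D.G C).a s.1)
    (hc : ∀ s ∈ (D.dat C).S₀, ∀ β q, (q = K.sm s ∨ q = K.sp s) → Y₂.L.c s β ≤ (D.G C).om q)
    (hD : ∀ s : (D.dat C).S₀, ∀ β q, (q = K.sm s.1 ∨ q = K.sp s.1) →
      (Y₃.F β).D s ≤ (D.G C).om q)
    (hpst : ∀ s : (D.dat C).S₀, ∀ β, pst Y₃.Lt s.1 β ≤ (D.G C).p s.1 / 4)
    (hσ : ∀ s : (D.dat C).S₀, ∀ β q, (q = K.sm s.1 ∨ q = K.sp s.1) →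
      (Y₄.Fσ β).e s ≤ (D.G C).om q)
    (hμ : ∀ b, 0 ≤ Y₅.μ b)
    (hd : ∀ (b : pG C J₀) i', (i' = K.a b.1 ∨ i' = K.b b.1) →
      Y₅.μ b * (ebe (D.W C) b.1 - eal (D.W C) b.1) + 2 * (Y₅.Th b).om < (D.W C).wv i' / 16)
    (hd' : ∀ (b : pG C J₀) i', (i' = K.a b.1 ∨ i' = K.b b.1) →
      Y₅.μ b * (ebe (D.W C) b.1 - eal (D.W C) b.1) ≤ (D.W C).wv i' / 32)
    {i : M.ι} (hi : i ∈ (D.dat C).Zd) (hP : i ∉ (D.dat C).Pr) :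
    (∃ s, i ∈ ZbP (D.G C) (D.dat C) Y₃.h4 s) ∨ (∃ b, i ∈ ZbT Y₄ b) ∨
    ∃ i' ∈ pW C J₀, Y₅.f.toFun '' M.Q i ⊆ interior (Zv (D.W C) i') := by
  by_cases h1 : ∃ s, i ∈ ZbP (D.G C) (D.dat C) Y₃.h4 s
  · exact Or.inl h1
  · refine Or.inr ?_
    rcases D.cover_T C (A := ∃ s ∈ pS C J₀,
        Y₃.h4.toFun '' M.Q i ⊆ interior (HB (D.G C) (29 / 32) (3 / 4) s)) Y₅.tube hμ Y₅.isH
        (fun b => b.2) (fun b i hi => hi.2.2) hd hd' (Y₄.cover hst hc hD hpst hσ hi)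
      with ⟨s, hs, h2⟩ | ⟨e, he, h2⟩ | h2
    · exact absurd ⟨⟨s, hs⟩, ⟨hi, hP⟩, h2⟩ h1
    · exact Or.inl ⟨⟨e, he⟩, ⟨hi, hP⟩, fun s hs => h1 ⟨s, hs⟩, h2⟩
    · exact Or.inr h2

end Vale.Agent.P073.H267.K3
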