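import Vale.Agent.P073.H31.PlMod

/-!
# P073, H237: sums of ramps over disjoint intervals
-/

open Set MeasureTheory

namespace P073.H237

open P073.H31

theorem mul_cl1 {x y : ℝ} (h : x < y) (a : ℝ) :
    (y - x) * cl1 ((a - x) / (y - x)) = max 0 (min (y - x) (a - x)) := by
  have hp : 0 < y - x := sub_pos.2 h
  unfold cl1
  rw [mul_max_of_nonneg _ _ hp.le, mul_zero, mul_min_of_nonneg _ _ hp.le, mul_one,
    mul_div_cancel₀ _ hp.ne']

theorem ramp_le {x y : ℝ} (h : x < y) {a a' : ℝ} (ha : a ≤ a') :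
    (y - x) * |cl1 ((a - x) / (y - x)) - cl1 ((a' - x) / (y - x))| ≤
      max 0 (min y a' - max x a) := by
  have hp : 0 < y - x := sub_pos.2 h
  have e : (y - x) * |cl1 ((a - x) / (y - x)) - cl1 ((a' - x) / (y - x))| =
      |max 0 (min (y - x) (a - x)) - max 0 (min (y - x) (a' - x))| := by
    rw [← mul_cl1 h, ← mul_cl1 h, ← mul_sub, abs_mul, abs_of_pos hp]
  rw [e]
  rcases le_total (y - x) (a - x) with h1 | h1
  · rw [min_eq_left h1, min_eq_left (by linarith), sub_self, abs_zero]
    exact le_max_left _ _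
  · rw [min_eq_right h1]
    rcases le_total 0 (a - x) with h2 | h2
    · rw [max_eq_right h2, max_eq_right (by linarith : x ≤ a)]
      rcases le_total (y - x) (a' - x) with h3 | h3
      · rw [min_eq_left h3, max_eq_right hp.le, min_eq_left (by linarith : y ≤ a'),
          abs_of_nonpos (by linarith)]
        exact le_max_of_le_right (by linarith)
      · rw [min_eq_right h3, max_eq_right (by linarith), min_eq_right (by linarith : a' ≤ y),
          abs_of_nonpos (by linarith)]
        exact le_max_of_le_right (by linarith)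
    · rw [max_eq_left h2, max_eq_left (by linarith : a ≤ x)]
      rcases le_total (y - x) (a' - x) with h3 | h3
      · rw [min_eq_left h3, max_eq_right hp.le, min_eq_left (by linarith : y ≤ a'),
          abs_of_nonpos (by linarith)]
        exact le_max_of_le_right (by linarith)
      · rw [min_eq_right h3, min_eq_right (by linarith : a' ≤ y)]
        rcases le_total 0 (a' - x) with h4 | h4
        · rw [max_eq_right h4, abs_of_nonpos (by linarith)]
          linarith
        · rw [max_eq_left h4, sub_self, abs_zero]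

/-- **the sum of the ramps over disjoint intervals** -/
theorem sum_ramp {ι : Type*} (s : Finset ι) (x y : ι → ℝ) (hxy : ∀ i ∈ s, x i < y i)
    (hd : ∀ i ∈ s, ∀ j ∈ s, i ≠ j → y i ≤ x j ∨ y j ≤ x i) (a a' : ℝ) :
    ∑ i ∈ s, (y i - x i) * |cl1 ((a - x i) / (y i - x i)) - cl1 ((a' - x i) / (y i - x i))| ≤
      |a - a'| := by
  wlog h : a ≤ a' generalizing a a'
  · have := this a' a (not_le.1 h).le
    rw [abs_sub_comm a a']
    refine le_trans (le_of_eq (Finset.sum_congr rfl fun i _ => ?_)) this
    rw [abs_sub_comm]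
  have key : ∑ i ∈ s, max 0 (min (y i) a' - max (x i) a) ≤ a' - a := by
    have h1 : ∀ i, volume (Ioc (x i) (y i) ∩ Ioc a a') =
        ENNReal.ofReal (max 0 (min (y i) a' - max (x i) a)) := by
      intro i
      rw [Ioc_inter_Ioc, Real.volume_Ioc]
      rcases le_total 0 (min (y i) a' - max (x i) a) with c | c
      · rw [max_eq_right c]
      · rw [max_eq_left c, ENNReal.ofReal_zero, ENNReal.ofReal_of_nonpos c]
    have h2 : ∑ i ∈ s, volume (Ioc (x i) (y i) ∩ Ioc a a') ≤ volume (Ioc a a') := by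
      rw [← measure_biUnion_finset]
      · exact measure_mono (iUnion₂_subset fun i _ => inter_subset_right)
      · intro i hi j hj hij
        rw [Function.onFun, Set.disjoint_left]
        rintro z ⟨h3, -⟩ ⟨h4, -⟩
        rcases hd i hi j hj hij with h5 | h5
        · exact absurd h3.2 (not_le.2 (lt_of_le_of_lt h5 h4.1))
        · exact absurd h4.2 (not_le.2 (lt_of_le_of_lt h5 h3.1))
      · intro i _
        exact measurableSet_Ioc.inter measurableSet_Ioc
    rw [Real.volume_Ioc, Finset.sum_congr rfl fun i _ => h1 i,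
      ← ENNReal.ofReal_sum_of_nonneg fun i _ => le_max_left _ _] at h2
    exact (ENNReal.ofReal_le_ofReal_iff (sub_nonneg.2 h)).1 h2
  rw [abs_of_nonpos (by linarith), neg_sub]
  exact (Finset.sum_le_sum fun i hi => ramp_le (hxy i hi) h).trans key

/-- the trapezoid function is the difference of two ramps -/
theorem lam_eq {A : ArcD} (h : A.Good) (a : ℝ) :
    A.lam a = 2 * cl1 ((a - A.p) / (A.p + 2 * A.w - A.p)) -
      2 * cl1 ((a - (A.q - 2 * A.w')) / (A.q - (A.q - 2 * A.w'))) := by
  have hw := h.w0; have hw' := h.w0'; have hpq := h.pq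
  have e1 : A.p + 2 * A.w - A.p = 2 * A.w := by ring
  have e2 : A.q - (A.q - 2 * A.w') = 2 * A.w' := by ring
  rw [e1, e2]
  rcases le_total a A.p with h1 | h1
  · rw [h.lam_zero_left h1, cl1_eq_zero (div_nonpos_of_nonpos_of_nonneg (by linarith) (by linarith)),
      cl1_eq_zero (div_nonpos_of_nonpos_of_nonneg (by linarith) (by linarith))]
    ring
  rcases le_total a (A.p + 2 * A.w) with h2 | h2
  · rw [h.lam_left h1 h2, cl1_eq_self (div_nonneg (by linarith) (by linarith))
      ((div_le_one (by linarith)).2 (by linarith)),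
      cl1_eq_zero (div_nonpos_of_nonpos_of_nonneg (by linarith) (by linarith))]
    field_simp
    ring
  rw [cl1_eq_one (x := (a - A.p) / (2 * A.w)) ((one_le_div (by linarith)).2 (by linarith))]
  rcases le_total a (A.q - 2 * A.w') with h3 | h3
  · rw [h.lam_mid h2 h3, cl1_eq_zero (div_nonpos_of_nonpos_of_nonneg (by linarith) (by linarith))]
    ring
  rcases le_total a A.q with h4 | h4
  · rw [h.lam_right h4 h3, cl1_eq_self (div_nonneg (by linarith) (by linarith))
      ((div_le_one (by linarith)).2 (by linarith))]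
    field_simp
    ring
  · rw [h.lam_zero_right h4, cl1_eq_one ((one_le_div (by linarith)).2 (by linarith))]
    ring

/-- **the sum of the trapezoid functions**, if the doubled intervals are disjoint -/
theorem sum_lam {ι : Type*} (s : Finset ι) (A : ι → ArcD) (L : ℝ) (hL : 0 ≤ L)
    (hg : ∀ i ∈ s, (A i).Good) (hw : ∀ i ∈ s, (A i).om ≤ L * (A i).w ∧ (A i).om ≤ L * (A i).w')
    (hd : ∀ i ∈ s, ∀ j ∈ s, i ≠ j →
      ((A i).p + 2 * (A i).w ≤ (A j).p ∨ (A j).p + 2 * (A j).w ≤ (A i).p) ∧
      ((A i).q ≤ (A j).q - 2 * (A j).w' ∨ (A j).q ≤ (A i).q - 2 * (A i).w')) (a a' : ℝ) :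
    ∑ i ∈ s, (A i).om * |(A i).lam a - (A i).lam a'| ≤ 2 * L * |a - a'| := by
  have h1 := sum_ramp s (fun i => (A i).p) (fun i => (A i).p + 2 * (A i).w)
    (fun i hi => by have := (hg i hi).w0; linarith) (fun i hi j hj hij => (hd i hi j hj hij).1) a a'
  have h2 := sum_ramp s (fun i => (A i).q - 2 * (A i).w') (fun i => (A i).q)
    (fun i hi => by have := (hg i hi).w0'; linarith) (fun i hi j hj hij => by
      rcases (hd i hi j hj hij).2 with h | h
      · exact Or.inl h
      · exact Or.inr h) a a'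
  have h3 : ∀ i ∈ s, (A i).om * |(A i).lam a - (A i).lam a'| ≤
      L * (((A i).p + 2 * (A i).w - (A i).p) * |cl1 ((a - (A i).p) / ((A i).p + 2 * (A i).w - (A i).p)) -
        cl1 ((a' - (A i).p) / ((A i).p + 2 * (A i).w - (A i).p))|) +
      L * (((A i).q - ((A i).q - 2 * (A i).w')) *
        |cl1 ((a - ((A i).q - 2 * (A i).w')) / ((A i).q - ((A i).q - 2 * (A i).w'))) -
        cl1 ((a' - ((A i).q - 2 * (A i).w')) / ((A i).q - ((A i).q - 2 * (A i).w')))|) := by
    intro i hi
    have g := hg i hi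
    have hw0 := g.w0; have hw0' := g.w0'; have hom := g.om0
    obtain ⟨k1, k2⟩ := hw i hi
    rw [lam_eq g a, lam_eq g a']
    set X := cl1 ((a - (A i).p) / ((A i).p + 2 * (A i).w - (A i).p))
    set X' := cl1 ((a' - (A i).p) / ((A i).p + 2 * (A i).w - (A i).p))
    set Y := cl1 ((a - ((A i).q - 2 * (A i).w')) / ((A i).q - ((A i).q - 2 * (A i).w')))
    set Y' := cl1 ((a' - ((A i).q - 2 * (A i).w')) / ((A i).q - ((A i).q - 2 * (A i).w')))
    have e : 2 * X - 2 * Y - (2 * X' - 2 * Y') = 2 * (X - X') - 2 * (Y - Y') := by ring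
    rw [e]
    have h4 : |2 * (X - X') - 2 * (Y - Y')| ≤ 2 * |X - X'| + 2 * |Y - Y'| := by
      refine (abs_sub _ _).trans (le_of_eq ?_)
      rw [abs_mul, abs_mul, abs_of_pos (two_pos)]
    have h5 := mul_le_mul_of_nonneg_left h4 hom.le
    have e1 : (A i).p + 2 * (A i).w - (A i).p = 2 * (A i).w := by ring
    have e2 : (A i).q - ((A i).q - 2 * (A i).w') = 2 * (A i).w' := by ring
    rw [e1, e2]
    have h6 := mul_le_mul_of_nonneg_right k1 (abs_nonneg (X - X'))
    have h7 := mul_le_mul_of_nonneg_right k2 (abs_nonneg (Y - Y'))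
    nlinarith
  refine (Finset.sum_le_sum h3).trans ?_
  rw [Finset.sum_add_distrib, ← Finset.mul_sum, ← Finset.mul_sum]
  have h4 := mul_le_mul_of_nonneg_left h1 hL
  have h5 := mul_le_mul_of_nonneg_left h2 hL
  linarith

end P073.H237
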