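import Vale.Agent.P073.H237.NearDef

/-!
# P073, [FIB2] (c): near the wall the new sheets are the root regions
-/

open Set Metric Topology Filter

namespace P073.H936.K3

open P073 P073.H936 P073.H880 P073.H669 P073.H579

/-! ### Connected sets in the middle sheet -/

section core

variable {ι E : Type*} [NormedAddCommGroup E] [NormedSpace ℝ E] [Finite ι] {V : VFam ι E}
  {L : LamData V.swData} {r : ℝ}

/-- **the fibres over a connected set in a middle sheet which reaches the boundary and misses all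
sheets of the other family are in the root region** -/
theorem root_core {i : ι} {A : Set E} (hA : IsPreconnected A) (hAD : A ⊆ mid (V.N i) (V.s i))
    (hbd : (A ∩ V.Bd).Nonempty) (hoth : ∀ j, V.side j ≠ V.side i → Disjoint A (V.N j)) {x : E}
    (hx : x ∈ V.N i) (hxA : V.foot i x ∈ A) (hr : |V.s i x| ≤ r) : x ∈ L.PP r (Sum.inl i) := by
  refine ⟨hx, ⟨((V.swData.φ i).mapsTo hx).1, ?_⟩, hr⟩
  rintro ⟨c, X⟩ hd hO
  have hs : i = V.shc c X := by
    have := LamData.sheet_out (L := L) c X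
    rw [hd] at this
    exact this
  have hside : V.side i = X := by rw [hs]; exact VFam.shc_side c X
  have hchart : ∀ z ∈ A, (V.chart i).toFun z ∉ V.swData.A c X := by
    rintro z hz ⟨z', hz', hK, he⟩
    rw [← hs] at hz' he
    have h1 : z' = z := (V.chart i).injOn hz' (hAD hz) he
    subst h1
    refine disjoint_left.1 (hoth (V.shc c (!X)) ?_) hz (VFam.Kc_sub c (!X) hK)
    rw [hside, VFam.shc_side]
    cases X <;> simp
  have hA' : IsPreconnected ((V.chart i).toFun '' A) := hA.image _ ((V.chart i).cont.mono hAD)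
  have hsub : (V.chart i).toFun '' A ⊆ (L.O c X \ L.rout c X) ∪ (L.O c X)ᶜ := by
    rintro _ ⟨z, hz, rfl⟩
    by_cases h : (V.chart i).toFun z ∈ L.O c X
    · exact Or.inl ⟨h, fun h' => hchart z hz (LamData.rout_sub_A c X h')⟩
    · exact Or.inr h
  have hdis : (V.chart i).toFun '' A ∩ ((L.O c X \ L.rout c X) ∩ (L.O c X)ᶜ) = ∅ := by
    rw [eq_empty_iff_forall_notMem]
    rintro p ⟨-, ⟨h1, -⟩, h2⟩
    exact h2 h1
  have hphi : ((V.swData.φ i).toFun x).1 = (V.chart i).toFun (V.foot i x) := by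
    show ((V.phi i).toFun x).1 = _
    rw [VFam.phi_apply hx]
  rcases isPreconnected_iff_subset_of_disjoint.1 hA' _ _ (LamData.isOpen_O c X)
    (LamData.isClosed_O c X).isOpen_compl hsub hdis with h | h
  · obtain ⟨b, hb, hbB⟩ := hbd
    have h1 := (h (mem_image_of_mem _ hb)).1
    have h2 := L.O_sub c X h1
    rw [mem_ball_zero_iff] at h2
    exact absurd ((VFam.norm_chart (hAD hb)).2 hbB) h2.ne
  · have h1 := h (mem_image_of_mem _ hxA)
    rw [← hphi] at h1
    exact h1 hO.1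

end core

variable {ι : Type*} {E : Type} [NormedAddCommGroup E] [NormedSpace ℝ E]
  {side : ι → Bool} {ax : Bool → Fin 3} {lo hi : Fin 3 → ℝ} {c w : ι → ℝ} {U : Set E} {Q : Type}

namespace BoxK

section cells

variable {D : BoxK side ax lo hi c w U Q} [Finite ι]

theorem pre_V (q : Q) : D.pre.V q = interior (D.K.C q) := rfl

theorem pre_VB (q : Q) : D.pre.V q ∪ D.pre.B q = D.K.C q := D.bi.VB_eq q

theorem pre_D (i : ι) {x : E} (hx : x ∈ U) :
    x ∈ D.pre.D i ↔ D.h.toFun x (ax (side i)) = c i := mem_dsheet D.h hx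

theorem pre_D_sub (i : ι) : D.pre.D i ⊆ D.pre.N i := fun z hz => by
  rw [← D.pre.zero i z hz]
  exact (D.pre.Γ i).mapsTo ⟨hz, H142.Pre.zero_mem_I⟩

theorem cell_eq {q q' : Q} {x : E} (hx : x ∈ D.pre.V q) (hx' : x ∈ D.K.C q') : q = q' := by
  rw [← pre_VB] at hx'
  rcases hx' with h | h
  · by_contra hne
    exact disjoint_left.1 (D.pre.V_disj q q' hne) hx h
  · exact absurd h (disjoint_left.1 (D.pre.VB q q') hx)

theorem γ_cell (i : ι) (k : D.pre.κ i) : D.pre.γ i k ⊆ D.K.C (D.pre.cell i k) := fun x hx => by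
  rw [← pre_VB]
  exact Or.inr (D.pre.γB i k hx)

theorem γ_ne (i : ι) (k : D.pre.κ i) : (D.pre.γ i k).Nonempty := by
  obtain ⟨x, hx, -⟩ := D.pre.near i k
  exact ⟨x, hx⟩

/-- a point of a drawn sheet is in the old band, or in the open cell of a cap -/
theorem mem_N_cases {j : ι} {x : E} (hx : x ∈ D.vf.N j) :
    x ∈ D.pre.N j ∨ ∃ k : D.pre.K j, x ∈ D.pre.V (D.pre.cell j k) := by
  rcases hx with hx | hx
  · exact Or.inl (D.pre.PP_N j hx)
  · obtain ⟨k, hk⟩ := mem_iUnion.1 hx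
    rcases D.pre.cap_sub j k hk with h | h
    · exact Or.inr ⟨k, h⟩
    · exact Or.inl (D.pre.PP_N j (D.pre.Lat_PP j k k.2 h))

/-- the same in coordinates -/
theorem mem_N_cases' {j : ι} {x : E} (hx : x ∈ D.vf.N j) :
    |D.h.toFun x (ax (side j)) - c j| ≤ w j ∨
      ∃ q, x ∈ interior (D.K.C q) ∧ ∃ y ∈ D.K.C q, D.h.toFun y (ax (side j)) = c j := by
  rcases mem_N_cases hx with h | ⟨k, h⟩
  · exact Or.inl ((D.pre_N j (D.N_sub j hx)).1 h)
  · obtain ⟨y, hy⟩ := γ_ne j k.1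
    have hyD := D.pre.γD j k hy
    exact Or.inr ⟨_, h, y, γ_cell j k.1 hy, (pre_D j (D.pre_N_sub j (pre_D_sub j hyD))).1 hyD⟩

end cells

namespace Near

variable {D : BoxK side ax lo hi c w U Q} {X : Bool} {T : Set (Fin 3 → ℝ)}

section one

variable [Finite ι] (hN : D.Near X T)
include hN

theorem not_old {j : ι} (hj : side j ≠ X) {x : E} (hx : x ∈ U) (hT : D.h.toFun x ∈ T) :
    x ∉ D.pre.N j := fun h =>
  absurd ((D.pre_N j hx).1 h) (not_le.2 (hN.far j hj _ hT))

theorem not_cell {j : ι} (hj : side j ≠ X) {q : Q} (hq : (D.h.toFun '' D.K.C q ∩ T).Nonempty)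
    {x : E} (hx : x ∈ D.K.C q) : x ∉ D.pre.N j := fun h =>
  absurd ((D.pre_N j (D.K.sub q hx)).1 h) (not_le.2 (hN.cell q hq j hj x hx))

theorem not_new_cell {j : ι} (hj : side j ≠ X) {q : Q}
    (hq : (D.h.toFun '' D.K.C q ∩ T).Nonempty) {x : E} (hx : x ∈ D.K.C q) : x ∉ D.vf.N j := by
  intro h
  rcases mem_N_cases h with h | ⟨k, h⟩
  · exact hN.not_cell hj hq hx h
  · have e := cell_eq h hx
    obtain ⟨y, hy⟩ := γ_ne j k.1
    have hy' := γ_cell j k.1 hy
    rw [e] at hy'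
    exact hN.not_cell hj hq hy' (pre_D_sub j (D.pre.γD j k hy))

/-- **(R0)** no sheet of the other family -/
theorem not_new {j : ι} (hj : side j ≠ X) {x : E} (hx : x ∈ U) (hT : D.h.toFun x ∈ T) :
    x ∉ D.vf.N j := by
  intro h
  rcases mem_N_cases h with h' | ⟨k, h'⟩
  · exact hN.not_old hj hx hT h'
  · have hc : x ∈ D.K.C (D.pre.cell j k) := by
      rw [← pre_VB]; exact Or.inl h'
    exact hN.not_new_cell hj ⟨_, ⟨x, hc, rfl⟩, hT⟩ hc h

/-- the old middle sheet near the wall -/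
theorem isPreconnected_A {i : ι} (hi : side i = X) :
    IsPreconnected {x | x ∈ D.pre.D i ∧ D.h.toFun x ∈ T} := by
  have e : {x | x ∈ D.pre.D i ∧ D.h.toFun x ∈ T} =
      D.h.invFun '' (T ∩ {y | y (ax X) = c i}) := by
    ext x
    constructor
    · rintro ⟨hx, hT⟩
      have hxU := D.pre_N_sub i (pre_D_sub i hx)
      refine ⟨D.h.toFun x, ⟨hT, ?_⟩, D.h.left_inv hxU⟩
      have := (pre_D i hxU).1 hx
      rwa [hi] at this
    · rintro ⟨y, ⟨hT, hy⟩, rfl⟩
      have hyI := hN.sub hT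
      have h1 := D.h.right_inv hyI
      refine ⟨(pre_D i (D.h.mapsTo_inv hyI)).2 ?_, ?_⟩
      · rw [h1, hi]; exact hy
      · rw [h1]; exact hT
  rw [e]
  exact (hN.conn i hi).image _ (D.h.cont_inv.mono fun y hy => hN.sub hy.1)

theorem exists_bd {i : ι} (hi : side i = X) :
    ∃ b, b ∈ D.pre.D i ∧ D.h.toFun b ∈ T ∧ b ∈ D.Bd := by
  obtain ⟨y, ⟨hT, hy⟩, hf⟩ := hN.bdry i hi
  have hyI := hN.sub hT
  have h1 := D.h.right_inv hyI
  refine ⟨D.h.invFun y, (pre_D i (D.h.mapsTo_inv hyI)).2 ?_, ?_, ?_⟩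
  · rw [h1, hi]; exact hy
  · rw [h1]; exact hT
  · rw [D.mem_Bd (D.h.mapsTo_inv hyI), h1]; exact hf

/-- a disc which meets the part near the wall has a boundary point there -/
theorem circle_meets {i : ι} (hi : side i = X) {k : D.pre.κ i}
    (hk : (D.pre.O i k ∩ {x | x ∈ D.pre.D i ∧ D.h.toFun x ∈ T}).Nonempty) :
    (D.h.toFun '' D.K.C (D.pre.cell i k) ∩ T).Nonempty := by
  by_contra hne
  have hd : Disjoint {x | x ∈ D.pre.D i ∧ D.h.toFun x ∈ T} (D.pre.γ i k) := by
    rw [disjoint_left]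
    rintro x ⟨-, hT⟩ hx
    exact hne ⟨_, ⟨x, γ_cell i k hx, rfl⟩, hT⟩
  obtain ⟨x, hxO, hx⟩ := hk
  rcases (D.pre.sheet i).dichB (hN.isPreconnected_A hi) (fun x hx => hx.1) hd with h | h
  · obtain ⟨b, hb1, hb2, hb3⟩ := hN.exists_bd hi
    exact disjoint_left.1 (D.pre.O_bd i k) (h ⟨hb1, hb2⟩).1 hb3
  · exact disjoint_left.1 h hx ⟨hxO, fun h' => disjoint_left.1 hd hx h'⟩

end one

/-- **(R1) ROOT**: near the wall the sheets of the family `X` are in their root regions. -/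
theorem mem_root [Finite ι] (hN : D.Near X T) {L : LamData D.vf.swData} {r : ℝ} {i : ι}
    (hi : side i = X) {x : E} (hx : D.Nr T x) (hxN : x ∈ D.vf.N i) (hr : |D.vf.s i x| ≤ r) :
    x ∈ L.PP r (Sum.inl i) := by
  classical
  set A₀ : Set E := {x | x ∈ D.pre.D i ∧ D.h.toFun x ∈ T} with hA₀
  obtain ⟨b, hb1, hb2, hb3⟩ := hN.exists_bd hi
  have hbA : b ∈ A₀ := ⟨hb1, hb2⟩
  set A₁ : Set E := {y | y ∈ A₀ ∨ ∃ k : D.pre.K i, (D.pre.O i k ∩ A₀).Nonempty ∧
    y ∈ D.pre.O i k} with hA₁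
  have hA₁D : A₁ ⊆ D.pre.D i := by
    rintro y (hy | ⟨k, -, hy⟩)
    · exact hy.1
    · exact (D.pre.sheet i).O_sub k hy
  have hA₁c : IsPreconnected A₁ := by
    refine isPreconnected_of_forall b fun y hy => ?_
    rcases hy with hy | ⟨k, hk, hy⟩
    · exact ⟨A₀, fun z hz => Or.inl hz, hbA, hy, hN.isPreconnected_A hi⟩
    · refine ⟨A₀ ∪ D.pre.O i k, ?_, Or.inl hbA, Or.inr hy, ?_⟩
      · rintro z (hz | hz)
        · exact Or.inl hz
        · exact Or.inr ⟨k, hk, hz⟩
      · obtain ⟨z, hz, hz'⟩ := hk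
        exact IsPreconnected.union z hz' hz (hN.isPreconnected_A hi)
          (D.pre.O_ball i k).isPreconnected
  set A' : Set E := (D.pre.θ i).invFun '' A₁ with hA'
  have hA'c : IsPreconnected A' := hA₁c.image _ ((D.pre.θ i).cont_inv.mono hA₁D)
  have hA'D : A' ⊆ D.pre.D' i := by
    rintro _ ⟨y, hy, rfl⟩
    exact (D.pre.θ i).mapsTo_inv (hA₁D hy)
  have hmem : ∀ z ∈ D.pre.D' i, (D.pre.θ i).toFun z ∈ A₁ → z ∈ A' := fun z hz h =>
    ⟨_, h, (D.pre.θ i).left_inv hz⟩
  have hco : ∀ z ∈ D.pre.co i, D.h.toFun z ∈ T → z ∈ A' := by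
    intro z hz hT
    refine hmem z (D.pre.co_D' i hz) ?_
    have : (D.pre.θ i).toFun z = z := D.pre.θ_id i hz
    rw [this]
    exact Or.inl ⟨hz.1, hT⟩
  have hcap : ∀ k : D.pre.K i, (D.pre.O i k ∩ A₀).Nonempty → ∀ z ∈ D.pre.Δ₀ i k, z ∈ A' := by
    intro k hk z hz
    refine hmem z (D.pre.cap_D' i k hz) (Or.inr ⟨k, hk, ?_⟩)
    rw [← D.pre.θ_cap i k]
    exact mem_image_of_mem _ hz
  -- the set misses the other family
  have hoth : ∀ j, side j ≠ X → Disjoint A' (D.vf.N j) := by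
    intro j hj
    rw [disjoint_left]
    rintro _ ⟨y, hy, rfl⟩ hzN
    set z := (D.pre.θ i).invFun y with hz
    have hyD := hA₁D hy
    have hzD : z ∈ D.pre.D' i := (D.pre.θ i).mapsTo_inv hyD
    have hθ : (D.pre.θ i).toFun z = y := (D.pre.θ i).right_inv hyD
    have hzU : z ∈ U := D.N_sub j hzN
    by_cases hzc : z ∈ D.pre.co i
    · have h1 : (D.pre.θ i).toFun z = z := D.pre.θ_id i hzc
      have hyz : y = z := hθ.symm.trans h1
      rw [hyz] at hy
      rcases hy with hy | ⟨k, hk, hy⟩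
      · exact hN.not_new hj hzU hy.2 hzN
      · have h2 : z ∈ D.pre.γ i k := by
          rw [← (D.pre.sheet i).O_inter_core k.2]
          exact ⟨hy, hzc⟩
        exact hN.not_new_cell hj (hN.circle_meets hi hk) (γ_cell i k.1 h2) hzN
    · rcases hzD with hzD | hzD
      · exact hzc hzD
      · obtain ⟨k, hzk⟩ := mem_iUnion.1 hzD
        have hyO : y ∈ D.pre.O i k := by
          rw [← hθ, ← D.pre.θ_cap i k]
          exact mem_image_of_mem _ hzk
        have hyc : y ∉ D.pre.co i := by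
          intro hyc
          have h1 : (D.pre.θ i).toFun y = y := D.pre.θ_id i hyc
          have h2 : z = y := (D.pre.θ i).injOn (D.pre.cap_D' i k hzk) (D.pre.co_D' i hyc)
            (hθ.trans h1.symm)
          rw [← h2] at hyc
          exact hzc hyc
        have hk : (D.pre.O i k ∩ A₀).Nonempty := by
          rcases hy with hy | ⟨k', hk', hy'⟩
          · exact ⟨y, hyO, hy⟩
          · by_cases hkk : k = k'
            · rw [hkk]; exact hk'
            · exfalso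
              have hne : (k : D.pre.κ i) ≠ k' := fun h => hkk (Subtype.ext h)
              have h1 : y ∉ D.pre.γ i k' := fun h => hyc (D.pre.γ_co i k'.2 h)
              exact disjoint_left.1 ((D.pre.sheet i).disj_closed
                ((D.pre.sheet i).top_disj k.2 k'.2 hne)) hyO ⟨hy', h1⟩
        have hzC : z ∈ D.K.C (D.pre.cell i k) := by
          rcases (D.pre.caps₀ i).sub k k.2 hzk with h | h
          · rw [← pre_VB]; exact Or.inl h
          · exact γ_cell i k.1 h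
        exact hN.not_new_cell hj (hN.circle_meets hi hk) hzC hzN
  have hbd : (A' ∩ D.vf.Bd).Nonempty :=
    ⟨b, hco b (D.pre.bd_co i hb1 hb3) hb2, hb3⟩
  have hA'm : A' ⊆ mid (D.vf.N i) (D.vf.s i) := by
    have := D.pre.mid_eq i
    rw [show mid (D.vf.N i) (D.vf.s i) = D.pre.D' i from this]
    exact hA'D
  have hfoot : ∀ z ∈ D.pre.D' i, ∀ t ∈ Icc (-1:ℝ) 1, x = (D.pre.Γ' i).toFun (z, t) →
      D.vf.foot i x = z := by
    intro z hz t ht he
    rw [he]
    exact VFam.foot_gam (V := D.vf) (i := i) (z := z)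
      (by rw [show mid (D.vf.N i) (D.vf.s i) = D.pre.D' i from D.pre.mid_eq i]; exact hz) ht
  have hPP : x ∈ D.pre.PP i → D.vf.foot i x ∈ A' := by
    rintro ⟨⟨z, t⟩, ⟨hz, ht⟩, he⟩
    have hz' : z ∈ D.pre.co i := hz
    have ht' : t ∈ Icc (-1:ℝ) 1 := ht
    have he' : (D.pre.Γ i).toFun (z, t) = x := he
    rw [hfoot z (D.pre.co_D' i hz') t ht' (by rw [D.pre.Γ'_co i hz' ht']; exact he'.symm)]
    refine hco z hz' ?_
    have hzU := D.pre_N_sub i (pre_D_sub i hz'.1)
    have hxT : D.h.toFun x ∈ T := by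
      rcases hx.2 with h | ⟨q, hq, hqT⟩
      · exact h.1
      · exact hqT (mem_image_of_mem _ hq)
    refine hN.vert _ hxT _ (D.h.mapsTo hzU) fun l hl => ?_
    have h1 : (D.pre.Γ i).toFun (z, t) =
        D.h.invFun (slide (ax (side i)) (c i) (w i) (D.h.toFun z, t)) := dsys_fib D.H D.h i hz'.1 t
    rw [← he', h1, D.h.right_inv (slide_mem (D.H.ok i) (D.h.mapsTo hzU) (abs_le.2 ht'))]
    rw [slide_ne (by rw [hi]; exact hl)]
  refine root_core (V := D.vf) hA'c hA'm hbd (fun j hj => hoth j ?_) hxN ?_ hr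
  · rw [← hi]; exact hj
  · rcases hxN with hxP | hxC
    · exact hPP hxP
    · obtain ⟨k, hk⟩ := mem_iUnion.1 hxC
      rcases D.pre.cap_sub i k hk with h | h
      · -- in the open cell
        obtain ⟨⟨z, t⟩, ⟨hz, ht⟩, he⟩ : x ∈ (D.pre.G i k).toFun '' (D.pre.Δ₀ i k ×ˢ
          Icc (-1:ℝ) 1) := by rw [(D.pre.G i k).image_eq]; exact hk
        have hz' : z ∈ D.pre.Δ₀ i k := hz
        have ht' : t ∈ Icc (-1:ℝ) 1 := ht
        have he' : (D.pre.G i k).toFun (z, t) = x := he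
        rw [hfoot z (D.pre.cap_D' i k hz') t ht' (by rw [D.pre.Γ'_cap i k hz' ht']; exact he'.symm)]
        refine hcap k ?_ z hz'
        rcases hx.2 with h2 | ⟨q, hq, hqT⟩
        · exact absurd h (h2.2 _)
        · have e := cell_eq h hq
          obtain ⟨y, hy⟩ := γ_ne i k.1
          have hyC := γ_cell i k.1 hy
          rw [e] at hyC
          exact ⟨y, (D.pre.sheet i).γ_sub k hy, D.pre.γD i k hy, hqT (mem_image_of_mem _ hyC)⟩
      · exact hPP (D.pre.Lat_PP i k k.2 h)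

end Near

end BoxK

end P073.H936.K3
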