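import Vale.Agent.P073.H237.RowW
import Vale.Agent.P073.H237.Plug2
import Vale.Agent.P073.H523.TopP
import Vale.Agent.P073.H851.TopW
import Vale.Agent.P073.H880.TopM

/-!
# P073, H237, K3C: the row **cover** over the slots of `H880.TopN`
-/

open Set Metric Topology Filter

set_option linter.unusedSectionVars false

namespace Vale.Agent.P073.Top880

open _root_.P073 _root_.P073.Net _root_.P073.PA691 _root_.P073.H236 _root_.P073.H579
open _root_.P073.H936 _root_.P073.H936.K3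
open _root_.P073.H345 (PK tg PLev)
open _root_.P073.H429
open _root_.P073.H919 (ZbP sfam_e bw_pos' bw)
open _root_.P073.H237.Cov (pst)
open Vale.Agent.P073.St (V)
open Vale.Agent.P073.H471 Vale.Agent.P073.H267
open Vale.Agent.P073.H73 (Mesh)
open Vale.Agent.P073.H193 (Edges edges)
open Vale.Agent.P073.H304 (Nb In Zmax)
open Vale.Agent.P073.H926
open Vale.Agent.P073.H238.K3
open Vale.Agent.P073.H267.K3
open Vale.Agent.P073.H212.K3

variable {c₀ n δ : ℝ} {j : ℕ} {Ω Λ : Set V} {v w : V} {ρ : V → ℝ} {M : Mesh Ω} {h : ConHomeo Ω Λ}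
  {J₀ J : Set (ℕ × (Fin 3 → ℤ))} {P Z : Set M.ι} {K : BoxCx Λ w}
  {D : KIn3 c₀ n j δ v w ρ M h J₀ J P Z} {C : Cells ρ w K} {C₀ μT : ℝ}
  {Ys : Set M.κ} {sc : Sharp}

/-- the half widths of the second staircases of ROUND P -/
theorem esg_le {X : S1 D C C₀ μT} {Y₂ : S2 X} {Y₃ : S3 Y₂ Ys sc} (Y₄ : S4 Y₃)
    (s : (D.dat C).S₀) (β : Bool) : (Y₄.Fσ β).e s ≤ Y₂.muP s.1 := by
  have h5 : (Y₄.Fσ β).e s = _ := sfam_e Y₃.pst' Y₄.p0 Y₄.p1 β s
  have h6 := mul_pos (Y₄.p0 s) (bw_pos' Y₃.pst' β s)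
  have h7 : (Y₄.Fσ β).e s ≤ pst Y₃.Lt s.1 β / 2 := by
    rw [h5]
    show pst Y₃.Lt s.1 β / 2 - _ ≤ _
    linarith
  have h8 := Y₃.pst_pos s.1 β
  have h9 : pst Y₃.Lt s.1 β ≤ Y₂.muP s.1 := Y₂.pst_le_mu s.1 β
  linarith

/-- **the row cover**: every drawn cell is drawn in a plate, in a tube, or in the zone of a
vertex -/
theorem row_cover (D : KIn3 c₀ n j δ v w ρ M h J₀ J P Z) (C : Cells ρ w K) (C₀ μT : ℝ)
    (Ys : Set M.κ) (sc : Sharp) :
    RowP D C C₀ μT Ys sc fun {_ _ Y₃ Y₄} Y₅ => ∀ i ∈ (D.dat C).Zd, i ∉ (D.dat C).Pr →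
      (∃ s, i ∈ ZbP (D.G C) (D.dat C) Y₃.h4 s) ∨ (∃ b, i ∈ ZbT Y₄ b) ∨
      ∃ i' ∈ pW C J₀, Y₅.f.toFun '' M.Q i ⊆ interior (Zv (D.W C) i') := by
  refine ⟨{ Slots.one with
    m := fun _ s => min (min ((D.G C).om (K.sm s)) ((D.G C).om (K.sp s)))
      (min ((D.G C).p s / 4) ((D.G C).a s))
    m0 := fun _ s => lt_min (lt_min ((D.G C).om_pos _) ((D.G C).om_pos _))
      (lt_min (by have := Geo.p_pos (G := D.G C) s; positivity) ((D.G C).a_pos s))
    δT := fun {_ _ _} _ b => min ((D.W C).wv (K.a b.1)) ((D.W C).wv (K.b b.1)) / 128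
    δT0 := fun {_ _ _} _ b => div_pos (lt_min ((D.W C).wv_pos _) ((D.W C).wv_pos _))
      (by norm_num) }, fun {N X Y₂ Y₃ Y₄} Y₅ H => ?_⟩
  have hm : ∀ s, Y₂.muP s ≤ min (min ((D.G C).om (K.sm s)) ((D.G C).om (K.sp s)))
      (min ((D.G C).p s / 4) ((D.G C).a s)) := H.muP
  have hom : ∀ s q, (q = K.sm s ∨ q = K.sp s) → Y₂.muP s ≤ (D.G C).om q := by
    rintro s q (rfl | rfl)
    · exact (hm s).trans ((min_le_left _ _).trans (min_le_left _ _))
    · exact (hm s).trans ((min_le_left _ _).trans (min_le_right _ _))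
  have hp : ∀ s, Y₂.muP s ≤ (D.G C).p s / 4 := fun s =>
    (hm s).trans ((min_le_right _ _).trans (min_le_left _ _))
  have ha : ∀ s, Y₂.muP s ≤ (D.G C).a s := fun s =>
    (hm s).trans ((min_le_right _ _).trans (min_le_right _ _))
  have hn := D.pos
  have hn4 := D.lt
  have hu : ∀ (b : pG C J₀) i', (i' = K.a b.1 ∨ i' = K.b b.1) →
      (D.G C).uT b.1 ≤ (D.W C).wv i' / 256 := by
    rintro b i' hi'
    have h1 := (D.G C).uT_lam b.1
    have h2 := (D.G C).lam_a b.1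
    have h3 := (D.G C).lam_b b.1
    have h4 := (D.G C).be_wv i'
    have h5 := (D.G C).be_pos i'
    rcases hi' with rfl | rfl <;> linarith
  intro i hi hP
  refine Y₅.cover (fun s β => (Y₂.om_le_mu s.1 β).trans (ha s.1))
    (fun s _ β q hq => (Y₂.c_le_mu s β).trans (hom s q hq))
    (fun s β q hq => Vale.Agent.P073.H851.D_le_om Y₃ (funext H.J) β s hq)
    (fun s β => (Y₂.pst_le_mu s.1 β).trans (hp s.1))
    (fun s β q hq => (esg_le Y₄ s β).trans (hom s.1 q hq)) (fun b => (H.μ0 b).le)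
    (fun b i' hi' => ?_) (fun b i' hi' => ?_) hi hP
  · rw [H.μ_len b]
    have h1 := H.M5 b
    have h2 : (Y₅.Th b).om ≤ min ((D.W C).wv (K.a b.1)) ((D.W C).wv (K.b b.1)) / 128 := h1
    have h3 : min ((D.W C).wv (K.a b.1)) ((D.W C).wv (K.b b.1)) ≤ (D.W C).wv i' := by
      rcases hi' with rfl | rfl
      · exact min_le_left _ _
      · exact min_le_right _ _
    have h4 := hu b i' hi'
    have h5 := (D.G C).uT_pos b.1
    have h6 := (D.W C).wv_pos i'
    nlinarith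
  · rw [H.μ_len b]
    have h4 := hu b i' hi'
    have h5 := (D.G C).uT_pos b.1
    have h6 := (D.W C).wv_pos i'
    nlinarith

end Vale.Agent.P073.Top880
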