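import Vale.Agent.P073.H237.LipW
import Vale.Agent.P073.H880.TopN

/-!
# P073, H237, K3C: the row **[LIP-W]** over the slots of `H880.TopN`
-/

open Set Metric Topology Filter

set_option linter.unusedSectionVars false

namespace Vale.Agent.P073.Top880

open _root_.P073 _root_.P073.Net _root_.P073.PA691 _root_.P073.H236 _root_.P073.H579
open _root_.P073.H429 (ebe eal)
open Vale.Agent.P073.St (V)
open Vale.Agent.P073.H471 Vale.Agent.P073.H267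
open Vale.Agent.P073.H73 (Mesh)
open Vale.Agent.P073.H193 (Edges edges)
open Vale.Agent.P073.H304 (Nb In Zmax)
open Vale.Agent.P073.H926
open Vale.Agent.P073.H238.K3
open Vale.Agent.P073.H267.K3
open Vale.Agent.P073.H212.K3
open Vale.Agent.P073.H233 (LAt Xp FullJ)

variable {c₀ n δ : ℝ} {j : ℕ} {Ω Λ : Set V} {v w : V} {ρ : V → ℝ} {M : Mesh Ω} {h : ConHomeo Ω Λ}
  {J₀ J : Set (ℕ × (Fin 3 → ℤ))} {P Z : Set M.ι} {K : BoxCx Λ w}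
  {D : KIn3 c₀ n j δ v w ρ M h J₀ J P Z} {C : Cells ρ w K} {C₀ μT : ℝ}
  {Ys : Set M.κ} {sc : Sharp} {N : RTn M C J₀} {S : Slots D C C₀ μT Ys sc}
  {X : S1 D C C₀ μT} {Y₂ : S2 X} {Y₃ : S3 Y₂ Ys sc} {Y₄ : S4 Y₃} {Y₅ : S5 Y₄}

theorem Ok5.μ0 (H : Ok5 S N Y₅) (b : pG C J₀) : 0 < Y₅.μ b := by
  rw [H.μ5]; exact muT_pos D C b.1

theorem Ok5.μ_le (H : Ok5 S N Y₅) (b : pG C J₀) : Y₅.μ b ≤ n / 1024 := by
  rw [H.μ5]; exact muT_le D C b.1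

theorem Ok5.μ1 (H : Ok5 S N Y₅) (b : pG C J₀) : Y₅.μ b ≤ 1 := by
  have h1 := H.μ_le b
  have h2 := D.lt
  linarith

theorem Ok5.μ_len (H : Ok5 S N Y₅) (b : pG C J₀) :
    Y₅.μ b * (ebe (D.W C) b.1 - eal (D.W C) b.1) = n / 1024 * (D.G C).uT b.1 := by
  rw [H.μ5]; exact muT_len D C b.1

theorem Ok5.μu (H : Ok5 S N Y₅) (b : pG C J₀) :
    Y₅.μ b * (ebe (D.W C) b.1 - eal (D.W C) b.1) ≤ (D.G C).uT b.1 / 4 := by
  rw [H.μ_len b]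
  have h2 := D.lt
  have h3 := (D.G C).uT_pos b.1
  nlinarith

/-- **the row `Last3.lip`, the passive cells with a given map** -/
theorem row_lipW (D : KIn3 c₀ n j δ v w ρ M h J₀ J P Z) (C : Cells ρ w K) (hC : 1 ≤ C₀)
    {D₁ : ℝ} (hD₁ : 3 * C₀ + 1 ≤ D₁) :
    ∃ S : Slots D C C₀ μT Ys sc, ∀ {N : RTn M C J₀} {X : S1 D C C₀ μT} {Y₂ : S2 X}
      {Y₃ : S3 Y₂ Ys sc} {Y₄ : S4 Y₃} (Y₅ : S5 Y₄), Ok5 S N Y₅ → FullJ w ρ J₀ J →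
      ∀ i, i ∉ P → i ∉ Zd D → ∀ L > 0,
      (∀ i', (M.Q i ∩ M.Q i').Nonempty →
        ∀ x ∈ M.Q i', ∀ y ∈ M.Q i', ‖h.toFun x - h.toFun y‖ ≤ L * ‖x - y‖) →
      ∀ x ∈ M.Q i, LAt (D.B C) (Xp C J₀) (D₁ * L) (M.Q i) Y₅.f.toFun x := by
  choose t ht0 ht using exists_tol5W D C
  refine ⟨{ Slots.one with tol5 := fun _ f _ => t f, tol50 := fun _ f _ b => ht0 f b },
    fun Y₅ H hJ => ?_⟩
  exact Y₅.lip_WN hC (fun b => (H.μ0 b).le) H.μ1 H.μu (ht Y₅.h6) H.ε5 hD₁ hJ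

end Vale.Agent.P073.Top880
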