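import Vale.Agent.P073.H237.SharpDefs2

/-!
# P073, H237, SHARP2: definitions, third part: the standard positions of the through arcs
-/

open Set Metric Topology

namespace P073.H237

open P073.H31

namespace Ends

variable (X : Ends)

/-- the width of the standard positions -/
noncomputable def wd (m : ℝ) (d : Bool) : ℝ := (1 - 2 * m) * (1 - m) / (X.th d).card

/-- the standard position of a through arc -/
noncomputable def Yp (m : ℝ) (j : ℕ) : ℝ :=
  m + (1 - 2 * m) * (X.rt j false + m / 2) / (X.th (X.typ j)).card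

/-- the data of a through arc -/
noncomputable def thrD (m : ℝ) (j : ℕ) : ThrD :=
  ⟨X.typ j, X.lo j (X.typ j), X.hi j (X.typ j), X.lo j (!X.typ j), X.hi j (!X.typ j), X.Yp m j⟩

end Ends

/-- **[FITS]** the intervals of the through arcs are moved to the standard positions by a
homeomorphism which is the identity off the `b`-neighbourhood of the boundary. (`SpecComb`,
`SpecShear`, `SpecNodes` are proved.) -/
def SpecFits : Prop :=
  ∀ (m c b : ℝ), 0 < m → m < 1 / 4 → 0 < c → c < 1 / 4 → 0 < b → b < 1 / 4 →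
    ∃ ρ₀ : ℝ, 0 < ρ₀ ∧ ∀ (X : Ends) (ρ om : ℝ), 0 < ρ → ρ ≤ ρ₀ → 0 < om → om ≤ ρ →
      X.Near m c ρ om → X.Dbl m →
      (∀ d, 0 < (X.th d).card ∧ |om * (X.th d).card - 1| ≤ b ∧ om ≤ 4 * X.wd m d) ∧
      (∀ j < X.n, X.thr j → (X.thrD m j).arc om = flipA (X.arc om j) ∧
        (X.thrD m j).hi' ≤ 1 - m ∧ m ≤ X.Yp m j ∧ X.Yp m j + X.wd m (X.typ j) ≤ 1 - m) ∧
      (∀ i < X.n, ∀ j < X.n, X.thr i → X.thr j → i ≠ j → X.typ i = X.typ j →
        X.Yp m i + X.wd m (X.typ i) < X.Yp m j ∨ X.Yp m j + X.wd m (X.typ i) < X.Yp m i) ∧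
      ∃ S : ConHomeo Rct Rct, EdgeId S ∧
        (∀ x ∈ Rct, b ≤ x.1 → x.1 ≤ 1 - b → b ≤ x.2 → x.2 ≤ 1 - b → S.toFun x = x) ∧
        (∀ x ∈ Rct, ∀ y ∈ Rct, dist (S.toFun x) (S.toFun y) ≤ 16 / c * dist x y) ∧
        ∀ j < X.n, X.thr j → (X.thrD m j).Fits (X.wd m (X.typ j)) S

end P073.H237
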