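import Vale.Agent.P073.H31.PlPeel

/-!
# P073, H237, SHARP2: definitions

The unit square is `Rct`. Its edges are `ed e`, `e : Fin 4` (bottom, right, top, left); the
parameter of an edge is the coordinate which varies. `tpBL`, `tpTR` are the positions of a boundary
point in the charts with base corner `(0,0)` resp. `(1,1)`: the perimeter, divided by four, in the
positive direction.
-/

open Set Metric Topology

namespace P073.H237

open P073.H31

/-- the edges of the unit square: bottom, right, top, left -/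
def ed (e : Fin 4) (t : ℝ) : ℝ × ℝ :=
  match e with
  | 0 => (t, 0)
  | 1 => (1, t)
  | 2 => (t, 1)
  | 3 => (0, t)

/-- position in the chart with base corner `(0,0)` -/
noncomputable def tpBL (e : Fin 4) (t : ℝ) : ℝ :=
  match e with
  | 0 => t / 4
  | 1 => (1 + t) / 4
  | 2 => (3 - t) / 4
  | 3 => (4 - t) / 4

/-- position in the chart with base corner `(1,1)` -/
noncomputable def tpTR (e : Fin 4) (t : ℝ) : ℝ :=
  match e with
  | 0 => (2 + t) / 4
  | 1 => (3 + t) / 4
  | 2 => (1 - t) / 4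
  | 3 => (2 - t) / 4

/-- a chart of the square with base corner `(0,0)`: the points of the edges at distance at least
`m` from this corner go to the top side -/
structure ChartBL (m K : ℝ) (κ : ConHomeo Rct Rct) : Prop where
  bd : κ.toFun '' bR = bR
  top : ∀ e t, t ∈ Icc (0:ℝ) 1 → ((e = 0 ∨ e = 3) → m ≤ t) → κ.toFun (ed e t) = (tpBL e t, 1)
  lip : ∀ x ∈ Rct, ∀ y ∈ Rct, dist (κ.toFun x) (κ.toFun y) ≤ K * dist x y
  lip' : ∀ x ∈ Rct, ∀ y ∈ Rct, dist (κ.invFun x) (κ.invFun y) ≤ K * dist x y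

/-- the same with base corner `(1,1)` -/
structure ChartTR (m K : ℝ) (κ : ConHomeo Rct Rct) : Prop where
  bd : κ.toFun '' bR = bR
  top : ∀ e t, t ∈ Icc (0:ℝ) 1 → ((e = 1 ∨ e = 2) → t ≤ 1 - m) → κ.toFun (ed e t) = (tpTR e t, 1)
  lip : ∀ x ∈ Rct, ∀ y ∈ Rct, dist (κ.toFun x) (κ.toFun y) ≤ K * dist x y
  lip' : ∀ x ∈ Rct, ∀ y ∈ Rct, dist (κ.invFun x) (κ.invFun y) ≤ K * dist x y

/-- [CHART] existence of the charts -/
def SpecChart : Prop :=
  ∀ m : ℝ, 0 < m → m < 1 / 4 → ∃ K : ℝ, 0 < K ∧ ∃ κ : ConHomeo Rct Rct, ChartBL m K κ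

/-- the data of a through arc: `u`-arcs (`d = false`) go from the bottom to the top and have the
first coordinate, `v`-arcs (`d = true`) go from the left to the right. `lo`, `hi` are the intervals
on the first edge (bottom resp. left), `lo'`, `hi'` on the second edge (top resp. right),
`[Y, Y + w]` is the standard position. -/
structure ThrD where
  d : Bool
  lo : ℝ
  hi : ℝ
  lo' : ℝ
  hi' : ℝ
  Y : ℝ

/-- the positions in the chart `TR` -/
noncomputable def ThrD.arc (D : ThrD) (om : ℝ) : ArcD :=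
  match D.d with
  | false => ⟨(1 - D.hi') / 4, (2 + D.hi) / 4, (D.hi' - D.lo') / 4, (D.hi - D.lo) / 4, om⟩
  | true => ⟨(2 - D.hi) / 4, (3 + D.hi') / 4, (D.hi - D.lo) / 4, (D.hi' - D.lo') / 4, om⟩

/-- coordinate -/
def crd (d : Bool) (x : ℝ × ℝ) : ℝ := match d with
  | false => x.1
  | true => x.2

/-- a homeomorphism of the square which preserves every edge -/
structure EdgeId (S : ConHomeo Rct Rct) : Prop where
  bot : ∀ x ∈ Rct, x.2 = 0 → (S.toFun x).2 = 0
  top : ∀ x ∈ Rct, x.2 = 1 → (S.toFun x).2 = 1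
  left : ∀ x ∈ Rct, x.1 = 0 → (S.toFun x).1 = 0
  right : ∀ x ∈ Rct, x.1 = 1 → (S.toFun x).1 = 1

/-- `S` maps the intervals of the arc to the standard position `[Y, Y + w]`, affinely -/
structure ThrD.Fits (D : ThrD) (w : ℝ) (S : ConHomeo Rct Rct) : Prop where
  lo0 : 0 < D.lo
  lohi : D.lo < D.hi
  hi1 : D.hi < 1
  lo0' : 0 < D.lo'
  lohi' : D.lo' < D.hi'
  hi1' : D.hi' < 1
  Y0 : 0 < D.Y
  Y1 : D.Y + w < 1
  fst : ∀ t ∈ Icc D.lo D.hi, crd D.d (S.toFun (ed (if D.d then 3 else 0) t)) =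
    D.Y + w * ((t - D.lo) / (D.hi - D.lo))
  snd : ∀ t ∈ Icc D.lo' D.hi', crd D.d (S.toFun (ed (if D.d then 1 else 2) t)) =
    D.Y + w * ((t - D.lo') / (D.hi' - D.lo'))

/-- the band coordinate of a through arc in the chart `TR` (the side of the corner `(1,1)` has the
value `0`) -/
noncomputable def ThrD.z (D : ThrD) (w : ℝ) (y : ℝ × ℝ) : ℝ := 1 - cl1 ((crd D.d y - D.Y) / w)

/-- **[BASE]** the product drawing of the through arcs: any pattern with these positions (in the
chart `TR`) has a thick drawing with the band coordinates `z (S (κ⁻¹ x))`. -/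
def SpecBase (E : Type*) [NormedAddCommGroup E] [NormedSpace ℝ E] : Prop :=
  ∀ (m K : ℝ) (κ : ConHomeo Rct Rct), 0 < m → ChartTR m K κ →
  ∀ (S : ConHomeo Rct Rct), EdgeId S →
  ∀ (k N : ℕ) (D : ℕ → ThrD) (om : ℕ → ℝ) (w : Bool → ℝ), k ≤ N → (∀ d, 0 < w d) →
    (∀ i < k, 0 < om i) → (∀ i < k, (D i).Fits (w (D i).d) S) →
    (∀ i < k, (D i).hi' ≤ 1 - m) →
    (∀ i < k, ∀ j < k, i ≠ j → (D i).d = (D j).d →
      (D i).Y + w (D i).d < (D j).Y ∨ (D j).Y + w (D j).d < (D i).Y) →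
    Pos k (fun i => (D i).arc (om i)) →
  ∀ (C B : Set E) (col : ℕ → Bool) (fn : ℕ → E → ℝ) (γ : ℝ × ℝ → E),
    Pat k (fun i => (D i).arc (om i)) col C B fn γ →
    ∃ Φ : ConHomeo Rct (Fil N k C fn),
      (∀ x ∈ Rct, ∀ i : Fin N, (Φ.toFun x).2 i =
        if (i : ℕ) < k then (D i).z (w (D i).d) (S.toFun (κ.invFun x)) else 0) ∧
      (∀ x ∈ bR, (Φ.toFun x).1 = γ x)

/-- `T` is an increasing piecewise affine homeomorphism of `[0,1]` (also of the line) -/
structure PL1 (L : ℝ) (T T' : ℝ → ℝ) : Prop where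
  mono : StrictMono T
  inv : ∀ t, T' (T t) = t
  inv' : ∀ t, T (T' t) = t
  c : Continuous T
  c' : Continuous T'
  k : ConicalOn T univ
  k' : ConicalOn T' univ
  zero : T 0 = 0
  one : T 1 = 1
  lip : ∀ s t, |T s - T t| ≤ L * |s - t|

/-- **[SHEAR]** four boundary maps `T e` (for the four edges, in the parameters of the edges) extend
to the square by clip maps -/
def SpecShear : Prop :=
  ∀ (L η b : ℝ), 1 ≤ L → 0 < b → b < 1 / 4 → 0 ≤ η → η ≤ b → 
  ∀ (T T' : Fin 4 → ℝ → ℝ), (∀ e, PL1 L (T e) (T' e)) → (∀ e, ∀ t ∈ Icc (0:ℝ) 1, |T e t - t| ≤ η) →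
    ∃ S : ConHomeo Rct Rct, EdgeId S ∧
      (∀ e, ∀ t ∈ Icc (0:ℝ) 1, S.toFun (ed e t) = ed e (T e t)) ∧
      (∀ x ∈ Rct, b ≤ x.1 → x.1 ≤ 1 - b → b ≤ x.2 → x.2 ≤ 1 - b → S.toFun x = x) ∧
      ∀ x ∈ Rct, ∀ y ∈ Rct, dist (S.toFun x) (S.toFun y) ≤ 8 * L * dist x y

/-- **[NODES]** piecewise affine homeomorphisms of the line with given nodes -/
def SpecNodes : Prop :=
  ∀ (n : ℕ) (x y : ℕ → ℝ) (L η : ℝ), 0 < n → 1 ≤ L → x 0 = 0 → y 0 = 0 → x n = 1 → y n = 1 →
    (∀ i < n, x i < x (i + 1)) → (∀ i < n, y i < y (i + 1)) →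
    (∀ i < n, y (i + 1) - y i ≤ L * (x (i + 1) - x i)) → (∀ i ≤ n, |y i - x i| ≤ η) →
    ∃ T T' : ℝ → ℝ, PL1 L T T' ∧ (∀ t ∈ Icc (0:ℝ) 1, |T t - t| ≤ η) ∧
      ∀ i < n, ∀ t ∈ Icc (x i) (x (i + 1)),
        T t = y i + (y (i + 1) - y i) * ((t - x i) / (x (i + 1) - x i))

/-- the ends of `n` arcs on the boundary of the unit square: the end `(i, s)` is the interval
`[lo, hi]` of the edge `e`; `s = false` is the first end in the chart `BL` -/
structure Ends where
  n : ℕ
  typ : ℕ → Bool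
  e : ℕ → Bool → Fin 4
  lo : ℕ → Bool → ℝ
  hi : ℕ → Bool → ℝ

namespace Ends

variable (X : Ends)

/-- the left end of the interval in the chart `BL` -/
noncomputable def tl (i : ℕ) (s : Bool) : ℝ := min (tpBL (X.e i s) (X.lo i s)) (tpBL (X.e i s) (X.hi i s))

/-- the right end of the interval in the chart `BL` -/
noncomputable def tr (i : ℕ) (s : Bool) : ℝ := max (tpBL (X.e i s) (X.lo i s)) (tpBL (X.e i s) (X.hi i s))

/-- the data of the arcs in the chart `BL` -/
noncomputable def arc (om : ℝ) (i : ℕ) : ArcD :=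
  ⟨X.tl i false, X.tr i true, X.tr i false - X.tl i false, X.tr i true - X.tl i true, om⟩

/-- all ends on the edge `e` -/
def on (e : Fin 4) : Finset (ℕ × Bool) := (Finset.range X.n ×ˢ Finset.univ).filter fun x => X.e x.1 x.2 = e

/-- the rank of an end on its edge -/
noncomputable def rk (i : ℕ) (s : Bool) : ℕ :=
  ((X.on (X.e i s)).filter fun y => X.lo y.1 y.2 < X.lo i s).card

/-- the direction of an edge: the type of the arcs which cross it properly -/
def dir (e : Fin 4) : Bool := match e with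
  | 0 => false
  | 1 => true
  | 2 => false
  | 3 => true

/-- arcs of the right type with exactly one end on `e` -/
def one (e : Fin 4) : Finset ℕ := (Finset.range X.n).filter fun i => X.typ i = dir e ∧
  ((X.e i false = e ∧ X.e i true ≠ e) ∨ (X.e i false ≠ e ∧ X.e i true = e))

/-- **the edge rule** (`m` margin at the corners, `c` fraction of the cells) and the condition
`(NM)`: all four edges are nearly monotone (`om` is the common weight) -/
structure Near (m c ρ om : ℝ) : Prop where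
  ord : ∀ i < X.n, X.tr i false < X.tl i true
  cell : ∀ i < X.n, ∀ s, m + (1 - 2 * m) * (X.rk i s + c) / (X.on (X.e i s)).card ≤ X.lo i s ∧
    X.hi i s ≤ m + (1 - 2 * m) * (X.rk i s + 1 - c) / (X.on (X.e i s)).card ∧
    X.lo i s + c * (1 - 2 * m) / (X.on (X.e i s)).card ≤ X.hi i s
  inj : ∀ i < X.n, ∀ s, ∀ j < X.n, ∀ s', (i, s) ≠ (j, s') → X.e i s = X.e j s' →
    X.lo i s ≠ X.lo j s'
  cnt : ∀ e, om * (X.on e).card ≤ 1 + ρ
  one : ∀ e, 1 - ρ ≤ om * (X.one e).card
  unl : ∀ i < X.n, ∀ j < X.n, i ≠ j → X.typ i = X.typ j → ¬ Lnk (X.arc om i) (X.arc om j)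

/-- through arcs -/
def thr (i : ℕ) : Prop := (X.typ i = false ∧ X.e i false = 0 ∧ X.e i true = 2) ∨
  (X.typ i = true ∧ X.e i false = 1 ∧ X.e i true = 3)

/-- arcs around the corner `(0,0)` -/
def cor (i : ℕ) : Prop := X.e i false = 0 ∧ X.e i true = 3

/-- through arcs of a type -/
noncomputable def th (d : Bool) : Finset ℕ := by
  classical exact (Finset.range X.n).filter fun i => X.thr i ∧ X.typ i = d

/-- the rank of a through arc among the through arcs of its type -/
noncomputable def rt (i : ℕ) (s : Bool) : ℕ :=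
  ((X.th (X.typ i)).filter fun j => X.lo j s < X.lo i s).card

end Ends

/-- **[COMB]** the combinatorics of the four nearly monotone edges -/
def SpecComb : Prop :=
  ∃ M : ℝ, 0 < M ∧ ∀ (X : Ends) (m c ρ om : ℝ), 0 < m → m < 1 / 4 → 0 < c → c < 1 / 4 → 0 < ρ →
    M * ρ ≤ 1 → 0 < om → om ≤ ρ → X.Near m c ρ om →
    -- the other arcs have a side with at most one corner, different from `(0,0)`
    (∀ i < X.n, ¬ X.thr i → ¬ X.cor i → (X.e i false : ℕ) ≤ X.e i true ∧
      (X.e i true : ℕ) ≤ X.e i false + 1) ∧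
    -- few arcs are not through arcs
    (∀ s : Finset ℕ, (∀ i ∈ s, i < X.n ∧ ¬ X.thr i) → om * s.card ≤ M * ρ) ∧
    -- the number of through arcs
    (∀ d, |om * (X.th d).card - 1| ≤ M * ρ) ∧
    -- same order on both edges
    (∀ i < X.n, X.thr i → X.rt i false = X.rt i true ∧ X.rt i false < (X.th (X.typ i)).card) ∧
    (∀ i < X.n, ∀ j < X.n, X.thr i → X.thr j → X.typ i = X.typ j → i ≠ j →
      X.rt i false ≠ X.rt j false) ∧
    -- positions
    (∀ i < X.n, ∀ s, X.thr i → |X.lo i s - (m + (1 - 2 * m) * X.rt i s / (X.th (X.typ i)).card)| ≤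
      M * ρ)

end P073.H237
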