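import Vale.Agent.P073.H237.SharpE
import Vale.Agent.P073.H237.Ramps
import Vale.Agent.P073.H237.SharpDefs3
import Vale.Agent.P073.H31.ShChart

/-!
# P073, H237, SHARP-CORE, part 1: weighted Lipschitz estimates for families of functions
-/

set_option linter.unusedSectionVars false

open Set Metric Topology Filter

namespace P073.H237

open P073.H31

/-- weighted Lipschitz estimate for families of functions on the square -/
def FLip (n : ℕ) (om : ℝ) (z : ℕ → ℝ → ℝ → ℝ) (C : ℝ) : Prop :=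
  ∀ x ∈ Rct, ∀ y ∈ Rct, ∑ i ∈ Finset.range n, om * |z i x.1 x.2 - z i y.1 y.2| ≤ C * dist x y

theorem FLip.mono {n : ℕ} {om C C' : ℝ} {z : ℕ → ℝ → ℝ → ℝ} (h : FLip n om z C) (hC : C ≤ C') :
    FLip n om z C' := fun x hx y hy =>
  (h x hx y hy).trans (mul_le_mul_of_nonneg_right hC dist_nonneg)

theorem dist_fst_le (x y : ℝ × ℝ) : |x.1 - y.1| ≤ dist x y := by
  rw [Prod.dist_eq, ← Real.dist_eq]; exact le_max_left _ _

theorem dist_snd_le (x y : ℝ × ℝ) : |x.2 - y.2| ≤ dist x y := by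
  rw [Prod.dist_eq, ← Real.dist_eq]; exact le_max_right _ _

/-- the doubled intervals are disjoint -/
def Djt (A B : ArcD) : Prop :=
  (A.p + 2 * A.w ≤ B.p ∨ B.p + 2 * B.w ≤ A.p) ∧
    (A.q ≤ B.q - 2 * B.w' ∨ B.q ≤ A.q - 2 * A.w')

/-- the data of the layers from a family with a weighted Lipschitz estimate -/
theorem FLip.lay {om s C : ℝ} {A : ℕ → ArcD} {k0 m : ℕ} {f : ℕ → ℝ → ℝ → ℝ}
    (hf : FLip k0 om f C) (hC : 1 ≤ C) (hs : 0 < s) (hs1 : s ≤ 1) (hom : 0 < om)
    (hA : ∀ i < k0 + m, (A i).om = om) (hsum : m * (2 * om) ≤ s / 2) :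
    Lay s 1 C C (fun _ => om) A k0 m f where
  s0 := hs
  s1 := hs1
  W0 := one_pos
  WU := hC
  h0 _ _ := hom
  om j hj := by rw [hA _ (by omega), one_mul]
  om0 i hi := by rw [hA _ (by omega)]; exact hom.le
  sum := by rw [Finset.sum_const, Finset.card_range, nsmul_eq_mul]; exact hsum
  vert := by
    intro a ha t ht t' ht'
    have h := hf (a, t) ⟨ha, ht⟩ (a, t') ⟨ha, ht'⟩
    have e : dist ((a, t) : ℝ × ℝ) (a, t') = |t - t'| := by
      rw [Prod.dist_eq, dist_self, Real.dist_eq]; exact max_eq_right (abs_nonneg _)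
    rw [e] at h
    refine le_trans (le_of_eq (Finset.sum_congr rfl fun i hi => ?_)) h
    rw [hA _ (by have := Finset.mem_range.1 hi; omega)]
  horiz := by
    intro a ha a' ha' t ht
    have h := hf (a, t) ⟨ha, ht⟩ (a', t) ⟨ha', ht⟩
    have e : dist ((a, t) : ℝ × ℝ) (a', t) = |a - a'| := by
      rw [Prod.dist_eq, dist_self, Real.dist_eq]; exact max_eq_left (abs_nonneg _)
    rw [e] at h
    refine le_trans (le_of_eq (Finset.sum_congr rfl fun i hi => ?_)) h
    rw [hA _ (by have := Finset.mem_range.1 hi; omega)]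

/-- the new constant -/
noncomputable def nxt (Λ C : ℝ) : ℝ := 3 * C + (2 * C + 1) * (2 * Λ)

theorem le_nxt {Λ C : ℝ} (hΛ : 0 ≤ Λ) (hC : 1 ≤ C) : C ≤ nxt Λ C := by
  unfold nxt; nlinarith

/-- **the weighted Lipschitz estimate after the insertion of the layers** -/
theorem FLip.layers {om s C Λ : ℝ} {A : ℕ → ArcD} {k0 m : ℕ} {f : ℕ → ℝ → ℝ → ℝ}
    (hf : FLip k0 om f C) (hC : 1 ≤ C) (hs : 0 < s) (hs1 : s ≤ 1) (hom : 0 < om)
    (hA : ∀ i < k0 + m, (A i).om = om) (hsum : m * (2 * om) ≤ s / 2) (hΛ : 0 ≤ Λ)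
    (hg : ∀ i < k0 + m, (A i).Good)
    (hw : ∀ i < k0 + m, om ≤ Λ * (A i).w ∧ om ≤ Λ * (A i).w')
    (hd : ∀ i < k0 + m, ∀ j < k0 + m, i ≠ j → Djt (A i) (A j)) :
    FLip (k0 + m) om (mds s (fun _ => om) A k0 f m) (nxt Λ C) := by
  have L := hf.lay hC hs hs1 hom hA hsum
  rintro ⟨a, t⟩ ⟨ha, ht⟩ ⟨a', t'⟩ ⟨ha', ht'⟩
  simp only at ha ht ha' ht'
  have e0 : ∀ x : ℕ → ℝ, ∑ i ∈ Finset.range (k0 + m), om * x i =
      ∑ i ∈ Finset.range (k0 + m), (A i).om * x i := fun x =>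
    Finset.sum_congr rfl fun i hi => by rw [hA _ (Finset.mem_range.1 hi)]
  have h1 := L.horiz_le a ha a' ha' t ht
  have h2 := L.vert_two a' ha' t ht t' ht'
  have h3 : ∑ j ∈ Finset.range m, (A (k0 + j)).om * |(A (k0 + j)).lam a - (A (k0 + j)).lam a'| ≤
      2 * Λ * |a - a'| := by
    refine sum_lam (Finset.range m) (fun j => A (k0 + j)) Λ hΛ ?_ ?_ ?_ a a'
    · intro i hi; exact hg _ (by have := Finset.mem_range.1 hi; omega)
    · intro i hi
      have hi' : k0 + i < k0 + m := by have := Finset.mem_range.1 hi; omega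
      show (A (k0 + i)).om ≤ _ ∧ (A (k0 + i)).om ≤ _
      rw [hA _ hi']; exact hw _ hi'
    · intro i hi j hj hij
      exact hd _ (by have := Finset.mem_range.1 hi; omega) _
        (by have := Finset.mem_range.1 hj; omega) (by omega)
  have d1 := dist_fst_le (a, t) (a', t')
  have d2 := dist_snd_le (a, t) (a', t')
  simp only at d1 d2
  have h4 : ∑ i ∈ Finset.range (k0 + m), om * |mds s (fun _ => om) A k0 f m i a t -
      mds s (fun _ => om) A k0 f m i a' t'| ≤
      ∑ i ∈ Finset.range (k0 + m), (A i).om * |mds s (fun _ => om) A k0 f m i a t -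
        mds s (fun _ => om) A k0 f m i a' t| +
      ∑ i ∈ Finset.range (k0 + m), (A i).om * |mds s (fun _ => om) A k0 f m i a' t -
        mds s (fun _ => om) A k0 f m i a' t'| := by
    rw [e0, ← Finset.sum_add_distrib]
    refine Finset.sum_le_sum fun i hi => ?_
    rw [← mul_add]
    refine mul_le_mul_of_nonneg_left (abs_sub_le _ _ _) ?_
    rw [hA _ (Finset.mem_range.1 hi)]; exact hom.le
  show ∑ i ∈ Finset.range (k0 + m), om * |mds s (fun _ => om) A k0 f m i a t -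
      mds s (fun _ => om) A k0 f m i a' t'| ≤ _
  refine h4.trans ((add_le_add h1 h2).trans ?_)
  set D := dist ((a, t) : ℝ × ℝ) (a', t') with hD
  have hD0 : 0 ≤ D := dist_nonneg
  unfold nxt
  have k1 : C * |a - a'| ≤ C * D := mul_le_mul_of_nonneg_left d1 (by linarith)
  have k2 : 2 * C * |t - t'| ≤ 2 * C * D := mul_le_mul_of_nonneg_left d2 (by linarith)
  have k3 : 2 * Λ * |a - a'| ≤ 2 * Λ * D := mul_le_mul_of_nonneg_left d1 (by linarith)
  have k4 : (2 * C / 1 + 1) * ∑ j ∈ Finset.range m,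
      (A (k0 + j)).om * |(A (k0 + j)).lam a - (A (k0 + j)).lam a'| ≤ (2 * C + 1) * (2 * Λ * D) := by
    rw [div_one]
    exact mul_le_mul_of_nonneg_left (h3.trans k3) (by linarith)
  linarith

/-- composition with a map -/
theorem FLip.comp {n : ℕ} {om C K : ℝ} {z : ℕ → ℝ → ℝ → ℝ} (h : FLip n om z C) (hC : 0 ≤ C)
    {g : ℝ × ℝ → ℝ × ℝ} (hg : MapsTo g Rct Rct)
    (hK : ∀ x ∈ Rct, ∀ y ∈ Rct, dist (g x) (g y) ≤ K * dist x y) :
    FLip n om (fun i a t => z i (g (a, t)).1 (g (a, t)).2) (C * K) := by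
  intro x hx y hy
  refine (h _ (hg hx) _ (hg hy)).trans ?_
  rw [mul_assoc]
  exact mul_le_mul_of_nonneg_left (hK x hx y hy) hC

/-- reindexing -/
theorem FLip.perm {n : ℕ} {om C : ℝ} {z : ℕ → ℝ → ℝ → ℝ} (h : FLip n om z C) {σ : Equiv.Perm ℕ}
    (hσ : ∀ i, σ i < n ↔ i < n) :
    FLip n om (fun j a t => if j < n then z (σ.symm j) a t else 0) C := by
  intro x hx y hy
  refine le_trans (le_of_eq ?_) (h x hx y hy)
  refine Finset.sum_bij' (fun i _ => σ.symm i) (fun i _ => σ i) ?_ ?_ ?_ ?_ ?_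
  · intro i hi
    rw [Finset.mem_range] at hi ⊢
    exact (hσ _).1 (by rwa [σ.apply_symm_apply])
  · intro i hi
    rw [Finset.mem_range] at hi ⊢
    exact (hσ _).2 hi
  · intro i _; exact σ.apply_symm_apply i
  · intro i _; exact σ.symm_apply_apply i
  · intro i hi
    rw [Finset.mem_range] at hi
    simp only [if_pos hi]

/-- the reflection `1 - z` -/
theorem FLip.refl {n : ℕ} {om C : ℝ} {z : ℕ → ℝ → ℝ → ℝ} (h : FLip n om z C) :
    FLip n om (fun j a t => 1 - z j a t) C := by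
  intro x hx y hy
  refine le_trans (le_of_eq (Finset.sum_congr rfl fun i _ => ?_)) (h x hx y hy)
  simp only
  rw [sub_sub_sub_cancel_left, abs_sub_comm]

theorem FLip.congr {n : ℕ} {om C : ℝ} {z z' : ℕ → ℝ → ℝ → ℝ} (h : FLip n om z C)
    (e : ∀ i < n, ∀ x ∈ Rct, z i x.1 x.2 = z' i x.1 x.2) : FLip n om z' C := by
  intro x hx y hy
  refine le_trans (le_of_eq (Finset.sum_congr rfl fun i hi => ?_)) (h x hx y hy)
  rw [e i (Finset.mem_range.1 hi) x hx, e i (Finset.mem_range.1 hi) y hy]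

/-- **the sum of the clipped coordinates** over disjoint intervals of the same width -/
theorem sum_clip {s : Finset ℕ} {Y : ℕ → ℝ} {w om : ℝ} (hw : 0 < w) (hom : 0 ≤ om)
    (hd : ∀ i ∈ s, ∀ j ∈ s, i ≠ j → Y i + w < Y j ∨ Y j + w < Y i) (u v : ℝ) :
    ∑ i ∈ s, om * |cl1 ((u - Y i) / w) - cl1 ((v - Y i) / w)| ≤ om / w * |u - v| := by
  have h := sum_ramp s Y (fun i => Y i + w) (fun i _ => by linarith) (fun i hi j hj hij => by
    rcases hd i hi j hj hij with h | h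
    · exact Or.inl h.le
    · exact Or.inr h.le) u v
  have e : ∀ i, Y i + w - Y i = w := fun i => by ring
  simp only [e] at h
  rw [← Finset.mul_sum] at h ⊢
  have : om * ∑ i ∈ s, |cl1 ((u - Y i) / w) - cl1 ((v - Y i) / w)| =
      om / w * (w * ∑ i ∈ s, |cl1 ((u - Y i) / w) - cl1 ((v - Y i) / w)|) := by
    field_simp
  rw [this]
  exact mul_le_mul_of_nonneg_left h (div_nonneg hom hw.le)

end P073.H237
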