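import Vale.Agent.P073.H237.SharpC1

/-!
# P073, H237, SHARP-CORE, part 2: boundary values of the base drawing and of the flips
-/

set_option linter.unusedSectionVars false

open Set Metric Topology Filter

namespace P073.H237

open P073.H31

theorem inv_of_top {κ : ConHomeo Rct Rct} {e : Fin 4} {t a : ℝ} (ht : t ∈ Icc (0:ℝ) 1)
    (h : κ.toFun (ed e t) = (a, 1)) : κ.invFun (a, 1) = ed e t := by
  rw [← h, κ.left_inv (bR_sub_Rct (ed_bR ht))]

/-- **boundary values of the base drawing** -/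
theorem base_sig {m K w om : ℝ} {κ S : ConHomeo Rct Rct} (hTR : ChartTR m K κ) (D : ThrD)
    (hw : 0 < w) (F : D.Fits w S) (h1 : D.hi' ≤ 1 - m) (g : (D.arc om).Good) {a : ℝ}
    (ha : a ∈ Icc (D.arc om).p ((D.arc om).p + (D.arc om).w) ∨
      a ∈ Icc ((D.arc om).q - (D.arc om).w') (D.arc om).q) :
    D.z w (S.toFun (κ.invFun (a, 1))) = (D.arc om).sig a := by
  obtain ⟨l0, lh, hh1, l0', lh', hh1', -, -, fst, snd⟩ := F
  have d1 : 0 < D.hi - D.lo := by linarith
  have d2 : 0 < D.hi' - D.lo' := by linarith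
  have hz : ∀ {y : ℝ × ℝ} {r : ℝ}, 0 ≤ r → r ≤ 1 → crd D.d y = D.Y + w * r → D.z w y = 1 - r := by
    intro y r hr hr1 hy
    rw [ThrD.z, hy, add_sub_cancel_left, mul_div_cancel_left₀ _ hw.ne', cl1_eq_self hr hr1]
  rcases hd : D.d with _ | _
  · -- bottom to top
    have ep : (D.arc om).p = (1 - D.hi') / 4 := by simp only [ThrD.arc, hd]
    have eq : (D.arc om).q = (2 + D.hi) / 4 := by simp only [ThrD.arc, hd]
    have ew : (D.arc om).w = (D.hi' - D.lo') / 4 := by simp only [ThrD.arc, hd]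
    have ew' : (D.arc om).w' = (D.hi - D.lo) / 4 := by simp only [ThrD.arc, hd]
    rw [hd] at fst snd
    simp only [Bool.false_eq_true, if_false] at fst snd
    rcases ha with ⟨ha, ha'⟩ | ⟨ha, ha'⟩
    · have hs := sig_left g ha ha'
      rw [ep] at ha ha' hs
      rw [ew] at ha' hs
      have ht : (1 - 4 * a) ∈ Icc D.lo' D.hi' := ⟨by linarith, by linarith⟩
      have ht' : (1 - 4 * a) ∈ Icc (0:ℝ) 1 := ⟨by linarith [ht.1], by linarith [ht.2]⟩
      have e1 := hTR.top 2 (1 - 4 * a) ht' fun _ => by linarith [ht.2]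
      have e2 : tpTR 2 (1 - 4 * a) = a := by simp only [tpTR]; ring
      rw [e2] at e1
      rw [inv_of_top ht' e1, hz (r := (1 - 4 * a - D.lo') / (D.hi' - D.lo')) (div_nonneg (by linarith [ht.1]) d2.le)
        ((div_le_one d2).2 (by linarith [ht.2])) (by rw [hd]; exact snd _ ht), hs]
      field_simp; ring
    · have hs := sig_right g ha ha'
      rw [eq] at ha ha' hs
      rw [ew'] at ha hs
      have ht : (4 * a - 2) ∈ Icc D.lo D.hi := ⟨by linarith, by linarith⟩
      have ht' : (4 * a - 2) ∈ Icc (0:ℝ) 1 := ⟨by linarith [ht.1], by linarith [ht.2]⟩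
      have e1 := hTR.top 0 (4 * a - 2) ht' fun h => by
        rcases h with h | h <;> exact absurd h (by decide)
      have e2 : tpTR 0 (4 * a - 2) = a := by simp only [tpTR]; ring
      rw [e2] at e1
      rw [inv_of_top ht' e1, hz (r := (4 * a - 2 - D.lo) / (D.hi - D.lo)) (div_nonneg (by linarith [ht.1]) d1.le)
        ((div_le_one d1).2 (by linarith [ht.2])) (by rw [hd]; exact fst _ ht), hs]
      field_simp; ring
  · -- left to right
    have ep : (D.arc om).p = (2 - D.hi) / 4 := by simp only [ThrD.arc, hd]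
    have eq : (D.arc om).q = (3 + D.hi') / 4 := by simp only [ThrD.arc, hd]
    have ew : (D.arc om).w = (D.hi - D.lo) / 4 := by simp only [ThrD.arc, hd]
    have ew' : (D.arc om).w' = (D.hi' - D.lo') / 4 := by simp only [ThrD.arc, hd]
    rw [hd] at fst snd
    simp only [if_true] at fst snd
    rcases ha with ⟨ha, ha'⟩ | ⟨ha, ha'⟩
    · have hs := sig_left g ha ha'
      rw [ep] at ha ha' hs
      rw [ew] at ha' hs
      have ht : (2 - 4 * a) ∈ Icc D.lo D.hi := ⟨by linarith, by linarith⟩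
      have ht' : (2 - 4 * a) ∈ Icc (0:ℝ) 1 := ⟨by linarith [ht.1], by linarith [ht.2]⟩
      have e1 := hTR.top 3 (2 - 4 * a) ht' fun h => by
        rcases h with h | h <;> exact absurd h (by decide)
      have e2 : tpTR 3 (2 - 4 * a) = a := by simp only [tpTR]; ring
      rw [e2] at e1
      rw [inv_of_top ht' e1, hz (r := (2 - 4 * a - D.lo) / (D.hi - D.lo)) (div_nonneg (by linarith [ht.1]) d1.le)
        ((div_le_one d1).2 (by linarith [ht.2])) (by rw [hd]; exact fst _ ht), hs]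
      field_simp; ring
    · have hs := sig_right g ha ha'
      rw [eq] at ha ha' hs
      rw [ew'] at ha hs
      have ht : (4 * a - 3) ∈ Icc D.lo' D.hi' := ⟨by linarith, by linarith⟩
      have ht' : (4 * a - 3) ∈ Icc (0:ℝ) 1 := ⟨by linarith [ht.1], by linarith [ht.2]⟩
      have e1 := hTR.top 1 (4 * a - 3) ht' fun _ => by linarith [ht.2]
      have e2 : tpTR 1 (4 * a - 3) = a := by simp only [tpTR]; ring
      rw [e2] at e1
      rw [inv_of_top ht' e1, hz (r := (4 * a - 3 - D.lo') / (D.hi' - D.lo')) (div_nonneg (by linarith [ht.1]) d2.le)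
        ((div_le_one d2).2 (by linarith [ht.2])) (by rw [hd]; exact snd _ ht), hs]
      field_simp; ring

section charts

variable {m K K' : ℝ} {κ κ' : ConHomeo Rct Rct} (hBL : ChartBL m K κ) (hTR : ChartTR m K' κ')
  (m0 : 0 < m) (m1 : m < 1 / 4)

include hBL hTR m0 m1

/-- the change from `BL` to `TR`, left half -/
theorem chg_left {a : ℝ} (h1 : m / 4 ≤ a) (h2 : a ≤ 1 / 2 - m / 4) :
    κ'.toFun (κ.invFun (a, 1)) = (a + 1 / 2, 1) := by
  have h := rho_right hBL hTR m0 m1 (a := a + 1 / 2) (by linarith) (by linarith)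
  have h3 : κ.toFun (κ'.invFun (a + 1 / 2, 1)) = (a, 1) := by
    have e : a + 1 / 2 - 1 / 2 = a := by ring
    rw [e] at h; exact h
  have hm : ((a + 1 / 2, 1) : ℝ × ℝ) ∈ Rct := (top_bR (by linarith) (by linarith)).1
  rw [← h3, κ.left_inv (κ'.mapsTo_inv hm), κ'.right_inv hm]

/-- the change from `BL` to `TR`, right half -/
theorem chg_right {a : ℝ} (h1 : 1 / 2 + m / 4 ≤ a) (h2 : a ≤ 1 - m / 4) :
    κ'.toFun (κ.invFun (a, 1)) = (a - 1 / 2, 1) := by
  have h := rho_left hBL hTR m0 m1 (a := a - 1 / 2) (by linarith) (by linarith)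
  have h3 : κ.toFun (κ'.invFun (a - 1 / 2, 1)) = (a, 1) := by
    have e : a - 1 / 2 + 1 / 2 = a := by ring
    rw [e] at h; exact h
  have hm : ((a - 1 / 2, 1) : ℝ × ℝ) ∈ Rct := (top_bR (by linarith) (by linarith)).1
  rw [← h3, κ.left_inv (κ'.mapsTo_inv hm), κ'.right_inv hm]

/-- **boundary values after the flip** -/
theorem flip_sig {A A' : ArcD} (F : FlipD m A A') (g : A.Good) (g' : A'.Good)
    {f : ℝ → ℝ → ℝ} (hf : ∀ a, (a ∈ Icc A'.p (A'.p + A'.w) ∨ a ∈ Icc (A'.q - A'.w') A'.q) →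
      f a 1 = A'.sig a) {a : ℝ} (ha : a ∈ Icc A.p (A.p + A.w) ∨ a ∈ Icc (A.q - A.w') A.q) :
    1 - f (κ'.toFun (κ.invFun (a, 1))).1 (κ'.toFun (κ.invFun (a, 1))).2 = A.sig a := by
  obtain ⟨fp, fq, fw, fw', lo, lo', hi, hi'⟩ := F
  have w0 := g.w0; have w0' := g.w0'
  rcases ha with ⟨ha, ha'⟩ | ⟨ha, ha'⟩
  · rw [chg_left hBL hTR m0 m1 (by linarith) (by linarith), sig_left g ha ha']
    show 1 - f (a + 1 / 2) 1 = _
    have h1 : A'.q - A'.w' ≤ a + 1 / 2 := by rw [fq, fw']; linarith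
    have h2 : a + 1 / 2 ≤ A'.q := by rw [fq]; linarith
    rw [hf _ (Or.inr ⟨h1, h2⟩), sig_right g' h1 h2, fq, fw']
    field_simp; ring
  · rw [chg_right hBL hTR m0 m1 (by linarith) (by linarith), sig_right g ha ha']
    show 1 - f (a - 1 / 2) 1 = _
    have h1 : A'.p ≤ a - 1 / 2 := by rw [fp]; linarith
    have h2 : a - 1 / 2 ≤ A'.p + A'.w := by rw [fp, fw]; linarith
    rw [hf _ (Or.inl ⟨h1, h2⟩), sig_left g' h1 h2, fp, fw]
    field_simp; ring

end charts

end P073.H237
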