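import Vale.Agent.P073.H237.SharpC2

/-!
# P073, H237, SHARP-CORE, part 3: the drawing
-/

set_option linter.unusedSectionVars false

open Set Metric Topology Filter

namespace P073.H237

open P073.H31

/-- all data of the core -/
structure Cor (X : Ends) (m c om b s K : ℝ) (κ κ' S : ConHomeo Rct Rct) (σ τ : Equiv.Perm ℕ)
    (k0 k1 : ℕ) : Prop where
  m0 : 0 < m
  m1 : m < 1 / 4
  c0 : 0 < c
  c1 : c < 1 / 4
  b0 : 0 < b
  om0 : 0 < om
  s0 : 0 < s
  s1 : s ≤ 1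
  oms : 2 * om < s
  K1 : 1 ≤ K
  bl : ChartBL m K κ
  tr : ChartTR m K κ'
  ord : X.Ord m c om σ τ k0 k1
  lay : ((X.n - k0 : ℕ) : ℝ) * (2 * om) ≤ s / 2
  num : ∀ d, 0 < (X.th d).card ∧ |om * (X.th d).card - 1| ≤ b ∧ om ≤ 4 * X.wd m d
  thr : ∀ j < X.n, X.thr j → (X.thrD m j).arc om = flipA (X.arc om j) ∧
    (X.thrD m j).hi' ≤ 1 - m ∧ m ≤ X.Yp m j ∧ X.Yp m j + X.wd m (X.typ j) ≤ 1 - m
  sep : ∀ i < X.n, ∀ j < X.n, X.thr i → X.thr j → i ≠ j → X.typ i = X.typ j →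
    X.Yp m i + X.wd m (X.typ i) < X.Yp m j ∨ X.Yp m j + X.wd m (X.typ i) < X.Yp m i
  SE : EdgeId S
  Sid : ∀ x ∈ Rct, b ≤ x.1 → x.1 ≤ 1 - b → b ≤ x.2 → x.2 ≤ 1 - b → S.toFun x = x
  Sl : ∀ x ∈ Rct, ∀ y ∈ Rct, dist (S.toFun x) (S.toFun y) ≤ 16 / c * dist x y
  fits : ∀ j < X.n, X.thr j → (X.thrD m j).Fits (X.wd m (X.typ j)) S

section defs

variable (X : Ends) (m om s : ℝ) (κ κ' S : ConHomeo Rct Rct) (σ τ : Equiv.Perm ℕ) (k0 k1 : ℕ)

/-- the arcs in the chart `TR` -/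
noncomputable def aT (i : ℕ) : ArcD := flipA (X.arc om (σ (τ i)))

/-- the arcs in the chart `BL` -/
noncomputable def aB (i : ℕ) : ArcD := X.arc om (σ i)

/-- the base drawing in the chart `TR` -/
noncomputable def zT (i : ℕ) (a t : ℝ) : ℝ :=
  if i < k0 then (X.thrD m (σ (τ i))).z (X.wd m (X.typ (σ (τ i)))) (S.toFun (κ'.invFun (a, t)))
  else 0

/-- the drawing in the chart `TR` -/
noncomputable def gT : ℕ → ℝ → ℝ → ℝ :=
  mds s (fun _ => om) (aT X om σ τ) k0 (zT X m κ' S σ τ k0) (k1 - k0)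

/-- the base drawing in the chart `BL` -/
noncomputable def zB (j : ℕ) (a t : ℝ) : ℝ :=
  if j < k1 then 1 - gT X m om s κ' S σ τ k0 k1 (τ.symm j) (κ'.toFun (κ.invFun (a, t))).1
    (κ'.toFun (κ.invFun (a, t))).2 else 0

/-- the drawing in the chart `BL`, with the order `σ` -/
noncomputable def gB : ℕ → ℝ → ℝ → ℝ :=
  mds s (fun _ => om) (aB X om σ) k1 (zB X m om s κ κ' S σ τ k0 k1) (X.n - k1)

/-- the drawing in the chart `BL` -/
noncomputable def zF (j : ℕ) (a t : ℝ) : ℝ :=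
  if j < X.n then gB X m om s κ κ' S σ τ k0 k1 (σ.symm j) a t else 0

end defs

namespace Cor

variable {X : Ends} {m c om b s K : ℝ} {κ κ' S : ConHomeo Rct Rct} {σ τ : Equiv.Perm ℕ}
  {k0 k1 : ℕ} (H : Cor X m c om b s K κ κ' S σ τ k0 k1)

include H

theorem wd_pos (d : Bool) : 0 < X.wd m d := by
  have h1 : (0:ℝ) < (X.th d).card := by exact_mod_cast (H.num d).1
  have := H.m1
  have := H.m0
  exact div_pos (mul_pos (by linarith) (by linarith)) h1

theorem k0n : k0 ≤ X.n := H.ord.le.trans H.ord.le'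

theorem idx1 {i : ℕ} (hi : i < k1) : σ (τ i) < X.n :=
  (H.ord.σn _).2 (lt_of_lt_of_le ((H.ord.τn _).2 hi) H.ord.le')

theorem idx {i : ℕ} (hi : i < k0) : σ (τ i) < X.n ∧ X.thr (σ (τ i)) :=
  ⟨H.idx1 (hi.trans_le H.ord.le), (H.ord.cls' i (hi.trans_le H.ord.le)).1 hi⟩

theorem e_arc {i : ℕ} (hi : i < k0) : (X.thrD m (σ (τ i))).arc om = aT X om σ τ i :=
  (H.thr _ (H.idx hi).1 (H.idx hi).2).1

theorem posT : Pos k1 (aT X om σ τ) := H.ord.pos'

theorem posB : Pos X.n (aB X om σ) := H.ord.pos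

/-! ### base in the chart `TR` -/

theorem drawT0 {E : Type*} [NormedAddCommGroup E] [NormedSpace ℝ E] (hB : SpecBase E) :
    Draw E X.n k0 (aT X om σ τ) (zT X m κ' S σ τ k0) := by
  intro C B col fn γ hP
  have hpos : Pos k0 fun i => (X.thrD m (σ (τ i))).arc om :=
    Pos.congr (Pos.mono' H.posT H.ord.le) fun i hi => (H.e_arc hi).symm
  have hP' : Pat k0 (fun i => (X.thrD m (σ (τ i))).arc om) col C B fn γ :=
    Pat.congr hP fun i hi => (H.e_arc hi).symm
  exact hB m K κ' H.m0 H.tr S H.SE k0 X.n (fun i => X.thrD m (σ (τ i))) (fun _ => om) (X.wd m)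
    H.k0n (fun d => H.wd_pos d) (fun _ _ => H.om0) (fun i hi => H.fits _ (H.idx hi).1 (H.idx hi).2)
    (fun i hi => (H.thr _ (H.idx hi).1 (H.idx hi).2).2.1)
    (fun i hi j hj hij hd => by
      have hne : σ (τ i) ≠ σ (τ j) := fun h => hij (τ.injective (σ.injective h))
      have hd' : X.typ (σ (τ i)) = X.typ (σ (τ j)) := hd
      have := H.sep _ (H.idx hi).1 _ (H.idx hj).1 (H.idx hi).2 (H.idx hj).2 hne hd'
      show X.Yp m _ + X.wd m (X.typ (σ (τ i))) < X.Yp m _ ∨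
        X.Yp m _ + X.wd m (X.typ (σ (τ j))) < X.Yp m _
      rwa [← hd'])
    hpos C B col fn γ hP'

theorem isE_T0 : IsE k0 (aT X om σ τ) (zT X m κ' S σ τ k0) where
  zero i hi a t := if_neg (not_lt.2 hi)
  top i hi a ha := by
    have e := H.e_arc hi
    have g := H.posT.good i (hi.trans_le H.ord.le)
    show (if i < k0 then _ else 0) = _
    rw [if_pos hi]
    rw [← e] at ha g ⊢
    exact base_sig H.tr _ (H.wd_pos _) (H.fits _ (H.idx hi).1 (H.idx hi).2)
      (H.thr _ (H.idx hi).1 (H.idx hi).2).2.1 g ha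

theorem crd_le (d : Bool) (u v : ℝ × ℝ) : |crd d u - crd d v| ≤ dist u v := by
  cases d
  · exact dist_fst_le u v
  · exact dist_snd_le u v

/-- the sum over the through arcs of one type -/
theorem sum_thr (d : Bool) (t : Finset ℕ) (ht : ∀ j ∈ t, j < X.n ∧ X.thr j ∧ X.typ j = d)
    (u v : ℝ × ℝ) : ∑ j ∈ t, om * |cl1 ((crd (X.typ j) u - X.Yp m j) / X.wd m (X.typ j)) -
      cl1 ((crd (X.typ j) v - X.Yp m j) / X.wd m (X.typ j))| ≤
      om / X.wd m d * |crd d u - crd d v| := by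
  refine le_trans (le_of_eq (Finset.sum_congr rfl fun j hj => ?_))
    (sum_clip (s := t) (Y := fun j => X.Yp m j) (H.wd_pos d) H.om0.le (fun i hi j hj hij => ?_)
      (crd d u) (crd d v))
  · rw [(ht j hj).2.2]
  · have := H.sep i (ht i hi).1 j (ht j hj).1 (ht i hi).2.1 (ht j hj).2.1 hij
      ((ht i hi).2.2.trans (ht j hj).2.2.symm)
    rwa [(ht i hi).2.2] at this

theorem om_wd (d : Bool) : om / X.wd m d ≤ 4 := by
  rw [div_le_iff₀ (H.wd_pos d)]; exact (H.num d).2.2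

theorem flip_T0 : FLip k0 om (zT X m κ' S σ τ k0) (128 * K / c) := by
  intro x hx y hy
  set u := S.toFun (κ'.invFun x) with hu
  set v := S.toFun (κ'.invFun y) with hv
  have hux : κ'.invFun x ∈ Rct := κ'.mapsTo_inv hx
  have huy : κ'.invFun y ∈ Rct := κ'.mapsTo_inv hy
  have hd : dist u v ≤ 16 / c * (K * dist x y) := (H.Sl _ hux _ huy).trans
    (mul_le_mul_of_nonneg_left (H.tr.lip' x hx y hy) (div_nonneg (by norm_num) H.c0.le))
  have e1 : ∀ i ∈ Finset.range k0, om * |zT X m κ' S σ τ k0 i x.1 x.2 - zT X m κ' S σ τ k0 i y.1 y.2| =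
      om * |cl1 ((crd (X.typ (σ (τ i))) u - X.Yp m (σ (τ i))) / X.wd m (X.typ (σ (τ i)))) -
        cl1 ((crd (X.typ (σ (τ i))) v - X.Yp m (σ (τ i))) / X.wd m (X.typ (σ (τ i))))| := by
    intro i hi
    have hi := Finset.mem_range.1 hi
    unfold zT
    rw [if_pos hi, if_pos hi]
    show om * |(1 - cl1 ((crd (X.typ (σ (τ i))) u - X.Yp m (σ (τ i))) /
      X.wd m (X.typ (σ (τ i))))) - (1 - cl1 ((crd (X.typ (σ (τ i))) v - X.Yp m (σ (τ i))) /
      X.wd m (X.typ (σ (τ i)))))| = _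
    rw [sub_sub_sub_cancel_left, abs_sub_comm]
  rw [Finset.sum_congr rfl e1]
  have inj : Set.InjOn (fun i => σ (τ i)) (Finset.range k0 : Set ℕ) :=
    fun i _ j _ h => τ.injective (σ.injective h)
  rw [← Finset.sum_image (f := fun j => om * |cl1 ((crd (X.typ j) u - X.Yp m j) / X.wd m (X.typ j)) -
      cl1 ((crd (X.typ j) v - X.Yp m j) / X.wd m (X.typ j))|) inj]
  have hmem : ∀ j ∈ (Finset.range k0).image (fun i => σ (τ i)), j < X.n ∧ X.thr j := by
    intro j hj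
    obtain ⟨i, hi, rfl⟩ := Finset.mem_image.1 hj
    exact H.idx (Finset.mem_range.1 hi)
  rw [← Finset.sum_filter_add_sum_filter_not _ (fun j => X.typ j = true)]
  have s1 := H.sum_thr true (((Finset.range k0).image (fun i => σ (τ i))).filter
    fun j => X.typ j = true) (fun j hj => by
      rw [Finset.mem_filter] at hj
      exact ⟨(hmem j hj.1).1, (hmem j hj.1).2, hj.2⟩) u v
  have s2 := H.sum_thr false (((Finset.range k0).image (fun i => σ (τ i))).filter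
    fun j => ¬ X.typ j = true) (fun j hj => by
      rw [Finset.mem_filter] at hj
      exact ⟨(hmem j hj.1).1, (hmem j hj.1).2, by simpa using hj.2⟩) u v
  refine (add_le_add s1 s2).trans ?_
  have k1 : om / X.wd m true * |crd true u - crd true v| ≤ 4 * dist u v :=
    mul_le_mul (H.om_wd _) (crd_le H _ _ _) (abs_nonneg _) (by norm_num)
  have k2 : om / X.wd m false * |crd false u - crd false v| ≤ 4 * dist u v :=
    mul_le_mul (H.om_wd _) (crd_le H _ _ _) (abs_nonneg _) (by norm_num)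
  have e3 : 128 * K / c * dist x y = 8 * (16 / c * (K * dist x y)) := by ring
  rw [e3]
  linarith

theorem C0 : 1 ≤ 128 * K / c := by
  rw [le_div_iff₀ H.c0]
  have := H.K1; have := H.c1
  linarith

theorem cast_le {i j : ℕ} (h : i ≤ j) (hj : (j : ℝ) * (2 * om) ≤ s / 2) :
    (i : ℝ) * (2 * om) ≤ s / 2 := by
  have h1 : (i : ℝ) ≤ j := by exact_mod_cast h
  have := H.om0
  nlinarith

theorem layT : ((k1 - k0 : ℕ) : ℝ) * (2 * om) ≤ s / 2 :=
  H.cast_le (Nat.sub_le_sub_right H.ord.le' _) H.lay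

theorem layB : ((X.n - k1 : ℕ) : ℝ) * (2 * om) ≤ s / 2 :=
  H.cast_le (Nat.sub_le_sub_left H.ord.le _) H.lay

theorem LayT : Lay s 1 (128 * K / c) (128 * K / c) (fun _ => om) (aT X om σ τ) k0 (k1 - k0)
    (zT X m κ' S σ τ k0) :=
  H.flip_T0.lay H.C0 H.s0 H.s1 H.om0 (fun _ _ => rfl) H.layT

theorem ek1 : k0 + (k1 - k0) = k1 := Nat.add_sub_cancel' H.ord.le

theorem ek2 : k1 + (X.n - k1) = X.n := Nat.add_sub_cancel' H.ord.le'

theorem flip_T : FLip k1 om (gT X m om s κ' S σ τ k0 k1) (nxt (16 / c) (128 * K / c)) := by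
  have h := H.flip_T0.layers (Λ := 16 / c) (A := aT X om σ τ) (m := k1 - k0) H.C0 H.s0 H.s1 H.om0
    (fun _ _ => rfl) H.layT (div_nonneg (by norm_num) H.c0.le)
    (fun i hi => H.posT.good i (by have := H.ek1; omega))
    (fun i hi => ?_) (fun i hi j hj hij => ?_)
  · rwa [H.ek1] at h
  · have := H.ord.wid _ (H.idx1 (i := i) (by have := H.ek1; omega))
    exact ⟨this.2, this.1⟩
  · exact H.ord.dj' _ (H.idx1 (i := i) (by have := H.ek1; omega)) _
      (H.idx1 (i := j) (by have := H.ek1; omega)) fun h => hij (τ.injective (σ.injective h))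

theorem drawT {E : Type*} [NormedAddCommGroup E] [NormedSpace ℝ E] (hB : SpecBase E) :
    Draw E X.n k1 (aT X om σ τ) (gT X m om s κ' S σ τ k0 k1) := by
  have h := layersE (h := fun _ => om) H.isE_T0 H.s0 H.s1 (H.drawT0 hB) (k1 - k0)
    (by have := H.ek1; have := H.ord.le'; omega) (fun _ _ => ⟨H.om0, H.oms⟩)
  rwa [H.ek1] at h

theorem isE_T : IsE k1 (aT X om σ τ) (gT X m om s κ' S σ τ k0 k1) := by
  have h := mds_isE (h := fun _ => om) H.isE_T0 H.s0 (k1 - k0) (fun _ _ => ⟨H.om0, H.oms⟩)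
  rwa [H.ek1] at h

/-! ### the chart `BL` -/

theorem flipD {i : ℕ} (hi : i < k1) : FlipD m (aB X om σ (τ i)) (aT X om σ τ i) := by
  obtain ⟨h1, h2, h3, h4⟩ := H.ord.mg (τ i) ((H.ord.τn i).2 hi)
  exact ⟨rfl, rfl, rfl, rfl, h1, h2, h3, h4⟩

theorem drawB0 {E : Type*} [NormedAddCommGroup E] [NormedSpace ℝ E] (hB : SpecBase E) :
    Draw E X.n k1 (aB X om σ) (zB X m om s κ κ' S σ τ k0 k1) := by
  intro C B col fn γ hP
  obtain ⟨Φ, h1, h2⟩ := rebase (E := E) H.bl H.tr H.m0 H.m1 H.ord.le' H.ord.τn H.posT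
    (fun i hi => H.flipD hi) (z := fun i x => gT X m om s κ' S σ τ k0 k1 i x.1 x.2)
    (fun col fn C B γ hP => H.drawT hB C B col fn γ hP) col fn C B γ hP
  exact ⟨Φ, h1, h2⟩

theorem isE_B0 : IsE k1 (aB X om σ) (zB X m om s κ κ' S σ τ k0 k1) where
  zero i hi a t := if_neg (not_lt.2 hi)
  top i hi a ha := by
    have hi' : τ.symm i < k1 := (H.ord.τn _).1 (by rwa [τ.apply_symm_apply])
    have F := H.flipD hi'
    rw [τ.apply_symm_apply] at F
    show (if i < k1 then _ else 0) = _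
    rw [if_pos hi]
    exact flip_sig H.bl H.tr H.m0 H.m1 F (H.posB.good i (hi.trans_le H.ord.le'))
      (H.posT.good _ hi') (H.isE_T.top _ hi') ha

theorem flip_B0 : FLip k1 om (zB X m om s κ κ' S σ τ k0 k1)
    (nxt (16 / c) (128 * K / c) * (K * K)) := by
  have h0 := H.flip_T
  have hC : 1 ≤ nxt (16 / c) (128 * K / c) :=
    H.C0.trans (le_nxt (div_nonneg (by norm_num) H.c0.le) H.C0)
  have h1 := h0.comp (K := K * K) (by linarith) (g := fun x => κ'.toFun (κ.invFun x))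
    (fun x hx => κ'.mapsTo (κ.mapsTo_inv hx)) (fun x hx y hy => by
      refine (H.tr.lip _ (κ.mapsTo_inv hx) _ (κ.mapsTo_inv hy)).trans ?_
      rw [mul_assoc]
      exact mul_le_mul_of_nonneg_left (H.bl.lip' x hx y hy) (by linarith [H.K1]))
  exact h1.refl.perm H.ord.τn

theorem C1 : 1 ≤ nxt (16 / c) (128 * K / c) * (K * K) := by
  have hC : 1 ≤ nxt (16 / c) (128 * K / c) :=
    H.C0.trans (le_nxt (div_nonneg (by norm_num) H.c0.le) H.C0)
  have hK : 1 ≤ K * K := by nlinarith [H.K1]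
  nlinarith

theorem LayB : Lay s 1 (nxt (16 / c) (128 * K / c) * (K * K)) (nxt (16 / c) (128 * K / c) * (K * K))
    (fun _ => om) (aB X om σ) k1 (X.n - k1) (zB X m om s κ κ' S σ τ k0 k1) :=
  H.flip_B0.lay H.C1 H.s0 H.s1 H.om0 (fun _ _ => rfl) H.layB

theorem flip_B : FLip X.n om (gB X m om s κ κ' S σ τ k0 k1)
    (nxt (16 / c) (nxt (16 / c) (128 * K / c) * (K * K))) := by
  have h := H.flip_B0.layers (Λ := 16 / c) (A := aB X om σ) (m := X.n - k1) H.C1 H.s0 H.s1 H.om0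
    (fun _ _ => rfl) H.layB (div_nonneg (by norm_num) H.c0.le)
    (fun i hi => H.posB.good i (by have := H.ek2; omega))
    (fun i hi => ?_) (fun i hi j hj hij => ?_)
  · rwa [H.ek2] at h
  · exact H.ord.wid _ ((H.ord.σn i).2 (by have := H.ek2; omega))
  · exact H.ord.dj _ ((H.ord.σn i).2 (by have := H.ek2; omega)) _
      ((H.ord.σn j).2 (by have := H.ek2; omega)) fun h => hij (σ.injective h)

theorem drawB {E : Type*} [NormedAddCommGroup E] [NormedSpace ℝ E] (hB : SpecBase E) :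
    Draw E X.n X.n (aB X om σ) (gB X m om s κ κ' S σ τ k0 k1) := by
  have h := layersE (h := fun _ => om) H.isE_B0 H.s0 H.s1 (H.drawB0 hB) (X.n - k1)
    (by have := H.ek2; omega) (fun _ _ => ⟨H.om0, H.oms⟩)
  rwa [H.ek2] at h

theorem isE_B : IsE X.n (aB X om σ) (gB X m om s κ κ' S σ τ k0 k1) := by
  have h := mds_isE (h := fun _ => om) H.isE_B0 H.s0 (X.n - k1) (fun _ _ => ⟨H.om0, H.oms⟩)
  rwa [H.ek2] at h

/-! ### the given order -/

theorem draw {E : Type*} [NormedAddCommGroup E] [NormedSpace ℝ E] (hB : SpecBase E) :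
    Draw E X.n X.n (X.arc om) (zF X m om s κ κ' S σ τ k0 k1) :=
  Draw.perm le_rfl H.ord.σn H.posB (H.drawB hB)

theorem isE : IsE X.n (X.arc om) (zF X m om s κ κ' S σ τ k0 k1) where
  zero i hi a t := if_neg (not_lt.2 hi)
  top i hi a ha := by
    have hi' : σ.symm i < X.n := (H.ord.σn _).1 (by rwa [σ.apply_symm_apply])
    show (if i < X.n then _ else 0) = _
    rw [if_pos hi]
    have := H.isE_B.top _ hi' a
    unfold aB at this
    rw [σ.apply_symm_apply] at this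
    exact this ha

theorem flip : FLip X.n om (zF X m om s κ κ' S σ τ k0 k1)
    (nxt (16 / c) (nxt (16 / c) (128 * K / c) * (K * K))) :=
  H.flip_B.perm H.ord.σn

/-- **the values on the good set** -/
theorem good_eq {y : ℝ × ℝ} (hy : y ∈ Rct) (h1 : b ≤ y.1) (h2 : y.1 ≤ 1 - b) (h3 : b ≤ y.2)
    (h4 : y.2 ≤ 1 - b) (h5 : (κ.toFun y).2 ≤ 1 - s) (h6 : (κ'.toFun y).2 ≤ 1 - s) {j : ℕ}
    (hj : j < X.n) [Decidable (X.thr j)] [Decidable (X.cor j)] :
    zF X m om s κ κ' S σ τ k0 k1 j (κ.toFun y).1 (κ.toFun y).2 =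
      if X.thr j then cl1 ((crd (X.typ j) y - X.Yp m j) / X.wd m (X.typ j))
      else if X.cor j then 1 else 0 := by
  have hi' : σ.symm j < X.n := (H.ord.σn _).1 (by rwa [σ.apply_symm_apply])
  have hcls := H.ord.cls _ hi'
  rw [σ.apply_symm_apply] at hcls
  set i := σ.symm j with hi
  have ej : σ i = j := σ.apply_symm_apply j
  have z0 : zF X m om s κ κ' S σ τ k0 k1 j (κ.toFun y).1 (κ.toFun y).2 =
      gB X m om s κ κ' S σ τ k0 k1 i (κ.toFun y).1 (κ.toFun y).2 := if_pos hj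
  rw [z0]
  by_cases hk : i < k1
  · have e1 : gB X m om s κ κ' S σ τ k0 k1 i (κ.toFun y).1 (κ.toFun y).2 =
        zB X m om s κ κ' S σ τ k0 k1 i (κ.toFun y).1 (κ.toFun y).2 := H.LayB.eq_base h5 hk
    have e2 : zB X m om s κ κ' S σ τ k0 k1 i (κ.toFun y).1 (κ.toFun y).2 =
        1 - gT X m om s κ' S σ τ k0 k1 (τ.symm i) (κ'.toFun y).1 (κ'.toFun y).2 := by
      unfold zB
      rw [if_pos hk]
      show 1 - gT X m om s κ' S σ τ k0 k1 (τ.symm i) (κ'.toFun (κ.invFun (κ.toFun y))).1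
        (κ'.toFun (κ.invFun (κ.toFun y))).2 = _
      rw [κ.left_inv hy]
    rw [e1, e2]
    have hl : τ.symm i < k1 := (H.ord.τn _).1 (by rwa [τ.apply_symm_apply])
    have hcls' := H.ord.cls' _ hl
    rw [τ.apply_symm_apply, ej] at hcls'
    by_cases hk' : τ.symm i < k0
    · have e3 : gT X m om s κ' S σ τ k0 k1 (τ.symm i) (κ'.toFun y).1 (κ'.toFun y).2 =
          zT X m κ' S σ τ k0 (τ.symm i) (κ'.toFun y).1 (κ'.toFun y).2 := H.LayT.eq_base h6 hk'
      rw [e3, if_pos (hcls'.1 hk')]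
      unfold zT
      rw [if_pos hk', τ.apply_symm_apply, ej]
      show 1 - (X.thrD m j).z (X.wd m (X.typ j)) (S.toFun (κ'.invFun (κ'.toFun y))) = _
      rw [κ'.left_inv hy, H.Sid y hy h1 h2 h3 h4]
      show 1 - (1 - cl1 ((crd (X.typ j) y - X.Yp m j) / X.wd m (X.typ j))) = _
      ring
    · have e3 : gT X m om s κ' S σ τ k0 k1 (τ.symm i) (κ'.toFun y).1 (κ'.toFun y).2 = 0 :=
        H.LayT.eq_zero H.isE_T0.zero h6 (not_lt.1 hk')
      have hn : ¬ X.thr j := fun h => hk' (hcls'.2 h)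
      have hc : X.cor j := (hcls.1 hk).resolve_left hn
      rw [e3, if_neg hn, if_pos hc, sub_zero]
  · have e1 : gB X m om s κ κ' S σ τ k0 k1 i (κ.toFun y).1 (κ.toFun y).2 = 0 :=
        H.LayB.eq_zero H.isE_B0.zero h5 (not_lt.1 hk)
    have hn : ¬ X.thr j := fun h => hk (hcls.2 (Or.inl h))
    have hc : ¬ X.cor j := fun h => hk (hcls.2 (Or.inr h))
    rw [e1, if_neg hn, if_neg hc]

end Cor

end P073.H237
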