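import Vale.Agent.P073.H237.SharpC3

/-!
# P073, H237, SHARP-CORE, part 4: the sharp estimate on the good set, volume of the bad set
-/

set_option linter.unusedSectionVars false

open Set Metric Topology Filter MeasureTheory

namespace P073.H237

open P073.H31

/-- the good set -/
def Gd (b : ℝ) : Set (ℝ × ℝ) := {x | b < x.1 ∧ x.1 < 1 - b ∧ b < x.2 ∧ x.2 < 1 - b}

theorem isOpen_Gd (b : ℝ) : IsOpen (Gd b) :=
  (isOpen_lt continuous_const continuous_fst).inter
    ((isOpen_lt continuous_fst continuous_const).inter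
      ((isOpen_lt continuous_const continuous_snd).inter
        (isOpen_lt continuous_snd continuous_const)))

/-- points of the good set are far from the boundary -/
theorem far_of_Gd {b : ℝ} {x y : ℝ × ℝ} (hx : x ∈ Gd b) (hy : y ∈ bR) : b < dist x y := by
  obtain ⟨h1, h2, h3, h4⟩ := hx
  have d1 := dist_fst_le x y
  have d2 := dist_snd_le x y
  rcases hy.2 with h | h | h | h
  · rw [h] at d1
    have := le_abs_self (x.1 - 0)
    linarith
  · rw [h] at d1
    have := neg_abs_le (x.1 - 1)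
    linarith
  · rw [h] at d2
    have := le_abs_self (x.2 - 0)
    linarith
  · rw [h] at d2
    have := neg_abs_le (x.2 - 1)
    linarith

/-- the good set is mapped below the layers -/
theorem below {K b s : ℝ} {κ : ConHomeo Rct Rct} (bd : κ.toFun '' bR = bR)
    (lip' : ∀ x ∈ Rct, ∀ y ∈ Rct, dist (κ.invFun x) (κ.invFun y) ≤ K * dist x y) (hK : 0 < K)
    (hs : K * s ≤ b) {x : ℝ × ℝ} (hx : x ∈ Rct) (hG : x ∈ Gd b) : (κ.toFun x).2 ≤ 1 - s := by
  by_contra hc
  rw [not_le] at hc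
  set p := κ.toFun x with hp
  have hpR : p ∈ Rct := κ.mapsTo hx
  have hq : ((p.1, 1) : ℝ × ℝ) ∈ bR := top_bR hpR.1.1 hpR.1.2
  have hq' := hq
  rw [← bd] at hq'
  obtain ⟨y, hy, hyq⟩ := hq'
  have e : κ.invFun (p.1, 1) = y := by rw [← hyq, κ.left_inv (bR_sub_Rct hy)]
  have h1 := lip' p hpR (p.1, 1) hq.1
  rw [e, hp, κ.left_inv hx, ← hp] at h1
  have h2 : dist p (p.1, 1) = 1 - p.2 := by
    rw [Prod.dist_eq]
    simp only
    rw [dist_self, Real.dist_eq, abs_of_nonpos (by linarith [hpR.2.2]), max_eq_right]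
    · ring
    · linarith [hpR.2.2]
  rw [h2] at h1
  have h3 := far_of_Gd hG hy
  have h4 : K * (1 - p.2) < K * s := mul_lt_mul_of_pos_left (by linarith) hK
  linarith

theorem measurable_bad (b : ℝ) : MeasurableSet (Rct \ Gd b) :=
  (isCompact_Rct.isClosed.measurableSet).diff (isOpen_Gd b).measurableSet

theorem vol_bad {b β : ℝ} (hβ : 4 * b ≤ β) (hb : 0 < b) :
    volume (Rct \ Gd b) ≤ ENNReal.ofReal β := by
  have hsub : Rct \ Gd b ⊆ ((Icc 0 b ×ˢ Icc 0 1) ∪ (Icc (1 - b) 1 ×ˢ Icc 0 1)) ∪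
      ((Icc 0 1 ×ˢ Icc 0 b) ∪ (Icc 0 1 ×ˢ Icc (1 - b) 1) : Set (ℝ × ℝ)) := by
    rintro ⟨u, v⟩ ⟨⟨hu, hv⟩, hn⟩
    simp only at hu hv
    by_contra hc
    apply hn
    simp only [mem_union, mem_prod, mem_Icc, not_or, not_and, not_le] at hc
    obtain ⟨⟨c1, c2⟩, c3, c4⟩ := hc
    refine ⟨?_, ?_, ?_, ?_⟩
    · by_contra h
      simp only [not_lt] at h
      have := c1 ⟨hu.1, h⟩ hv.1
      linarith [hv.2]
    · by_contra h
      simp only [not_lt] at h
      have := c2 ⟨h, hu.2⟩ hv.1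
      linarith [hv.2]
    · by_contra h
      simp only [not_lt] at h
      have := c3 ⟨hu.1, hu.2⟩ hv.1
      linarith
    · by_contra h
      simp only [not_lt] at h
      have := c4 ⟨hu.1, hu.2⟩ h
      linarith [hv.2]
  have v1 : ∀ x y z w : ℝ, volume (Icc x y ×ˢ Icc z w : Set (ℝ × ℝ)) =
      ENNReal.ofReal (y - x) * ENNReal.ofReal (w - z) := fun x y z w => by
    rw [Measure.volume_eq_prod, Measure.prod_prod, Real.volume_Icc, Real.volume_Icc]
  refine (measure_mono hsub).trans ((measure_union_le _ _).trans ?_)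
  refine (add_le_add (measure_union_le _ _) (measure_union_le _ _)).trans ?_
  rw [v1, v1, v1, v1]
  have e1 : (1:ℝ) - 0 = 1 := by ring
  have e2 : b - 0 = b := by ring
  have e3 : 1 - (1 - b) = b := by ring
  rw [e1, e2, e3, ENNReal.ofReal_one, mul_one, one_mul, ← ENNReal.ofReal_add hb.le hb.le,
    ← ENNReal.ofReal_add (by linarith) (by linarith)]
  exact ENNReal.ofReal_le_ofReal (by linarith)

namespace Cor

variable {X : Ends} {m c om b s K : ℝ} {κ κ' S : ConHomeo Rct Rct} {σ τ : Equiv.Perm ℕ}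
  {k0 k1 : ℕ} (H : Cor X m c om b s K κ κ' S σ τ k0 k1)

include H

/-- **the sharp estimate** -/
theorem sharp (hs : K * s ≤ b) {x y : ℝ × ℝ} (hx : x ∈ Rct) (hxG : x ∈ Gd b) (hy : y ∈ Rct)
    (hyG : y ∈ Gd b) (d : Bool) :
    (∑ i ∈ (Finset.range X.n).filter (fun i => X.typ i = d),
      om * |zF X m om s κ κ' S σ τ k0 k1 i (κ.toFun y).1 (κ.toFun y).2 -
        zF X m om s κ κ' S σ τ k0 k1 i (κ.toFun x).1 (κ.toFun x).2|) ≤
      om / X.wd m d * |crd d y - crd d x| := by
  classical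
  have hK : 0 < K := by linarith [H.K1]
  have ex : ∀ j < X.n, zF X m om s κ κ' S σ τ k0 k1 j (κ.toFun x).1 (κ.toFun x).2 =
      if X.thr j then cl1 ((crd (X.typ j) x - X.Yp m j) / X.wd m (X.typ j))
      else if X.cor j then 1 else 0 := fun j hj =>
    H.good_eq hx hxG.1.le hxG.2.1.le hxG.2.2.1.le hxG.2.2.2.le
      (below H.bl.bd H.bl.lip' hK hs hx hxG) (below H.tr.bd H.tr.lip' hK hs hx hxG) hj
  have ey : ∀ j < X.n, zF X m om s κ κ' S σ τ k0 k1 j (κ.toFun y).1 (κ.toFun y).2 =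
      if X.thr j then cl1 ((crd (X.typ j) y - X.Yp m j) / X.wd m (X.typ j))
      else if X.cor j then 1 else 0 := fun j hj =>
    H.good_eq hy hyG.1.le hyG.2.1.le hyG.2.2.1.le hyG.2.2.2.le
      (below H.bl.bd H.bl.lip' hK hs hy hyG) (below H.tr.bd H.tr.lip' hK hs hy hyG) hj
  have h1 := H.sum_thr d (((Finset.range X.n).filter (fun i => X.typ i = d)).filter
    fun i => X.thr i) (fun j hj => by
      rw [Finset.mem_filter, Finset.mem_filter, Finset.mem_range] at hj
      exact ⟨hj.1.1, hj.2, hj.1.2⟩) y x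
  refine le_trans (le_of_eq ?_) h1
  rw [← Finset.sum_filter_add_sum_filter_not ((Finset.range X.n).filter (fun i => X.typ i = d))
    (fun i => X.thr i)]
  have z0 : ∑ i ∈ ((Finset.range X.n).filter (fun i => X.typ i = d)).filter (fun i => ¬ X.thr i),
      om * |zF X m om s κ κ' S σ τ k0 k1 i (κ.toFun y).1 (κ.toFun y).2 -
        zF X m om s κ κ' S σ τ k0 k1 i (κ.toFun x).1 (κ.toFun x).2| = 0 := by
    refine Finset.sum_eq_zero fun i hi => ?_
    rw [Finset.mem_filter, Finset.mem_filter, Finset.mem_range] at hi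
    rw [ex i hi.1.1, ey i hi.1.1, if_neg hi.2, if_neg hi.2, sub_self, abs_zero, mul_zero]
  rw [z0, add_zero]
  refine Finset.sum_congr rfl fun i hi => ?_
  rw [Finset.mem_filter, Finset.mem_filter, Finset.mem_range] at hi
  rw [ex i hi.1.1, ey i hi.1.1, if_pos hi.2, if_pos hi.2]

/-- the Lipschitz estimate in the square -/
theorem lip {C : ℝ} (hC : nxt (16 / c) (nxt (16 / c) (128 * K / c) * (K * K)) * K ≤ C)
    {x y : ℝ × ℝ} (hx : x ∈ Rct) (hy : y ∈ Rct) (d : Bool) :
    (∑ i ∈ (Finset.range X.n).filter (fun i => X.typ i = d),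
      om * |zF X m om s κ κ' S σ τ k0 k1 i (κ.toFun y).1 (κ.toFun y).2 -
        zF X m om s κ κ' S σ τ k0 k1 i (κ.toFun x).1 (κ.toFun x).2|) ≤ C * dist y x := by
  have h0 : 0 ≤ nxt (16 / c) (nxt (16 / c) (128 * K / c) * (K * K)) := by
    have := le_nxt (div_nonneg (by norm_num : (0:ℝ) ≤ 16) H.c0.le) H.C1
    linarith [H.C1]
  have h1 := (H.flip.comp h0 (g := κ.toFun) κ.mapsTo H.bl.lip y hy x hx).trans
    (mul_le_mul_of_nonneg_right hC dist_nonneg)
  refine le_trans (Finset.sum_le_sum_of_subset_of_nonneg (Finset.filter_subset _ _) ?_) h1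
  intro i _ _
  exact mul_nonneg H.om0.le (abs_nonneg _)

/-- the constant of the sharp estimate -/
theorem om_wd_le {e : ℝ} (he : 0 < e) (hm : 3 * m * (1 + e) ≤ e / 2) (hb : b ≤ e / 2) (d : Bool) :
    om / X.wd m d ≤ 1 + e := by
  obtain ⟨n1, n2, -⟩ := H.num d
  have hN : (0:ℝ) < (X.th d).card := by exact_mod_cast n1
  have h1 := (abs_le.1 n2).2
  rw [div_le_iff₀ (H.wd_pos d), Ends.wd]
  have m0 := H.m0
  have h2 : om ≤ (1 + b) / (X.th d).card := by
    rw [le_div_iff₀ hN]; linarith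
  refine h2.trans ?_
  have h3 : (1 + e) * ((1 - 2 * m) * (1 - m) / (X.th d).card) =
      ((1 + e) * ((1 - 2 * m) * (1 - m))) / (X.th d).card := by ring
  rw [h3, div_le_div_iff_of_pos_right hN]
  nlinarith [sq_nonneg m]

end Cor

/-- the number of the layers -/
theorem count_lay {X : Ends} {m c om M ρ : ℝ} {σ τ : Equiv.Perm ℕ} {k0 k1 : ℕ}
    (h : X.Ord m c om σ τ k0 k1)
    (hc : ∀ s : Finset ℕ, (∀ i ∈ s, i < X.n ∧ ¬ X.thr i) → om * s.card ≤ M * ρ) :
    om * ((X.n - k0 : ℕ) : ℝ) ≤ M * ρ := by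
  set f : ℕ → ℕ := fun i => if i < k1 then σ (τ i) else σ i with hf
  have hinj : ∀ i j, f i = f j → i = j := by
    intro i j hij
    simp only [hf] at hij
    by_cases hi : i < k1 <;> by_cases hj : j < k1
    · rw [if_pos hi, if_pos hj] at hij
      exact τ.injective (σ.injective hij)
    · rw [if_pos hi, if_neg hj] at hij
      have := σ.injective hij
      exact absurd ((h.τn i).2 hi) (by rw [this]; exact hj)
    · rw [if_neg hi, if_pos hj] at hij
      have := σ.injective hij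
      exact absurd ((h.τn j).2 hj) (by rw [← this]; exact hi)
    · rw [if_neg hi, if_neg hj] at hij
      exact σ.injective hij
  have hcard : ((Finset.Ico k0 X.n).image f).card = X.n - k0 := by
    rw [Finset.card_image_of_injective _ (fun i j => hinj i j), Nat.card_Ico]
  rw [← hcard]
  refine hc _ fun j hj => ?_
  obtain ⟨i, hi, rfl⟩ := Finset.mem_image.1 hj
  rw [Finset.mem_Ico] at hi
  simp only [hf]
  by_cases h1 : i < k1
  · rw [if_pos h1]
    refine ⟨(h.σn _).2 (lt_of_lt_of_le ((h.τn i).2 h1) h.le'), fun h2 => ?_⟩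
    exact absurd ((h.cls' i h1).2 h2) (not_lt.2 hi.1)
  · rw [if_neg h1]
    refine ⟨(h.σn _).2 hi.2, fun h2 => h1 ((h.cls i hi.2).2 (Or.inl h2))⟩

end P073.H237
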