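import Vale.Agent.P073.H237.SharpC4
import Vale.Agent.P073.H190.ShChart
import Vale.Agent.P073.H761.Bs4
import Vale.Agent.P073.H228.Comb
import Vale.Agent.P073.H429.Ord
import Vale.Agent.P073.H31.FDefs

/-!
# P073, H237, SHARP-CORE, part 5: the result
-/

set_option linter.unusedSectionVars false

open Set Metric Topology Filter MeasureTheory

namespace P073.H237

open P073.H31 P073.FW31

theorem ChartBL.mono {m K K' : ℝ} {κ : ConHomeo Rct Rct} (h : ChartBL m K κ) (hK : K ≤ K') :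
    ChartBL m K' κ where
  bd := h.bd
  top := h.top
  lip x hx y hy := (h.lip x hx y hy).trans (mul_le_mul_of_nonneg_right hK dist_nonneg)
  lip' x hx y hy := (h.lip' x hx y hy).trans (mul_le_mul_of_nonneg_right hK dist_nonneg)

/-- **[SHARP-CORE]** -/
theorem specCore_of (hF : SpecFits) (E : Type*) [NormedAddCommGroup E] [NormedSpace ℝ E] :
    SpecCore E := by
  intro e he
  have q0 : 0 < e / (6 * (1 + e)) := by positivity
  refine ⟨min (1 / 8) (e / (6 * (1 + e))), lt_min (by norm_num) q0,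
    lt_of_le_of_lt (min_le_left _ _) (by norm_num), fun m m0 hm => ?_⟩
  have m1 : m < 1 / 4 := lt_of_le_of_lt (hm.trans (min_le_left _ _)) (by norm_num)
  have m2 : 3 * m * (1 + e) ≤ e / 2 := by
    have h1 := hm.trans (min_le_right _ _)
    rw [le_div_iff₀ (by positivity)] at h1
    linarith
  obtain ⟨K₀, -, κ, hκ₀⟩ := Vale.Agent.P073.H190.specChart m m0 m1
  set K := max K₀ 1 with hK
  have K1 : 1 ≤ K := le_max_right _ _
  have hκ : ChartBL m K κ := hκ₀.mono (le_max_left _ _)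
  have hκ' := Vale.Agent.P073.H190.chartTR_of hκ
  set κ' := Vale.Agent.P073.H190.rot.trans κ with hκ'd
  set c : ℝ := 1 / 8 with hc
  set C := max K (nxt (16 / c) (nxt (16 / c) (128 * K / c) * (K * K)) * K) with hC
  refine ⟨C, κ, lt_of_lt_of_le (by linarith) (le_max_left _ _), hκ.mono (le_max_left _ _),
    fun β hβ => ?_⟩
  set b := min (1 / 8) (min (e / 2) (β / 4)) with hb
  have b0 : 0 < b := lt_min (by norm_num) (lt_min (by linarith) (by linarith))
  have b1 : b < 1 / 4 := lt_of_le_of_lt (min_le_left _ _) (by norm_num)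
  have b2 : b ≤ e / 2 := (min_le_right _ _).trans (min_le_left _ _)
  have b3 : 4 * b ≤ β := by
    have := (min_le_right (1 / 8) (min (e / 2) (β / 4))).trans (min_le_right (e / 2) (β / 4))
    linarith
  set s := min (1 / 2) (b / K) with hs
  have s0 : 0 < s := lt_min (by norm_num) (div_pos b0 (by linarith))
  have s1 : s ≤ 1 := (min_le_left _ _).trans (by norm_num)
  have s2 : K * s ≤ b := by
    have h1 : s ≤ b / K := min_le_right _ _
    rw [le_div_iff₀ (by linarith)] at h1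
    linarith
  obtain ⟨ρf, ρf0, hfits⟩ := hF m c b m0 m1 (by norm_num) (by norm_num) b0 b1
  obtain ⟨Mc, Mc0, hcomb⟩ := specComb
  obtain ⟨Mo, Mo0, hord⟩ := P073.H429.specOrd
  set ρ := min ρf (min (1 / Mc) (min (1 / Mo) (min (s / (4 * Mc)) (s / 4)))) with hρ
  have ρ0 : 0 < ρ := by
    refine lt_min ρf0 (lt_min ?_ (lt_min ?_ (lt_min ?_ ?_))) <;> positivity
  have r1 : ρ ≤ ρf := min_le_left _ _
  have r2 : ρ ≤ 1 / Mc := (min_le_right _ _).trans (min_le_left _ _)
  have r3 : ρ ≤ 1 / Mo := (min_le_right _ _).trans ((min_le_right _ _).trans (min_le_left _ _))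
  have r4 : ρ ≤ s / (4 * Mc) := (min_le_right _ _).trans ((min_le_right _ _).trans
    ((min_le_right _ _).trans (min_le_left _ _)))
  have r5 : ρ ≤ s / 4 := (min_le_right _ _).trans ((min_le_right _ _).trans
    ((min_le_right _ _).trans (min_le_right _ _)))
  rw [le_div_iff₀ Mc0] at r2
  rw [le_div_iff₀ Mo0] at r3
  rw [le_div_iff₀ (by positivity)] at r4
  refine ⟨ρ, ρ0, fun X om om0 omρ hN hD => ?_⟩
  obtain ⟨f1, f2, f3, S, f4, f5, f6, f7⟩ := hfits X ρ om ρ0 r1 om0 omρ hN hD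
  obtain ⟨-, c2, -, -, -, -⟩ := hcomb X m c ρ om m0 m1 (by norm_num) (by norm_num) ρ0
    (by linarith) om0 omρ hN
  obtain ⟨σ, τ, k0, k1, hO⟩ := hord X m c ρ om m0 m1 (by norm_num) (by norm_num) ρ0
    (by linarith) om0 omρ hN hD
  have hl := count_lay hO c2
  have H : Cor X m c om b s K κ κ' S σ τ k0 k1 :=
    ⟨m0, m1, by norm_num, by norm_num, b0, om0, s0, s1, by linarith, K1, hκ, hκ', hO,
      by linarith, f1, f2, f3, f4, f5, f6, f7⟩
  refine ⟨zF X m om s κ κ' S σ τ k0 k1, Rct \ Gd b, H.draw (H761.Bs.specBase E), ?_⟩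
  refine ⟨H.isE, fun x hx y hy d => H.lip (le_max_right _ _) hx hy d, fun x hx hxB => ?_,
    measurable_bad b, vol_bad b3 b0⟩
  have hxG : x ∈ Gd b := by
    by_contra h; exact hxB ⟨hx, h⟩
  have hev : ∀ᶠ y in 𝓝[Rct] x, y ∈ Rct ∧ y ∈ Gd b :=
    (eventually_mem_nhdsWithin).and (mem_nhdsWithin_of_mem_nhds ((isOpen_Gd b).mem_nhds hxG))
  filter_upwards [hev] with y hy d
  refine (H.sharp s2 hx hxG hy.1 hy.2 d).trans ?_
  have h1 := mul_le_mul_of_nonneg_right (H.om_wd_le he m2 b2 d) (abs_nonneg (crd d y - crd d x))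
  have h2 : 0 ≤ e * dist y x := mul_nonneg he.le dist_nonneg
  linarith

end P073.H237
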