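import Vale.Agent.P073.H237.SharpStep

/-!
# P073, H237, SHARP2: metric estimates for the layers
-/

set_option linter.unusedSectionVars false

open Set Metric Topology Filter

namespace P073.H237

open P073.H31

variable {s h : ℝ}

theorem abs_fst_sub (hs : 0 < s) (h2 : 2 * h < s) (h0 : 0 ≤ h) (x y : ℝ) :
    (s - 2 * h) / s * |fst' s h x - fst' s h y| ≤ |x - y| := by
  have hp : 0 < s - 2 * h := by linarith
  have q1 : 1 ≤ s / (s - 2 * h) := by rw [le_div_iff₀ hp]; linarith
  have q0 : 0 < (s - 2 * h) / s := div_pos hp hs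
  have q3 : (s - 2 * h) / s * (s / (s - 2 * h)) = 1 := by field_simp
  have h1 : |fst' s h x - fst' s h y| ≤ s / (s - 2 * h) * |x - y| := by
    unfold fst'
    refine (abs_max_sub_max_le_max _ _ _ _).trans (max_le ?_ ?_)
    · nlinarith [abs_nonneg (x - y)]
    · have : (1 - s) + (x - (1 - s)) * (s / (s - 2 * h)) -
        ((1 - s) + (y - (1 - s)) * (s / (s - 2 * h))) = s / (s - 2 * h) * (x - y) := by ring
      rw [this, abs_mul, abs_of_pos (by positivity)]
  calc (s - 2 * h) / s * |fst' s h x - fst' s h y|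
      ≤ (s - 2 * h) / s * (s / (s - 2 * h) * |x - y|) := mul_le_mul_of_nonneg_left h1 q0.le
    _ = |x - y| := by rw [← mul_assoc, q3, one_mul]

/-- the vertical estimate of one step -/
theorem vert' (hs : 0 < s) (h0 : 0 < h) (h2 : 2 * h < s) {l t t' : ℝ} (hl2 : l ≤ 2) (hl0 : 0 ≤ l) :
    h * |zl h l t' - zl h l t| + (s - 2 * h) / s * |chs s h l t' - chs s h l t| ≤ |t' - t| := by
  have hp : 0 < s - 2 * h := by linarith
  have q0 : 0 < (s - 2 * h) / s := div_pos hp hs
  have q2 : (s - 2 * h) / s ≤ 1 := by rw [div_le_iff₀ hs]; linarith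
  set g := 1 - h * l with hg
  have hz : ∀ r, zl h l r = zl h l (max g r) := by
    intro r
    rcases le_total g r with hr | hr
    · rw [max_eq_right hr]
    · rw [max_eq_left hr, zl_of_le h0 hr, zl_of_le h0 le_rfl]
  have hc : ∀ r, chs s h l r = chs s h l (min g r) := by
    intro r
    rcases le_total g r with hr | hr
    · rw [min_eq_left hr, chs_of_ge hs h2 h0.le hl2 hr, chs_of_ge hs h2 h0.le hl2 le_rfl]
    · rw [min_eq_right hr]
  have e1 : h * |zl h l t' - zl h l t| ≤ |max g t' - max g t| := by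
    rw [hz t', hz t]
    have := abs_cl1_sub_le (l - (1 - max g t') / h) (l - (1 - max g t) / h)
    have e : l - (1 - max g t') / h - (l - (1 - max g t) / h) = (max g t' - max g t) / h := by
      field_simp; ring
    rw [e, abs_div, abs_of_pos h0] at this
    calc h * |zl h l (max g t') - zl h l (max g t)| ≤ h * (|max g t' - max g t| / h) := by
          exact mul_le_mul_of_nonneg_left this h0.le
      _ = |max g t' - max g t| := by field_simp
  have e2 : (s - 2 * h) / s * |chs s h l t' - chs s h l t| ≤ |min g t' - min g t| := by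
    rw [hc t', hc t]
    generalize min g t' = r'
    generalize min g t = r
    have a1 := abs_min_sub_min_le_abs' 1 (min (r' + h * l) (fst' s h r'))
      (min (r + h * l) (fst' s h r))
    have a2 := abs_min_sub_min_le_max (r' + h * l) (fst' s h r') (r + h * l) (fst' s h r)
    have a3 : (s - 2 * h) / s * |r' + h * l - (r + h * l)| ≤ |r' - r| := by
      rw [add_sub_add_right_eq_sub]
      nlinarith [abs_nonneg (r' - r)]
    have a4 := abs_fst_sub hs h2 h0.le r' r
    have a5 : |chs s h l r' - chs s h l r| ≤ max |r' + h * l - (r + h * l)|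
        |fst' s h r' - fst' s h r| := a1.trans a2
    rcases le_total |r' + h * l - (r + h * l)| |fst' s h r' - fst' s h r| with c | c
    · rw [max_eq_right c] at a5
      exact (mul_le_mul_of_nonneg_left a5 q0.le).trans a4
    · rw [max_eq_left c] at a5
      exact (mul_le_mul_of_nonneg_left a5 q0.le).trans a3
  linarith [abs_max_add_abs_min g t t']

/-- the horizontal estimate of `chs` -/
theorem chs_horiz (h0 : 0 ≤ h) {l l' t : ℝ} : |chs s h l t - chs s h l' t| ≤ h * |l - l'| := by
  refine (abs_min_sub_min_le_abs' _ _ _).trans ?_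
  have := abs_min_sub_min_le_max (t + h * l) (fst' s h t) (t + h * l') (fst' s h t)
  rw [sub_self, abs_zero] at this
  refine this.trans (max_le ?_ (by positivity))
  rw [add_sub_add_left_eq_sub, ← mul_sub, abs_mul, abs_of_nonneg h0]

theorem chs_mem (hs : 0 < s) (hs1 : s ≤ 1) (h0 : 0 ≤ h) {l t : ℝ} (hl : 0 ≤ l)
    (ht : t ∈ Icc (0:ℝ) 1) : chs s h l t ∈ Icc (0:ℝ) 1 :=
  ⟨chs_nonneg h0 hl ht.1, chs_le_one _ _ _ _⟩

/-- data of the layers -/
structure Lay (s W U V : ℝ) (h : ℕ → ℝ) (A : ℕ → ArcD) (k0 m : ℕ) (f : ℕ → ℝ → ℝ → ℝ) : Prop where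
  s0 : 0 < s
  s1 : s ≤ 1
  W0 : 0 < W
  WU : W ≤ U
  h0 : ∀ j < m, 0 < h (k0 + j)
  om : ∀ j < m, (A (k0 + j)).om = W * h (k0 + j)
  om0 : ∀ i < k0, 0 ≤ (A i).om
  sum : ∑ j ∈ Finset.range m, 2 * h (k0 + j) ≤ s / 2
  vert : ∀ a ∈ Icc (0:ℝ) 1, ∀ t ∈ Icc (0:ℝ) 1, ∀ t' ∈ Icc (0:ℝ) 1,
    ∑ i ∈ Finset.range k0, (A i).om * |f i a t - f i a t'| ≤ U * |t - t'|
  horiz : ∀ a ∈ Icc (0:ℝ) 1, ∀ a' ∈ Icc (0:ℝ) 1, ∀ t ∈ Icc (0:ℝ) 1,
    ∑ i ∈ Finset.range k0, (A i).om * |f i a t - f i a' t| ≤ V * |a - a'|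

namespace Lay

variable {s W U V : ℝ} {h : ℕ → ℝ} {A : ℕ → ArcD} {k0 m : ℕ} {f : ℕ → ℝ → ℝ → ℝ}

theorem mono (H : Lay s W U V h A k0 (m + 1) f) : Lay s W U V h A k0 m f where
  s0 := H.s0
  s1 := H.s1
  W0 := H.W0
  WU := H.WU
  h0 j hj := H.h0 j (by omega)
  om j hj := H.om j (by omega)
  om0 := H.om0
  sum := by
    have := H.sum
    rw [Finset.sum_range_succ] at this
    have := H.h0 m (by omega)
    linarith
  vert := H.vert
  horiz := H.horiz

theorem sum_nonneg (H : Lay s W U V h A k0 m f) : 0 ≤ ∑ j ∈ Finset.range m, 2 * h (k0 + j) :=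
  Finset.sum_nonneg fun j hj => by
    have := H.h0 j (Finset.mem_range.1 hj)
    linarith

theorem om_nonneg (H : Lay s W U V h A k0 m f) : ∀ i < k0 + m, 0 ≤ (A i).om := by
  intro i hi
  by_cases h1 : i < k0
  · exact H.om0 i h1
  · obtain ⟨j, rfl⟩ := Nat.exists_eq_add_of_le (not_lt.1 h1)
    rw [H.om j (by omega)]
    exact mul_nonneg H.W0.le (H.h0 j (by omega)).le

/-- **the vertical estimate** -/
theorem vert_le (H : Lay s W U V h A k0 m f) : ∀ a ∈ Icc (0:ℝ) 1, ∀ t ∈ Icc (0:ℝ) 1,
    ∀ t' ∈ Icc (0:ℝ) 1,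
    ∑ i ∈ Finset.range (k0 + m), (A i).om * |mds s h A k0 f m i a t - mds s h A k0 f m i a t'| ≤
      U * (s / (s - ∑ j ∈ Finset.range m, 2 * h (k0 + j))) * |t - t'| := by
  induction m with
  | zero =>
    intro a ha t ht t' ht'
    simp only [Finset.range_zero, Finset.sum_empty, sub_zero, div_self H.s0.ne', mul_one]
    exact H.vert a ha t ht t' ht'
  | succ m ih =>
    intro a ha t ht t' ht'
    have Hm := H.mono
    have IH := ih Hm
    set S := ∑ j ∈ Finset.range m, 2 * h (k0 + j) with hS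
    have hS0 : 0 ≤ S := Hm.sum_nonneg
    have hsum := H.sum
    rw [Finset.sum_range_succ, ← hS] at hsum
    rw [Finset.sum_range_succ (f := fun j => 2 * h (k0 + j)), ← hS]
    set k := k0 + m with hk
    have hp : 0 < h k := H.h0 m (by omega)
    have h2 : 2 * h k < s := by linarith [H.s0]
    have hs := H.s0
    have hU : 0 ≤ U := H.W0.le.trans H.WU
    have l0 := ArcD.lam_nonneg (A := A k) a
    have l2 := ArcD.lam_le_two (A := A k) a
    show ∑ i ∈ Finset.range (k + 1), _ ≤ _
    rw [Finset.sum_range_succ]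
    show ∑ i ∈ Finset.range k, (A i).om * |ins s (h k) (A k) k (mds s h A k0 f m) i a t -
      ins s (h k) (A k) k (mds s h A k0 f m) i a t'| + (A k).om *
      |ins s (h k) (A k) k (mds s h A k0 f m) k a t - ins s (h k) (A k) k (mds s h A k0 f m) k a t'| ≤ _
    rw [ins_last, ins_last]
    have e : ∑ i ∈ Finset.range k, (A i).om * |ins s (h k) (A k) k (mds s h A k0 f m) i a t -
        ins s (h k) (A k) k (mds s h A k0 f m) i a t'| =
        ∑ i ∈ Finset.range k, (A i).om * |mds s h A k0 f m i a (chs s (h k) ((A k).lam a) t) -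
          mds s h A k0 f m i a (chs s (h k) ((A k).lam a) t')| := by
      refine Finset.sum_congr rfl fun i hi => ?_
      rw [ins_ne _ _ _ (Finset.mem_range.1 hi).ne, ins_ne _ _ _ (Finset.mem_range.1 hi).ne]
    rw [e]
    have h1 := IH a ha _ (chs_mem hs H.s1 hp.le l0 ht) _ (chs_mem hs H.s1 hp.le l0 ht')
    have h3 := vert' (t := t') (t' := t) hs hp h2 l2 l0
    set X := |chs s (h k) ((A k).lam a) t - chs s (h k) ((A k).lam a) t'|
    set Y := |zl (h k) ((A k).lam a) t - zl (h k) ((A k).lam a) t'|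
    have hX : 0 ≤ X := abs_nonneg _
    have hY : 0 ≤ Y := abs_nonneg _
    have hsS : 0 < s - S := by linarith
    have hsS' : 0 < s - (S + 2 * h k) := by linarith
    -- the constants
    have c1 : U * (s / (s - S)) ≤ U * (s / (s - (S + 2 * h k))) * ((s - 2 * h k) / s) := by
      rw [mul_assoc]
      refine mul_le_mul_of_nonneg_left ?_ hU
      have : s / (s - (S + 2 * h k)) * ((s - 2 * h k) / s) = (s - 2 * h k) / (s - (S + 2 * h k)) := by
        field_simp
      rw [this, div_le_div_iff₀ hsS hsS']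
      nlinarith [mul_nonneg hS0 hp.le]
    have c2 : (A k).om ≤ U * (s / (s - (S + 2 * h k))) * h k := by
      rw [H.om m (by omega)]
      have : 1 ≤ s / (s - (S + 2 * h k)) := by
        rw [le_div_iff₀ hsS']; linarith
      have h5 : W ≤ U * (s / (s - (S + 2 * h k))) := by
        have := mul_le_mul_of_nonneg_left this hU
        linarith [H.WU]
      exact mul_le_mul_of_nonneg_right h5 hp.le
    have hB : 0 ≤ U * (s / (s - (S + 2 * h k))) := mul_nonneg hU (div_pos hs hsS').le
    calc _ ≤ U * (s / (s - S)) * X + U * (s / (s - (S + 2 * h k))) * h k * Y := by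
          have := mul_le_mul_of_nonneg_right c2 hY
          linarith
      _ ≤ U * (s / (s - (S + 2 * h k))) * ((s - 2 * h k) / s) * X +
          U * (s / (s - (S + 2 * h k))) * h k * Y := by
          have := mul_le_mul_of_nonneg_right c1 hX
          linarith
      _ = U * (s / (s - (S + 2 * h k))) * (h k * Y + (s - 2 * h k) / s * X) := by ring
      _ ≤ U * (s / (s - (S + 2 * h k))) * |t - t'| := mul_le_mul_of_nonneg_left h3 hB

theorem vert_two (H : Lay s W U V h A k0 m f) : ∀ a ∈ Icc (0:ℝ) 1, ∀ t ∈ Icc (0:ℝ) 1,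
    ∀ t' ∈ Icc (0:ℝ) 1,
    ∑ i ∈ Finset.range (k0 + m), (A i).om * |mds s h A k0 f m i a t - mds s h A k0 f m i a t'| ≤
      2 * U * |t - t'| := by
  intro a ha t ht t' ht'
  refine (H.vert_le a ha t ht t' ht').trans (mul_le_mul_of_nonneg_right ?_ (abs_nonneg _))
  have hs := H.s0
  have hsum := H.sum
  have hU : 0 ≤ U := H.W0.le.trans H.WU
  have : s / (s - ∑ j ∈ Finset.range m, 2 * h (k0 + j)) ≤ 2 := by
    rw [div_le_iff₀ (by linarith)]; linarith
  nlinarith [mul_le_mul_of_nonneg_left this hU]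

/-- **the horizontal estimate** -/
theorem horiz_le (H : Lay s W U V h A k0 m f) : ∀ a ∈ Icc (0:ℝ) 1, ∀ a' ∈ Icc (0:ℝ) 1,
    ∀ t ∈ Icc (0:ℝ) 1,
    ∑ i ∈ Finset.range (k0 + m), (A i).om * |mds s h A k0 f m i a t - mds s h A k0 f m i a' t| ≤
      V * |a - a'| + (2 * U / W + 1) * ∑ j ∈ Finset.range m,
        (A (k0 + j)).om * |(A (k0 + j)).lam a - (A (k0 + j)).lam a'| := by
  induction m with
  | zero =>
    intro a ha a' ha' t ht
    simp only [Finset.range_zero, Finset.sum_empty, mul_zero, add_zero]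
    exact H.horiz a ha a' ha' t ht
  | succ m ih =>
    intro a ha a' ha' t ht
    have Hm := H.mono
    have IH := ih Hm
    set k := k0 + m with hk
    have hp : 0 < h k := H.h0 m (by omega)
    have hs := H.s0
    have hU : 0 ≤ U := H.W0.le.trans H.WU
    have l0 := ArcD.lam_nonneg (A := A k) a
    have l0' := ArcD.lam_nonneg (A := A k) a'
    rw [Finset.sum_range_succ (f := fun j => (A (k0 + j)).om * _), ← hk]
    show ∑ i ∈ Finset.range (k + 1), _ ≤ _
    rw [Finset.sum_range_succ]
    show ∑ i ∈ Finset.range k, (A i).om * |ins s (h k) (A k) k (mds s h A k0 f m) i a t -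
      ins s (h k) (A k) k (mds s h A k0 f m) i a' t| + (A k).om *
      |ins s (h k) (A k) k (mds s h A k0 f m) k a t - ins s (h k) (A k) k (mds s h A k0 f m) k a' t| ≤ _
    rw [ins_last, ins_last]
    set l := (A k).lam a
    set l' := (A k).lam a'
    have e : ∑ i ∈ Finset.range k, (A i).om * |ins s (h k) (A k) k (mds s h A k0 f m) i a t -
        ins s (h k) (A k) k (mds s h A k0 f m) i a' t| ≤
        ∑ i ∈ Finset.range k, (A i).om * |mds s h A k0 f m i a (chs s (h k) l t) -
          mds s h A k0 f m i a' (chs s (h k) l t)| +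
        ∑ i ∈ Finset.range k, (A i).om * |mds s h A k0 f m i a' (chs s (h k) l t) -
          mds s h A k0 f m i a' (chs s (h k) l' t)| := by
      rw [← Finset.sum_add_distrib]
      refine Finset.sum_le_sum fun i hi => ?_
      rw [ins_ne _ _ _ (Finset.mem_range.1 hi).ne, ins_ne _ _ _ (Finset.mem_range.1 hi).ne,
        ← mul_add]
      refine mul_le_mul_of_nonneg_left (abs_sub_le _ _ _)
        (H.om_nonneg i (by have := Finset.mem_range.1 hi; omega))
    have h1 := IH a ha a' ha' _ (chs_mem hs H.s1 hp.le l0 ht)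
    have h2 := Hm.vert_two a' ha' _ (chs_mem hs H.s1 hp.le l0 ht) _ (chs_mem hs H.s1 hp.le l0' ht)
    have h3 := chs_horiz (s := s) (l := l) (l' := l') (t := t) hp.le
    have h4 := step_zl_horiz (h := h k) (l := l) (l' := l') (t := t)
    have hom : (A k).om = W * h k := H.om m (by omega)
    have hom0 : 0 ≤ (A k).om := by rw [hom]; exact mul_nonneg H.W0.le hp.le
    have h5 : 2 * U * |chs s (h k) l t - chs s (h k) l' t| ≤ 2 * U / W * ((A k).om * |l - l'|) := by
      have hW := H.W0
      calc 2 * U * |chs s (h k) l t - chs s (h k) l' t| ≤ 2 * U * (h k * |l - l'|) :=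
            mul_le_mul_of_nonneg_left h3 (by linarith)
        _ = 2 * U / W * ((A k).om * |l - l'|) := by rw [hom]; field_simp
    have h6 : (A k).om * |zl (h k) l t - zl (h k) l' t| ≤ (A k).om * |l - l'| :=
      mul_le_mul_of_nonneg_left h4 hom0
    have e3 : (2 * U / W + 1) * (∑ j ∈ Finset.range m,
        (A (k0 + j)).om * |(A (k0 + j)).lam a - (A (k0 + j)).lam a'| + (A k).om * |l - l'|) =
        (2 * U / W + 1) * ∑ j ∈ Finset.range m,
        (A (k0 + j)).om * |(A (k0 + j)).lam a - (A (k0 + j)).lam a'| +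
        2 * U / W * ((A k).om * |l - l'|) + (A k).om * |l - l'| := by ring
    rw [e3]
    linarith

/-- below the layers nothing changes -/
theorem eq_base (H : Lay s W U V h A k0 m f) {a t : ℝ} (ht : t ≤ 1 - s) {i : ℕ} (hi : i < k0) :
    mds s h A k0 f m i a t = f i a t := by
  induction m with
  | zero => rfl
  | succ m ih =>
    have hp : 0 < h (k0 + m) := H.h0 m (by omega)
    have hsum := H.sum
    rw [Finset.sum_range_succ] at hsum
    have := H.mono.sum_nonneg
    have h2 : 2 * h (k0 + m) < s := by linarith [H.s0]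
    show ins s (h (k0 + m)) (A (k0 + m)) (k0 + m) (mds s h A k0 f m) i a t = _
    rw [ins_ne _ _ _ (by omega), chs_eq_self H.s0 H.s1 h2 hp.le (ArcD.lam_nonneg a) ht]
    exact ih H.mono

theorem eq_zero (H : Lay s W U V h A k0 m f) (hf : ∀ i, k0 ≤ i → ∀ a t, f i a t = 0) {a t : ℝ}
    (ht : t ≤ 1 - s) {i : ℕ} (hi : k0 ≤ i) : mds s h A k0 f m i a t = 0 := by
  induction m with
  | zero => exact hf i hi a t
  | succ m ih =>
    have hp : 0 < h (k0 + m) := H.h0 m (by omega)
    have hsum := H.sum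
    rw [Finset.sum_range_succ] at hsum
    have := H.mono.sum_nonneg
    have h2 : 2 * h (k0 + m) < s := by linarith [H.s0]
    show ins s (h (k0 + m)) (A (k0 + m)) (k0 + m) (mds s h A k0 f m) i a t = _
    by_cases hik : i = k0 + m
    · rw [hik, ins_last]
      apply zl_of_le hp
      have := ArcD.lam_le_two (A := A (k0 + m)) a
      nlinarith
    · rw [ins_ne _ _ _ hik, chs_eq_self H.s0 H.s1 h2 hp.le (ArcD.lam_nonneg a) ht]
      exact ih H.mono

end Lay

end P073.H237
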