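import Vale.Agent.P073.H31.PlPeel

/-!
# P073, H237, SHARP2: insertion of arcs near the top side

`chs s h l t` is the vertical reparametrisation of one step; it is the identity for `t ≤ 1 - s`.
`ins` is one step from arbitrary functions `f` for the first `k` arcs.
-/

set_option linter.unusedSectionVars false

open Set Metric Topology Filter

namespace P073.H237

open P073.H31

/-- the fast branch -/
noncomputable def fst' (s h t : ℝ) : ℝ := max t ((1 - s) + (t - (1 - s)) * (s / (s - 2 * h)))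

/-- its inverse -/
noncomputable def fsi (s h t : ℝ) : ℝ := min t ((1 - s) + (t - (1 - s)) * ((s - 2 * h) / s))

/-- the vertical map -/
noncomputable def chs (s h l t : ℝ) : ℝ := min 1 (min (t + h * l) (fst' s h t))

section

variable {s h : ℝ}

theorem fsi_fst (hs : 0 < s) (h2 : 2 * h < s) (h0 : 0 ≤ h) (t : ℝ) : fsi s h (fst' s h t) = t := by
  have hp : 0 < s - 2 * h := by linarith
  have q1 : 1 ≤ s / (s - 2 * h) := by rw [le_div_iff₀ hp]; linarith
  have q2 : (s - 2 * h) / s ≤ 1 := by rw [div_le_iff₀ hs]; linarith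
  have q3 : s / (s - 2 * h) * ((s - 2 * h) / s) = 1 := by field_simp
  unfold fsi fst'
  rcases le_total t (1 - s) with c | c
  · have e1 : max t ((1 - s) + (t - (1 - s)) * (s / (s - 2 * h))) = t :=
      max_eq_left (by nlinarith)
    rw [e1, min_eq_left (by nlinarith)]
  · have e1 : max t ((1 - s) + (t - (1 - s)) * (s / (s - 2 * h))) =
        (1 - s) + (t - (1 - s)) * (s / (s - 2 * h)) := max_eq_right (by nlinarith)
    rw [e1]
    have e2 : (1 - s) + ((1 - s) + (t - (1 - s)) * (s / (s - 2 * h)) - (1 - s)) *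
        ((s - 2 * h) / s) = t := by
      have : (1 - s) + ((1 - s) + (t - (1 - s)) * (s / (s - 2 * h)) - (1 - s)) *
        ((s - 2 * h) / s) = (1 - s) + (t - (1 - s)) * (s / (s - 2 * h) * ((s - 2 * h) / s)) := by
        ring
      rw [this, q3]; ring
    rw [e2]
    exact min_eq_right (by nlinarith)

theorem fst_fsi (hs : 0 < s) (h2 : 2 * h < s) (h0 : 0 ≤ h) (t : ℝ) : fst' s h (fsi s h t) = t := by
  have hp : 0 < s - 2 * h := by linarith
  have q1 : 1 ≤ s / (s - 2 * h) := by rw [le_div_iff₀ hp]; linarith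
  have q0 : 0 < (s - 2 * h) / s := div_pos hp hs
  have q2 : (s - 2 * h) / s ≤ 1 := by rw [div_le_iff₀ hs]; linarith
  have q3 : (s - 2 * h) / s * (s / (s - 2 * h)) = 1 := by field_simp
  unfold fsi fst'
  rcases le_total t (1 - s) with c | c
  · have e1 : min t ((1 - s) + (t - (1 - s)) * ((s - 2 * h) / s)) = t :=
      min_eq_left (by nlinarith)
    rw [e1, max_eq_left (by nlinarith)]
  · have e1 : min t ((1 - s) + (t - (1 - s)) * ((s - 2 * h) / s)) =
        (1 - s) + (t - (1 - s)) * ((s - 2 * h) / s) := min_eq_right (by nlinarith)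
    rw [e1]
    have e2 : (1 - s) + ((1 - s) + (t - (1 - s)) * ((s - 2 * h) / s) - (1 - s)) *
        (s / (s - 2 * h)) = t := by
      have : (1 - s) + ((1 - s) + (t - (1 - s)) * ((s - 2 * h) / s) - (1 - s)) *
        (s / (s - 2 * h)) = (1 - s) + (t - (1 - s)) * ((s - 2 * h) / s * (s / (s - 2 * h))) := by
        ring
      rw [this, q3]; ring
    rw [e2]
    exact max_eq_right (by nlinarith)

theorem fst_mono (hs : 0 < s) (h2 : 2 * h < s) : Monotone (fst' s h) := by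
  intro x y hxy
  have hp : 0 < s - 2 * h := by linarith
  have q : 0 < s / (s - 2 * h) := div_pos hs hp
  refine max_le_max hxy ?_
  have := mul_le_mul_of_nonneg_right (sub_le_sub_right hxy (1 - s)) q.le
  linarith

theorem fsi_mono (hs : 0 < s) (h2 : 2 * h < s) : Monotone (fsi s h) := by
  intro x y hxy
  have hp : 0 < s - 2 * h := by linarith
  have q : 0 < (s - 2 * h) / s := div_pos hp hs
  refine min_le_min hxy ?_
  have := mul_le_mul_of_nonneg_right (sub_le_sub_right hxy (1 - s)) q.le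
  linarith

theorem le_fst (t : ℝ) : t ≤ fst' s h t := le_max_left _ _

theorem fst_eq_self (hs : 0 < s) (h2 : 2 * h < s) (h0 : 0 ≤ h) {t : ℝ} (ht : t ≤ 1 - s) :
    fst' s h t = t := by
  have hp : 0 < s - 2 * h := by linarith
  have q1 : 1 ≤ s / (s - 2 * h) := by rw [le_div_iff₀ hp]; linarith
  exact max_eq_left (by nlinarith)

theorem fsi_eq_self (hs : 0 < s) (h2 : 2 * h < s) (h0 : 0 ≤ h) {t : ℝ} (ht : t ≤ 1 - s) :
    fsi s h t = t := by
  have q2 : (s - 2 * h) / s ≤ 1 := by rw [div_le_iff₀ hs]; linarith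
  exact min_eq_left (by nlinarith)

theorem fst_top (hs : 0 < s) (h2 : 2 * h < s) (h0 : 0 ≤ h) : fst' s h (1 - 2 * h) = 1 := by
  have hp : 0 < s - 2 * h := by linarith
  have e : (1 - s) + (1 - 2 * h - (1 - s)) * (s / (s - 2 * h)) = 1 := by
    have : 1 - 2 * h - (1 - s) = s - 2 * h := by ring
    rw [this, mul_div_cancel₀ _ hp.ne']; ring
  rw [fst', e]
  exact max_eq_right (by linarith)

theorem fsi_one (hs : 0 < s) (h2 : 2 * h < s) (h0 : 0 ≤ h) : fsi s h 1 = 1 - 2 * h := by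
  have := fsi_fst hs h2 h0 (1 - 2 * h)
  rwa [fst_top hs h2 h0] at this

/-- `chs` is the identity below the layer zone -/
theorem chs_eq_self (hs : 0 < s) (hs1 : s ≤ 1) (h2 : 2 * h < s) (h0 : 0 ≤ h) {l t : ℝ} (hl : 0 ≤ l)
    (ht : t ≤ 1 - s) : chs s h l t = t := by
  rw [chs, fst_eq_self hs h2 h0 ht, min_eq_right (by nlinarith : t ≤ t + h * l),
    min_eq_right (by linarith)]

theorem chs_zero_l (hs : 0 < s) {t : ℝ} (ht : t ≤ 1) : chs s h 0 t = t := by
  rw [chs, mul_zero, add_zero, min_eq_left (le_fst t), min_eq_right ht]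

theorem chs_zero (hs : 0 < s) (hs1 : s ≤ 1) (h2 : 2 * h < s) (h0 : 0 ≤ h) {l : ℝ} (hl : 0 ≤ l) :
    chs s h l 0 = 0 := chs_eq_self hs hs1 h2 h0 hl (by linarith)

theorem chs_le_one (s h l t : ℝ) : chs s h l t ≤ 1 := min_le_left _ _

theorem chs_nonneg (h0 : 0 ≤ h) {l t : ℝ} (hl : 0 ≤ l) (ht : 0 ≤ t) : 0 ≤ chs s h l t :=
  le_min zero_le_one (le_min (by positivity) (ht.trans (le_fst t)))

theorem chs_of_ge (hs : 0 < s) (h2 : 2 * h < s) (h0 : 0 ≤ h) {l t : ℝ} (hl2 : l ≤ 2)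
    (ht : 1 - h * l ≤ t) : chs s h l t = 1 := by
  apply min_eq_left
  refine le_min (by linarith) ?_
  rw [← fst_top hs h2 h0]
  exact fst_mono hs h2 (by nlinarith)

theorem chs_of_le {l t : ℝ} (ht : t ≤ 1 - h * l) :
    chs s h l t = min (t + h * l) (fst' s h t) := by
  apply min_eq_right
  exact (min_le_left _ _).trans (by linarith)

theorem chs_one (hs : 0 < s) (h2 : 2 * h < s) (h0 : 0 ≤ h) {l : ℝ} (hl : 0 ≤ l) :
    chs s h l 1 = 1 := by
  apply min_eq_left
  exact le_min (by nlinarith) (le_fst 1)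

end

theorem PLc.fst' {E : Type*} [NormedAddCommGroup E] [NormedSpace ℝ E] {f : E → ℝ} (hf : PLc f)
    (s h : ℝ) : PLc (fun x => fst' s h (f x)) :=
  hf.max ((PLc.const (1 - s)).add ((hf.sub (PLc.const (1 - s))).mulc _))

theorem PLc.fsi {E : Type*} [NormedAddCommGroup E] [NormedSpace ℝ E] {f : E → ℝ} (hf : PLc f)
    (s h : ℝ) : PLc (fun x => fsi s h (f x)) :=
  hf.min ((PLc.const (1 - s)).add ((hf.sub (PLc.const (1 - s))).mulc _))

theorem PLc.chs (s h : ℝ) (A : ArcD) : PLc (fun x : ℝ × ℝ => chs s h (A.lam x.1) x.2) := by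
  have h1 : PLc (fun x : ℝ × ℝ => x.1) := PLc.id.fst
  have h2 : PLc (fun x : ℝ × ℝ => x.2) := PLc.id.snd
  exact (PLc.const 1).min ((h2.add ((h1.lam A).cmul h)).min (PLc.fst' h2 s h))

variable {s h : ℝ} {A : ArcD}

/-- the homeomorphism `Qr → Rct` -/
noncomputable def psiS (hs : 0 < s) (hs1 : s ≤ 1) (h0 : 0 < h) (h2 : 2 * h < s) (A : ArcD) :
    ConHomeo (Qr h A) Rct :=
  mkCon (f := fun x : ℝ × ℝ => (x.1, chs s h (A.lam x.1) x.2))
    (g := fun x : ℝ × ℝ => (x.1, max (x.2 - h * A.lam x.1) (fsi s h x.2)))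
    (PLc.id.fst.prodMk (PLc.chs s h A))
    (PLc.id.fst.prodMk ((PLc.id.snd.sub ((PLc.id.fst.lam A).cmul h)).max
      (PLc.fsi PLc.id.snd s h)))
    (locCone_Qr h A).conicalSet
    (by
      rintro ⟨a, t⟩ ⟨⟨ha, ht⟩, _⟩
      exact ⟨ha, chs_nonneg h0.le (ArcD.lam_nonneg a) ht.1, chs_le_one _ _ _ _⟩)
    (by
      rintro ⟨a, t⟩ ⟨ha, ht⟩
      simp only at ht
      have l0 := ArcD.lam_nonneg (A := A) a
      have l2 := ArcD.lam_le_two (A := A) a
      have h3 : fsi s h t ≤ 1 - h * A.lam a := by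
        have := fsi_mono hs h2 ht.2
        rw [fsi_one hs h2 h0.le] at this
        nlinarith
      have h4 : t - h * A.lam a ≤ 1 - h * A.lam a := by linarith [ht.2]
      have h5 : 0 ≤ fsi s h t := by
        have := fsi_mono hs h2 ht.1
        rw [fsi_eq_self hs h2 h0.le (by linarith)] at this
        exact this
      refine ⟨⟨ha, h5.trans (le_max_right _ _), (max_le h4 h3).trans ?_⟩, max_le h4 h3⟩
      have := mul_nonneg h0.le l0
      linarith)
    (by
      rintro ⟨a, t⟩ ⟨⟨ha, ht⟩, hle⟩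
      simp only at hle ht ⊢
      rw [chs_of_le hle]
      refine Prod.ext rfl ?_
      simp only
      have q := fsi_fst (t := t) hs h2 h0.le
      rcases le_total (t + h * A.lam a) (fst' s h t) with c | c
      · rw [min_eq_left c]
        have : fsi s h (t + h * A.lam a) ≤ t := by
          have := fsi_mono hs h2 c
          rwa [q] at this
        rw [max_eq_left (by linarith)]; ring
      · rw [min_eq_right c, q, max_eq_right (by linarith)])
    (by
      rintro ⟨a, t⟩ ⟨ha, ht⟩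
      simp only at ht ⊢
      have l0 := ArcD.lam_nonneg (A := A) a
      have l2 := ArcD.lam_le_two (A := A) a
      have h3 : fsi s h t ≤ 1 - h * A.lam a := by
        have := fsi_mono hs h2 ht.2
        rw [fsi_one hs h2 h0.le] at this
        nlinarith
      have h4 : t - h * A.lam a ≤ 1 - h * A.lam a := by linarith [ht.2]
      refine Prod.ext rfl ?_
      simp only
      rw [chs_of_le (max_le h4 h3)]
      have q := fst_fsi (t := t) hs h2 h0.le
      rcases le_total (t - h * A.lam a) (fsi s h t) with c | c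
      · rw [max_eq_right c, q, min_eq_right (by linarith)]
      · rw [max_eq_left c]
        have : t ≤ fst' s h (t - h * A.lam a) := by
          have := fst_mono hs h2 c
          rwa [q] at this
        rw [min_eq_left (by linarith)]; ring)

/-- the new functions -/
noncomputable def ins (s h : ℝ) (A : ArcD) (k : ℕ) (f : ℕ → ℝ → ℝ → ℝ) (i : ℕ) (a t : ℝ) : ℝ :=
  if i = k then zl h (A.lam a) t else f i a (chs s h (A.lam a) t)

theorem ins_last (s h : ℝ) (A : ArcD) (k : ℕ) (f : ℕ → ℝ → ℝ → ℝ) (a t : ℝ) :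
    ins s h A k f k a t = zl h (A.lam a) t := by simp [ins]

theorem ins_ne (s h : ℝ) (A : ArcD) {k i : ℕ} (hi : i ≠ k) (f : ℕ → ℝ → ℝ → ℝ) (a t : ℝ) :
    ins s h A k f i a t = f i a (chs s h (A.lam a) t) := by simp [ins, hi]

/-- functions of a drawing of the first `k` arcs -/
structure IsDr (k : ℕ) (A : ℕ → ArcD) (f : ℕ → ℝ → ℝ → ℝ) : Prop where
  top : ∀ i < k, ∀ a ∈ Icc (0:ℝ) 1, f i a 1 = (A i).sig a
  zero : ∀ i, k ≤ i → ∀ a t, f i a t = 0

theorem IsDr.ins {k : ℕ} {A : ℕ → ArcD} {f : ℕ → ℝ → ℝ → ℝ} (H : IsDr k A f) (hs : 0 < s)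
    (h2 : 2 * h < s) (h0 : 0 ≤ h) : IsDr (k + 1) A (ins s h (A k) k f) where
  top := by
    intro i hi a ha
    by_cases hik : i = k
    · subst hik
      rw [ins_last, zl, sub_self, zero_div, sub_zero]; rfl
    · rw [ins_ne _ _ _ hik, chs_one hs h2 h0 (ArcD.lam_nonneg a)]
      exact H.top i (by omega) a ha
  zero := by
    intro i hi a t
    rw [ins_ne _ _ _ (by omega)]
    exact H.zero i (by omega) _ _

section step

variable {E : Type*} [NormedAddCommGroup E] [NormedSpace ℝ E]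
variable {N k : ℕ} {A : ℕ → ArcD} {col : ℕ → Bool} {C B : Set E} {fn : ℕ → E → ℝ}
  {γ : ℝ × ℝ → E}
variable {B₁ B₂ C₁ C₂ : Set E}

/-- **one step** -/
theorem step' (H : Stp k A col C B fn γ B₁ B₂ C₁ C₂) {f : ℕ → ℝ → ℝ → ℝ} (hf : IsDr k A f)
    (hs : 0 < s) (hs1 : s ≤ 1) (hp : 0 < h) (h2s : 2 * h < s) (hkN : k + 1 ≤ N)
    (IH : ∀ γ' : ℝ × ℝ → E, Pat k A col C₁ (B₁ ∪ Sa C fn k) fn γ' →
      ∃ Φ : ConHomeo Rct (Fil N k C₁ fn),
        (∀ x ∈ Rct, ∀ i : Fin N, (Φ.toFun x).2 i = f i x.1 x.2) ∧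
        (∀ x ∈ bR, (Φ.toFun x).1 = γ' x)) :
    ∃ Φ : ConHomeo Rct (Fil N (k + 1) C fn),
      (∀ x ∈ Rct, ∀ i : Fin N, (Φ.toFun x).2 i = ins s h (A k) k f i x.1 x.2) ∧
      (∀ x ∈ bR, (Φ.toFun x).1 = γ x) := by
  have g := H.gk
  have h2 : 2 * h < 1 := by linarith
  obtain ⟨L, hL⟩ := H.exists_L (N := N) (by omega)
  obtain ⟨Φ₁, Φz, Φb⟩ := IH _ (H.new_pat hL)
  obtain ⟨M, hM⟩ := H.exists_M hkN hL
  set e : Fin N := ⟨k, hkN⟩ with he
  let h₁ : ConHomeo (Qr h (A k)) (Fil N k C₁ fn) := (psiS hs hs1 hp h2s (A k)).trans Φ₁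
  let h₂ : ConHomeo (Hh h (A k)) (FilD N k C C₂ fn) := (psiH hp (A k)).trans ((LC g).trans M)
  have e₁ : ∀ x, h₁.toFun x = Φ₁.toFun (x.1, chs s h ((A k).lam x.1) x.2) := fun x => rfl
  have e₂ : ∀ x, h₂.toFun x = L.toFun (ff (A k) (x.1, (1 - x.2) / h), yy (A k) (x.1, (1 - x.2) / h)) +
      zz (A k) (x.1, (1 - x.2) / h) • ev E e := fun x => hM _
  have HhR : Hh h (A k) ⊆ Rct := by
    rw [← Rct_eq hp h2 g]; exact subset_union_right
  have hy : ∀ x ∈ Hh h (A k), (x.1, (1 - x.2) / h) ∈ Hy (A k) := fun x hx =>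
    (psiH hp (A k)).mapsTo hx
  have dD : ∀ x ∈ Hh h (A k), (ff (A k) (x.1, (1 - x.2) / h), yy (A k) (x.1, (1 - x.2) / h)) ∈
      D0 (A k) := fun x hx => (lc_all g (hy x hx)).1.1
  have hxI : ∀ {x : ℝ × ℝ}, x ∈ Rct → x.1 ∈ Icc (0:ℝ) 1 := fun hx => hx.1
  -- components of `h₂`
  have f1 : ∀ x, (h₂.toFun x).1 = (L.toFun (ff (A k) (x.1, (1 - x.2) / h),
      yy (A k) (x.1, (1 - x.2) / h))).1 := fun x => by
    rw [e₂]
    show _ + _ • (0 : E) = _
    rw [smul_zero, add_zero]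
  have f2 : ∀ x ∈ Hh h (A k), ∀ i : Fin N, (h₂.toFun x).2 i =
      if (i : ℕ) < k then (A i).sig x.1 else if i = e then zz (A k) (x.1, (1 - x.2) / h) else 0 := by
    intro x hx i
    rw [e₂]
    show (L.toFun (ff (A k) (x.1, (1 - x.2) / h), yy (A k) (x.1, (1 - x.2) / h))).2 i +
      zz (A k) (x.1, (1 - x.2) / h) • (ev E e).2 i = _
    rw [hL.z _ (dD x hx) i]
    split_ifs with c1 c2
    · have : i ≠ e := fun hie => by rw [hie] at c1; exact lt_irrefl k c1
      rw [ev_ne this, smul_zero, add_zero]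
      exact H.P.pos.sig_ff c1 (hy x hx)
    · rw [c2, ev_self, smul_eq_mul, mul_one, zero_add]
    · rw [ev_ne c2, smul_zero, add_zero]
  -- closedness
  have cHh : IsCompact (Hh h (A k)) := isCompact_Rct.of_isClosed_subset (isClosed_Hh _ _) HhR
  have cF1 : IsClosed (Fil N k C₁ fn) := (Φ₁.isCompact_right isCompact_Rct).isClosed
  have cF2 : IsClosed (FilD N k C C₂ fn) := (h₂.isCompact_right cHh).isClosed
  -- agreement
  have hag : EqOn h₁.toFun h₂.toFun (Qr h (A k) ∩ Hh h (A k)) := by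
    rintro x hx
    obtain ⟨q1, q2, q3, q4⟩ := QH_inter.1 hx
    have ey : (1 - x.2) / h = (A k).lam x.1 := by
      rw [q4]; field_simp; ring
    have echi : chs s h ((A k).lam x.1) x.2 = 1 :=
      chs_of_ge hs h2s hp.le (ArcD.lam_le_two _) q4.ge
    have hX : ((x.1, 1) : ℝ × ℝ) ∈ X2 (A k) := ⟨⟨q2, q3⟩, rfl⟩
    have hbR := X2_bR g hX
    obtain ⟨b1, b2⟩ := ff_bot g q2 q3
    refine Prod.ext ?_ ?_
    · rw [f1, e₁, echi, Φb _ hbR, H.new2 hL hX, ey, b1]; rfl
    · funext i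
      rw [f2 x hx.2 i, e₁, echi, Φz _ hbR.1 i, ey, b2]
      split_ifs with c1 c2
      · exact hf.top i c1 x.1 (hxI q1)
      · exact hf.zero _ (by rw [c2]) _ _
      · exact hf.zero _ (by omega) _ _
  have himg : Fil N k C₁ fn ∩ FilD N k C C₂ fn ⊆ h₁.toFun '' (Qr h (A k) ∩ Hh h (A k)) := by
    rintro v ⟨hv1, hv2⟩
    set x := h₂.invFun v with hx
    have hxH : x ∈ Hh h (A k) := h₂.mapsTo_inv hv2
    have hxv : h₂.toFun x = v := h₂.right_inv hv2
    have hz : zz (A k) (x.1, (1 - x.2) / h) = 0 := by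
      have h3 := f2 x hxH e
      rw [if_neg (lt_irrefl k), if_pos rfl, hxv] at h3
      rw [← h3]
      exact (hv1.2 e).2.2.2 le_rfl
    have hle : (A k).lam x.1 ≤ (1 - x.2) / h := by
      by_contra hc
      rw [not_le] at hc
      have : 0 < zz (A k) (x.1, (1 - x.2) / h) :=
        lt_max_of_lt_right (lt_min one_pos (sub_pos.2 hc))
      exact this.ne' hz
    have hQ : x ∈ Qr h (A k) ∩ Hh h (A k) := by
      refine ⟨⟨HhR hxH, ?_⟩, hxH⟩
      rw [le_div_iff₀ hp] at hle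
      linarith
    exact ⟨x, hQ, by rw [hag hQ, hxv]⟩
  have eX : Qr h (A k) ∪ Hh h (A k) = Rct := Rct_eq hp h2 g
  have eY : Fil N k C₁ fn ∪ FilD N k C C₂ fn = Fil N (k + 1) C fn := by
    ext v
    constructor
    · rintro (hv | hv)
      · refine ⟨H.C₁C hv.1, fun i => ?_⟩
        obtain ⟨f1, f2, f3, f4⟩ := hv.2 i
        refine ⟨f1, fun h3 h4 => ?_, fun h3 h4 => ?_, fun h3 => f4 (by omega)⟩
        · by_cases hi : (i : ℕ) < k
          · exact f2 hi h4
          · exact f4 (by omega)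
        · by_cases hi : (i : ℕ) < k
          · exact f3 hi h4
          · have hi' : (i : ℕ) = k := by omega
            rw [hi'] at h4
            exact absurd ((H.mem₁ (H.C₁C hv.1)).1 hv.1) (not_le.2 h4)
      · exact hv.1
    · intro hv
      by_cases hc : v.1 ∈ C₂
      · exact Or.inr ⟨hv, hc⟩
      · left
        have hneg : fn k v.1 < 0 := by
          by_contra h3
          exact hc ((H.mem₂ hv.1).2 (not_lt.1 h3))
        refine ⟨(H.mem₁ hv.1).2 hneg.le, fun i => ?_⟩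
        obtain ⟨f1, f2, f3, f4⟩ := hv.2 i
        refine ⟨f1, fun h3 => f2 (by omega), fun h3 => f3 (by omega), fun h3 => ?_⟩
        by_cases hi : (i : ℕ) = k
        · exact f2 (by omega) (by rw [hi]; exact hneg)
        · exact f4 (by omega)
  let Φ := (ConHomeo.glue h₁ h₂ (isClosed_Qr _ _) (isClosed_Hh _ _) cF1 cF2 hag himg).cast eX eY
  have g1 : EqOn Φ.toFun h₁.toFun (Qr h (A k)) :=
    ConHomeo.glue_left h₁ h₂ (isClosed_Qr _ _) (isClosed_Hh _ _) cF1 cF2 hag himg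
  have g2 : EqOn Φ.toFun h₂.toFun (Hh h (A k)) :=
    ConHomeo.glue_right h₁ h₂ (isClosed_Qr _ _) (isClosed_Hh _ _) cF1 cF2 hag himg
  refine ⟨Φ, ?_, ?_⟩
  · intro x hx i
    have hx' := hx
    rw [← eX] at hx'
    rcases hx' with hQ | hH
    · have hQR : (x.1, chs s h ((A k).lam x.1) x.2) ∈ Rct := (psiS hs hs1 hp h2s (A k)).mapsTo hQ
      rw [g1 hQ, e₁, Φz _ hQR i]
      by_cases hi : (i : ℕ) = k
      · rw [hi, hf.zero _ le_rfl, ins_last]
        exact (zl_of_le hp hQ.2).symm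
      · rw [ins_ne _ _ _ hi]
    · rw [g2 hH, f2 x hH i]
      have echi : chs s h ((A k).lam x.1) x.2 = 1 :=
        chs_of_ge hs h2s hp.le (ArcD.lam_le_two _) hH.2.2.2
      split_ifs with c1 c2
      · rw [ins_ne _ _ _ (by omega), echi, hf.top _ c1 _ (hxI hx)]
      · rw [c2]
        show zz (A k) (x.1, (1 - x.2) / h) = ins s h (A k) k f k x.1 x.2
        rw [ins_last]; rfl
      · have : k + 1 ≤ (i : ℕ) := by
          have : (i : ℕ) ≠ k := fun h3 => c2 (Fin.ext h3)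
          omega
        exact ((hf.ins hs h2s hp.le).zero _ this x.1 x.2).symm
  · intro x hx
    have hx' := hx
    rw [← bR_cases g] at hx'
    rcases hx' with hX | hX
    · have hlam : (A k).lam x.1 = 0 ∨ x.2 = 0 := by
        rcases hX.2 with h3 | h3 | h3
        · exact Or.inl (g.lam_zero_left h3)
        · exact Or.inl (g.lam_zero_right h3)
        · exact Or.inr h3
      have hl0 := ArcD.lam_nonneg (A := A k) x.1
      have hl2 := ArcD.lam_le_two (A := A k) x.1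
      have hQ : x ∈ Qr h (A k) := by
        refine ⟨hx.1, ?_⟩
        rcases hlam with h3 | h3
        · rw [h3, mul_zero, sub_zero]; exact hx.1.2.2
        · rw [h3]; nlinarith
      have echi : chs s h ((A k).lam x.1) x.2 = x.2 := by
        rcases hlam with h3 | h3
        · rw [h3]; exact chs_zero_l hs hx.1.2.2
        · rw [h3]; exact chs_zero hs hs1 h2s hp.le hl0
      rw [g1 hQ, e₁, echi]
      show (Φ₁.toFun x).1 = γ x
      rw [Φb x hx, H.new1 hL hX]
    · have hH : x ∈ Hh h (A k) := by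
        refine ⟨hX.1.1, hX.1.2, hx.1.2.2, ?_⟩
        have h3 : x.2 = 1 := hX.2
        have := mul_nonneg hp.le (ArcD.lam_nonneg (A := A k) x.1)
        rw [h3]; linarith
      have h3 : x.2 = 1 := hX.2
      have ey : (1 - x.2) / h = 0 := by rw [h3, sub_self, zero_div]
      have xe : x = (x.1, 1) := Prod.ext rfl h3
      rw [g2 hH, f1, ey]
      obtain ⟨t1, t2⟩ := ff_top g hX.1.1 hX.1.2
      rw [t1]
      have hw := g.w0; have hw' := g.w0'
      rcases t2 with ⟨t3, t4⟩ | ⟨t3, t4⟩ | ⟨t3, t4, t5⟩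
      · rw [t4, hL.top _ ⟨le_rfl, g.pqs.le⟩, xe]
        refine H.P.fib' (j := (k, false)) (by show k < k + 1; omega) H.ps_mem ?_
        simp only [lf, rt, Bool.false_eq_true, if_false, mem_Icc]
        exact ⟨hX.1.1, t3⟩
      · rw [t4, hL.top _ ⟨g.pqs.le, le_rfl⟩, xe]
        refine H.P.fib' (j := (k, true)) (by show k < k + 1; omega) H.qs_mem ?_
        simp only [lf, rt, if_true, mem_Icc]
        exact ⟨t3, hX.1.2⟩
      · rw [t5, hL.top _ ⟨t3, t4⟩, ← xe]

end step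

/-! ### All layers -/

/-- the functions after the insertion of the arcs `k0, …, k0 + m - 1` -/
noncomputable def mds (s : ℝ) (h : ℕ → ℝ) (A : ℕ → ArcD) (k0 : ℕ) (f : ℕ → ℝ → ℝ → ℝ) :
    ℕ → ℕ → ℝ → ℝ → ℝ
  | 0 => f
  | m + 1 => ins s (h (k0 + m)) (A (k0 + m)) (k0 + m) (mds s h A k0 f m)

theorem mds_isDr {s : ℝ} {h : ℕ → ℝ} {A : ℕ → ArcD} {k0 : ℕ} {f : ℕ → ℝ → ℝ → ℝ} (hf : IsDr k0 A f)
    (hs : 0 < s) : ∀ (m : ℕ), (∀ j < m, 0 < h (k0 + j) ∧ 2 * h (k0 + j) < s) →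
      IsDr (k0 + m) A (mds s h A k0 f m)
  | 0, _ => hf
  | m + 1, hh => (mds_isDr hf hs m fun j hj => hh j (by omega)).ins hs (hh m (by omega)).2
      (hh m (by omega)).1.le

/-- **insertion of all layers** -/
theorem layers {E : Type*} [NormedAddCommGroup E] [NormedSpace ℝ E] {s : ℝ} {h : ℕ → ℝ}
    {A : ℕ → ArcD} {k0 N : ℕ} {f : ℕ → ℝ → ℝ → ℝ} (hf : IsDr k0 A f) (hs : 0 < s) (hs1 : s ≤ 1)
    {col : ℕ → Bool} {fn : ℕ → E → ℝ}
    (base : ∀ (C B : Set E) (γ : ℝ × ℝ → E), Pat k0 A col C B fn γ →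
      ∃ Φ : ConHomeo Rct (Fil N k0 C fn),
        (∀ x ∈ Rct, ∀ i : Fin N, (Φ.toFun x).2 i = f i x.1 x.2) ∧
        (∀ x ∈ bR, (Φ.toFun x).1 = γ x)) :
    ∀ (m : ℕ), k0 + m ≤ N → (∀ j < m, 0 < h (k0 + j) ∧ 2 * h (k0 + j) < s) →
      ∀ (C B : Set E) (γ : ℝ × ℝ → E), Pat (k0 + m) A col C B fn γ →
      ∃ Φ : ConHomeo Rct (Fil N (k0 + m) C fn),
        (∀ x ∈ Rct, ∀ i : Fin N, (Φ.toFun x).2 i = mds s h A k0 f m i x.1 x.2) ∧
        (∀ x ∈ bR, (Φ.toFun x).1 = γ x) := by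
  intro m
  induction m with
  | zero => intro _ _ C B γ hP; exact base C B γ hP
  | succ m ih =>
    intro hkN hh C B γ hP
    have hP' : Pat (k0 + m + 1) A col C B fn γ := hP
    obtain ⟨B₁, B₂, C₁, C₂, hc, hn, hp⟩ := hP'.cut
    have H : Stp (k0 + m) A col C B fn γ B₁ B₂ C₁ C₂ := ⟨hP', hc, hn, hp⟩
    have hd := mds_isDr hf hs m fun j hj => hh j (by omega)
    exact step' H hd hs hs1 (hh m (by omega)).1 (hh m (by omega)).2 (by omega)
      fun γ' hP'' => ih (by omega) (fun j hj => hh j (by omega)) C₁ _ γ' hP''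

end P073.H237
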