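import Vale.Agent.P073.H239.FSpec1
import Vale.Agent.P073.H253.LineG
import Vale.Agent.P073.H582.E2d
import Vale.Agent.P073.Net.NG1
import Vale.Agent.P073.H73.FlatA

/-!
# P073, block B10, rank one: [TG-B] the target near the line
-/

open Set Metric Topology Filter MeasureTheory Matrix WithLp
open scoped ENNReal NNReal

namespace Vale.Agent.P073.H237

open Vale.Agent.P073
open Vale.Agent.P073.St (V Mat)
open Vale.Agent.P073.SQ (ev)
open Vale.Agent.P073.AB (Idx Part pt edge eInt squ FaceOf EdgeOf EdgeOfSq MinSq cl FinDist RatGood)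
open Vale.Agent.P073.H73 (MinEdge segP ctr onSeg Mesh faceL)
open Vale.Agent.P073.H253 (ledge iv jv lpt mem_ledge)
open Vale.Agent.P073.H304 (Nb)
open Vale.Agent.P073.H696 (R2 deep Mx)
open Vale.Agent.P073.H732 (upz)
open Vale.Agent.P073.H851 (M3)
open Vale.Agent.P073.H239 (TgB1 TgtP1 SpecTgB dd PFam)
open _root_.P073 (ConHomeo)
open _root_.P073.Net (dyc dyo IsTile SizeFn)

section

variable {p Cu : ℝ} {Lc : M3 → ℝ} {δ : ℝ} {j : ℕ} {ε : ℝ} {Ω Λ : Set V} {f : V → V} {F : V → Mat}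
  {v : V}

/-- a point in no box: its image is in `V0` -/
theorem mem_V0 (X : R2 p Cu Lc δ j ε Ω Λ f F v) {x : V} (hxΩ : x ∈ Ω)
    (h : ∀ k ∈ X.K, x ∉ dyc v k.1 k.2) :
    X.h₁.toFun x ∈ H696.V0 Λ (fun k : {k // k ∈ X.K} => Mx F X.x k.1)
      (fun k => H696.bx f F X.x k.1) (fun k => deep v X.n (3 * X.c₀ k.1) k.1) := by
  refine ⟨X.h₁.mapsTo hxΩ, fun k' x' hx' he => ?_⟩
  rw [H582.R2.am_eq] at he
  have hx'D := interior_subset hx'
  have hkb' := X.box k'.1 k'.2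
  have hsub' := H582.R2.deep_sub (v := v) (n := X.n) (k := k'.1) (c := 3 * X.c₀ k'.1)
    (by linarith [hkb'.2.2.1]) (by linarith [hkb'.2.1])
  have h1 := X.st.kept k'.1 k'.2 x'
    (H582.R2.deep_anti (by linarith [(X.box k'.1 k'.2).2.2.1]) _ _ hx'D)
  rw [← h1] at he
  have h2 : x' = x := X.h₁.injOn (hkb'.1 (hsub' hx'D)) hxΩ he
  subst h2
  exact h k'.1 k'.2 (hsub' hx'D)

/-- a processed tile near `Tt y` has generation `mt` -/
theorem exists_J0 (X : R2 p Cu Lc δ j ε Ω Λ f F v) {mt : ℕ} {y : V} (hy : y ∈ Λ)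
    (hV : y ∈ H696.V0 Λ (fun k : {k // k ∈ X.K} => Mx F X.x k.1)
      (fun k => H696.bx f F X.x k.1) (fun k => deep v X.n (3 * X.c₀ k.1) k.1))
    (ht : ∀ z : Fin 3 → ℤ, (∃ u ∈ dyc 0 mt z, ‖X.Tt.toFun y - u‖ ≤ 4 / 2 ^ mt) →
      IsTile X.ρ 0 mt z) :
    ∃ t ∈ X.J₀, t.1 = mt ∧ X.Tt.toFun y ∈ Nb 0 {t} (2 * (1 / 64)) := by
  obtain ⟨t, htJ, x', hx', hd⟩ := X.tg.V0 y hV
  have hcl : IsClosed (dyc (0 : V) t.1 t.2) := by
    rw [H851.dyc_ball]; exact isClosed_closedBall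
  have hx'c : x' ∈ dyc 0 t.1 t.2 := hcl.frontier_subset hx'
  have hT := X.tg.tile t (X.tg.sub htJ)
  have hj : (1:ℝ) / 2 ^ j ≤ 1 / 128 := by
    apply one_div_le_one_div_of_le (by norm_num)
    calc (128:ℝ) = 2 ^ 7 := by norm_num
      _ ≤ 2 ^ j := pow_le_pow_right₀ (by norm_num) X.hj
  set a : ℝ := 1 / 2 ^ t.1 with ha
  have ha0 : 0 < a := by positivity
  set w : ℝ := 1 / 2 ^ mt with hw
  have hw0 : 0 < w := by positivity
  have hd' : ‖X.Tt.toFun y - x'‖ ≤ a / 128 := by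
    refine hd.trans ?_
    have : (1:ℝ) / 2 ^ j / 2 ^ t.1 = 1 / 2 ^ j * a := by rw [ha]; ring
    rw [this]
    nlinarith
  -- the tile of `Tt y`
  obtain ⟨z₀, hz₀⟩ := _root_.P073.Net.NC.exists_mem (0 : V) mt (X.Tt.toFun y)
  have hT₀ : IsTile X.ρ 0 mt z₀ := ht z₀ ⟨_, hz₀, by rw [sub_self, norm_zero]; positivity⟩
  have h1 := _root_.P073.Net.NC.upper X.tg.size hT₀ hz₀
  have h2 := hT.1 x' hx'c
  have h3 := X.tg.size.lip x' (X.Tt.toFun y)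
  rw [norm_sub_rev] at h3
  have e1 : (4:ℝ) / 2 ^ mt = 4 * w := by rw [hw]; ring
  rw [e1] at h1
  have haw : a ≤ 5 * w := by
    have h2' : a ≤ X.ρ x' := h2
    linarith
  -- a point of the open tile
  have hcl2 : x' ∈ closure (dyo (0 : V) t.1 t.2) :=
    _root_.P073.Net.NG1.dyc_sub_closure (0 : V) t.1 t.2 hx'c
  obtain ⟨x'', hx'', hdd⟩ := Metric.mem_closure_iff.1 hcl2 w hw0
  obtain ⟨z'', hz''⟩ := _root_.P073.Net.NC.exists_mem (0 : V) mt x''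
  have hT'' : IsTile X.ρ 0 mt z'' := by
    refine ht z'' ⟨x'', hz'', ?_⟩
    rw [e1]
    rw [dist_eq_norm] at hdd
    have := norm_sub_le_norm_sub_add_norm_sub (X.Tt.toFun y) x' x''
    linarith
  have he : (t.1, t.2) = (mt, z'') := by
    by_contra hne
    exact Set.disjoint_left.1 (_root_.P073.Net.NC.disj hT hT'' hne) hx'' hz''
  refine ⟨t, htJ, (Prod.mk.inj he).1, t, rfl, x', hx', hd.trans ?_⟩
  gcongr
  linarith

theorem act_of (X : R2 p Cu Lc δ j ε Ω Λ f F v) {mt : ℕ} {y : V}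
    (hV : y ∈ H696.V0 Λ (fun k : {k // k ∈ X.K} => Mx F X.x k.1)
      (fun k => H696.bx f F X.x k.1) (fun k => deep v X.n (3 * X.c₀ k.1) k.1))
    (ht : ∀ z : Fin 3 → ℤ, (∃ u ∈ dyc 0 mt z, ‖X.Tt.toFun y - u‖ ≤ 4 / 2 ^ mt) →
      IsTile X.ρ 0 mt z) (z : Fin 3 → ℤ)
    (hz : ∃ u ∈ dyc 0 mt z, ‖X.Tt.toFun y - u‖ ≤ 1 / 64 / 2 ^ mt) : (mt, z) ∈ X.J₀ := by
  obtain ⟨z₀, hz₀⟩ := _root_.P073.Net.NC.exists_mem (0 : V) mt (X.Tt.toFun y)
  have hT₀ : IsTile X.ρ 0 mt z₀ := ht z₀ ⟨_, hz₀, by rw [sub_self, norm_zero]; positivity⟩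
  obtain ⟨u, hu, hd⟩ := hz
  have hT : IsTile X.ρ 0 mt z := by
    refine ht z ⟨u, hu, hd.trans ?_⟩
    gcongr
    norm_num
  exact X.tg.V0n y hV (mt, z₀) (mt, z) hT₀ hz₀ hT ⟨u, hu, by rw [norm_sub_rev]; exact hd⟩

/-- `h₁` and `h''` on a minimal edge away from the boxes -/
theorem osc_of (X : R2 p Cu Lc δ j ε Ω Λ f F v) {mt : ℕ} {c : ℝ} {e : Idx × Fin 3}
    (he : MinEdge v X.I₁ e) (hb : ∀ k ∈ X.K, Disjoint (dyc v k.1 k.2) (edge v e))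
    (hδ : ∀ a ∈ Ω, X.δs a ≤ c / 2 ^ mt)
    (ht : ∀ x ∈ edge v e, ∀ z : Fin 3 → ℤ, (∃ u ∈ dyc 0 mt z, ‖X.hh.toFun x - u‖ ≤ 4 / 2 ^ mt) →
      IsTile X.ρ 0 mt z) :
    ∀ x ∈ edge v e, ∀ y ∈ edge v e, ‖X.h₁.toFun x - X.h₁.toFun y‖ ≤ c / 2 ^ mt ∧
      ‖X.hh.toFun x - X.hh.toFun y‖ ≤ δ / 2 ^ mt := by
  intro x hx y hy
  obtain ⟨⟨q, hqI, heq⟩, -⟩ := he
  have hsub : edge v e ⊆ dyc v q.1 q.2 := H73.edgeOf_mem heq
  have hqS : q ∉ X.S := by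
    intro hq
    obtain ⟨k, hk, hqk⟩ := X.st.inBox q hq
    exact Set.disjoint_left.1 (hb k hk) (hqk (hsub hx)) hx
  have hq : q ∈ X.I₁ \ X.S := ⟨hqI, hqS⟩
  have hΩ : ∀ x ∈ edge v e, x ∈ Ω := fun x hx => X.st.part.sub q hqI (hsub hx)
  have h1 := X.st.small q hq x (hsub hx) y (hsub hy)
  refine ⟨h1.trans (hδ x (hΩ x hx)), ?_⟩
  have hV := mem_V0 X (hΩ x hx) fun k hk hxk => Set.disjoint_left.1 (hb k hk) hxk hx
  obtain ⟨t, htJ, htm, hN⟩ := exists_J0 X (X.h₁.mapsTo (hΩ x hx)) hV (ht x hx)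
  have h2 := X.mod x (hΩ x hx) (X.h₁.toFun x) (X.h₁.mapsTo (hΩ x hx)) (X.h₁.toFun y)
    (X.h₁.mapsTo (hΩ y hy)) (X.st.close x (hΩ x hx)).2 h1 t htJ hN
  rw [htm] at h2
  refine h2.trans ?_
  have := X.hδ
  gcongr
  linarith


/-! ### The main theorem -/

theorem upz_div {m n : ℕ} (h : m ≤ n) (k : ℤ) : ((upz m n k : ℤ) : ℝ) / 2 ^ n = k / 2 ^ m := by
  unfold upz
  push_cast
  have h1 : (2:ℝ) ^ n = 2 ^ (n - m) * 2 ^ m := by rw [← pow_add]; congr 1; omega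
  rw [h1]
  have h2 : (0:ℝ) < 2 ^ (n - m) := by positivity
  have h3 : (0:ℝ) < 2 ^ m := by positivity
  field_simp

open Classical in
theorem specTgB : SpecTgB := by
  intro p Cu Lc δ j ε Ω Λ f F v X m₀ n₃ nS mt B₁ B₂ α β G₃ ι lo hi R b r c Kc L₀ gg hr hc hcδ hαβ
    hm₀ hn₃ hL₀ hLΩ hG₃ hcard hseg hKc hbox hclose hmin hδs T
  have hδ0 := X.hδ
  obtain ⟨hε0, hε1⟩ := X.hε
  have hcδ' : c ≤ δ := by linarith
  have hw0 : (0:ℝ) < 1 / 2 ^ mt := by positivity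
  have hnS : m₀ ≤ nS := hm₀.trans hn₃
  have e₁ : v 1 + ((upz m₀ nS B₁ : ℤ) : ℝ) / 2 ^ nS = v 1 + B₁ / 2 ^ m₀ := by rw [upz_div hnS]
  have e₂ : v 2 + ((upz m₀ nS B₂ : ℤ) : ℝ) / 2 ^ nS = v 2 + B₂ / 2 ^ m₀ := by rw [upz_div hnS]
  set lp : ℝ → V := fun u => ![u, v 1 + B₁ / 2 ^ m₀, v 2 + B₂ / 2 ^ m₀] with hlp
  set E : ℤ → Set V := fun k => edge v (ledge nS (upz m₀ nS B₁) (upz m₀ nS B₂) k) with hE
  have hlp' : ∀ u, lp u = lpt (v 1 + ((upz m₀ nS B₁ : ℤ) : ℝ) / 2 ^ nS)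
      (v 2 + ((upz m₀ nS B₂ : ℤ) : ℝ) / 2 ^ nS) u := by
    intro u
    rw [e₁, e₂]
    rfl
  have h2n : (0:ℝ) < 2 ^ nS := by positivity
  have memE : ∀ k x, x ∈ E k → ∃ u ∈ Icc (v 0 + k / 2 ^ nS) (v 0 + (k + 1) / 2 ^ nS), x = lp u := by
    intro k x hx
    obtain ⟨u, hu, rfl⟩ := mem_ledge.1 hx
    refine ⟨u, ?_, (hlp' u).symm⟩
    have h1 := hu.1
    have h2 := hu.2
    constructor
    · calc v 0 + (k:ℝ) / 2 ^ nS = v 0 + k * (1 / 2 ^ nS) := by ring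
        _ ≤ u := h1
    · calc u ≤ v 0 + (k + 1) * (1 / 2 ^ nS) := h2
        _ = v 0 + ((k:ℝ) + 1) / 2 ^ nS := by ring
  have hEL : ∀ k ∈ Finset.Ico (upz m₀ nS α) (upz m₀ nS β), E k ⊆ L₀ := by
    intro k hk x hx
    obtain ⟨u, hu, rfl⟩ := memE k x hx
    rw [Finset.mem_Ico] at hk
    rw [hL₀]
    refine ⟨rfl, rfl, ?_, ?_⟩
    · have h1 : ((upz m₀ nS α : ℤ) : ℝ) / 2 ^ nS ≤ k / 2 ^ nS := by
        gcongr
        exact_mod_cast hk.1
      rw [upz_div hnS] at h1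
      show _ ≤ u
      linarith [hu.1]
    · have h1 : ((k:ℝ) + 1) / 2 ^ nS ≤ ((upz m₀ nS β : ℤ) : ℝ) / 2 ^ nS := by
        gcongr
        exact_mod_cast hk.2
      rw [upz_div hnS] at h1
      show u ≤ _
      linarith [hu.2]
  have hKc' : ∀ x ∈ L₀, X.h₁.toFun x ∈ Kc := fun x hx => hKc x hx _ (hclose x hx)
  have tileE : ∀ x ∈ L₀, ∀ z : Fin 3 → ℤ,
      (∃ y ∈ dyc 0 mt z, ‖X.hh.toFun x - y‖ ≤ 4 / 2 ^ mt) → IsTile X.ρ 0 mt z :=
    fun x hx => T.tile _ (hKc' x hx)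
  have hbox' : ∀ x ∈ L₀, ∀ k ∈ X.K, x ∉ dyc v k.1 k.2 := fun x hx k hk h =>
    Set.disjoint_left.1 (hbox k hk) h hx
  have osc : ∀ k ∈ Finset.Ico (upz m₀ nS α) (upz m₀ nS β), ∀ x ∈ E k, ∀ y ∈ E k,
      ‖X.h₁.toFun x - X.h₁.toFun y‖ ≤ c / 2 ^ mt ∧ ‖X.hh.toFun x - X.hh.toFun y‖ ≤ δ / 2 ^ mt :=
    fun k hk => osc_of X (hmin k hk) (fun q hq => (hbox q hq).mono_right (hEL k hk)) hδs
      fun x hx => tileE x (hEL k hk hx)
  set G : Finset ℤ := G₃.biUnion fun k => Finset.Ico (upz n₃ nS k) (upz n₃ nS (k + 1)) with hG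
  have hGsub : G ⊆ Finset.Ico (upz m₀ nS α) (upz m₀ nS β) := by
    intro k hk
    rw [hG, Finset.mem_biUnion] at hk
    obtain ⟨k₃, hk₃, hk⟩ := hk
    rw [Finset.mem_Ico] at hk ⊢
    have h1 := hG₃ k₃ hk₃
    have hle : v 0 + (k₃:ℝ) / 2 ^ n₃ ≤ v 0 + ((k₃:ℝ) + 1) / 2 ^ n₃ := by
      gcongr
      linarith
    have h2 : v 0 + (α:ℝ) / 2 ^ m₀ ≤ v 0 + (k₃:ℝ) / 2 ^ n₃ := (h1 (left_mem_Icc.2 hle)).1
    have h3 : v 0 + ((k₃:ℝ) + 1) / 2 ^ n₃ ≤ v 0 + (β:ℝ) / 2 ^ m₀ := (h1 (right_mem_Icc.2 hle)).2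
    have h4 := upz_div hnS α
    have h5 := upz_div hnS β
    have h6 := upz_div hn₃ k₃
    have h7 := upz_div hn₃ (k₃ + 1)
    push_cast at h7
    constructor
    · have : ((upz m₀ nS α : ℤ) : ℝ) / 2 ^ nS ≤ ((upz n₃ nS k₃ : ℤ) : ℝ) / 2 ^ nS := by
        rw [h4, h6]; linarith
      rw [div_le_div_iff_of_pos_right h2n] at this
      have : upz m₀ nS α ≤ upz n₃ nS k₃ := by exact_mod_cast this
      omega
    · have : ((upz n₃ nS (k₃ + 1) : ℤ) : ℝ) / 2 ^ nS ≤ ((upz m₀ nS β : ℤ) : ℝ) / 2 ^ nS := by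
        rw [h7, h5]; linarith
      rw [div_le_div_iff_of_pos_right h2n] at this
      have : upz n₃ nS (k₃ + 1) ≤ upz m₀ nS β := by exact_mod_cast this
      omega
  have hGcard : G.card = G₃.card * 2 ^ (nS - n₃) := by
    rw [hG, Finset.card_biUnion]
    · rw [Finset.sum_const_nat (m := 2 ^ (nS - n₃))]
      intro k _
      rw [Int.card_Ico]
      unfold upz
      have : (2:ℤ) ^ (nS - n₃) * (k + 1) - 2 ^ (nS - n₃) * k = ((2 ^ (nS - n₃) : ℕ) : ℤ) := by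
        push_cast; ring
      rw [this, Int.toNat_natCast]
    · intro a _ a' _ hne
      show Disjoint (Finset.Ico (upz n₃ nS a) (upz n₃ nS (a + 1)))
        (Finset.Ico (upz n₃ nS a') (upz n₃ nS (a' + 1)))
      rw [Finset.disjoint_left]
      intro k hk hk'
      rw [Finset.mem_Ico] at hk hk'
      unfold upz at hk hk'
      have hp : (0:ℤ) < 2 ^ (nS - n₃) := by positivity
      apply hne
      have h1 : a < a' + 1 := by
        by_contra hcon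
        push Not at hcon
        have := mul_le_mul_of_nonneg_left hcon hp.le
        omega
      have h2 : a' < a + 1 := by
        by_contra hcon
        push Not at hcon
        have := mul_le_mul_of_nonneg_left hcon hp.le
        omega
      omega
  -- the point of the good segment
  have hgood : ∀ k ∈ G, ∃ z, ∀ x ∈ E k, ∀ j, j ≠ 0 →
      |X.h₁.toFun x j - lo z j| ≤ b * (R z - dd j (lo z) (hi z) (X.h₁.toFun x)) - r := by
    intro k hk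
    have hkI := hGsub hk
    rw [hG, Finset.mem_biUnion] at hk
    obtain ⟨k₃, hk₃, hk⟩ := hk
    obtain ⟨z, hz⟩ := hseg k₃ hk₃
    refine ⟨z, fun x hx => ?_⟩
    have hxL := hEL k hkI hx
    have hcl := hclose x hxL
    obtain ⟨u, hu, rfl⟩ := memE k x hx
    refine hz u ?_ _ hcl
    rw [Finset.mem_Ico] at hk
    have h6 := upz_div hn₃ k₃
    have h7 := upz_div hn₃ (k₃ + 1)
    push_cast at h7
    constructor
    · have : ((upz n₃ nS k₃ : ℤ) : ℝ) / 2 ^ nS ≤ k / 2 ^ nS := by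
        gcongr
        exact_mod_cast hk.1
      rw [h6] at this
      linarith [hu.1]
    · have : ((k:ℝ) + 1) / 2 ^ nS ≤ ((upz n₃ nS (k₃ + 1) : ℤ) : ℝ) / 2 ^ nS := by
        gcongr
        exact_mod_cast hk.2
      rw [h7] at this
      linarith [hu.2]
  refine ⟨G, ?_⟩
  refine
    { mtε := T.mtε
      bdT := T.bdT
      tile := fun k hk x hx => tileE x (hEL k hk hx)
      act := fun k hk x hx z hz => act_of X (mem_V0 X (hLΩ (hEL k hk hx))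
        (hbox' x (hEL k hk hx))) (tileE x (hEL k hk hx)) z hz
      osc := fun k hk x hx y hy => ⟨(osc k hk x hx y hy).2, ?_⟩
      Gsub := hGsub
      tube := fun k hk => ?_
      card := ?_
      gglip := T.lip
      ggc := T.close
      far := fun k hk x hx => T.far _ (hKc' x (hEL k hk hx))
      tan := fun k hk x hx w hw1 hw2 => ?_ }
  · have hxΩ := hLΩ (hEL k hk hx)
    have hyΩ := hLΩ (hEL k hk hy)
    have h1 := T.lip _ (X.h₁.mapsTo hxΩ) _ (X.h₁.mapsTo hyΩ)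
    have h2 := H239.norm_toLp_le (X.h₁.toFun x - X.h₁.toFun y)
    have h3 := H239.norm_le_toLp (gg.toFun (X.h₁.toFun x) - gg.toFun (X.h₁.toFun y))
    have h4 := (osc k hk x hx y hy).1
    have e5 : c / 2 ^ mt = c * (1 / 2 ^ mt) := by ring
    have e6 : δ / 2 ^ mt = δ * (1 / 2 ^ mt) := by ring
    rw [e5] at h4
    rw [e6]
    have h0 := norm_nonneg (toLp 2 (X.h₁.toFun x - X.h₁.toFun y))
    have h00 := norm_nonneg (X.h₁.toFun x - X.h₁.toFun y)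
    calc ‖gg.toFun (X.h₁.toFun x) - gg.toFun (X.h₁.toFun y)‖
        ≤ (1 + ε) * ‖toLp 2 (X.h₁.toFun x - X.h₁.toFun y)‖ := h3.trans h1
      _ ≤ 2 * (2 * ‖X.h₁.toFun x - X.h₁.toFun y‖) := by
          apply mul_le_mul (by linarith) h2 h0 (by norm_num)
      _ ≤ 2 * (2 * (c * (1 / 2 ^ mt))) := by gcongr
      _ ≤ δ * (1 / 2 ^ mt) := by nlinarith
  · obtain ⟨z, hz⟩ := hgood k hk
    have hkI := hGsub hk
    choose! t ht using fun j (hj : j ≠ 0) => T.grid z j hj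
    refine ⟨t, fun x hx j hj => ?_⟩
    have h1 := (T.tube z _ (hKc' x (hEL k hkI hx)) (hz x hx)).1 j hj
    rw [ht j hj] at h1
    refine le_trans h1 ?_
    gcongr
  · rw [Finset.card_sdiff_of_subset hGsub, Int.card_Ico]
    have hle : G.card ≤ (upz m₀ nS β - upz m₀ nS α).toNat := by
      have := Finset.card_le_card hGsub
      rwa [Int.card_Ico] at this
    rw [Nat.cast_sub hle, hGcard]
    have hnn : 0 ≤ upz m₀ nS β - upz m₀ nS α := by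
      unfold upz
      have : (2:ℤ) ^ (nS - m₀) * α ≤ 2 ^ (nS - m₀) * β :=
        mul_le_mul_of_nonneg_left hαβ.le (by positivity)
      omega
    have e7 : (((upz m₀ nS β - upz m₀ nS α).toNat : ℕ) : ℝ) =
        (upz m₀ nS β : ℝ) - (upz m₀ nS α : ℝ) := by
      have : (((upz m₀ nS β - upz m₀ nS α).toNat : ℤ) : ℝ) =
          ((upz m₀ nS β - upz m₀ nS α : ℤ) : ℝ) := by rw [Int.toNat_of_nonneg hnn]
      push_cast at this
      exact this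
    rw [e7, sub_div, sub_div, upz_div hnS, upz_div hnS]
    have e8 : (((G₃.card * 2 ^ (nS - n₃) : ℕ)) : ℝ) / 2 ^ nS = (G₃.card : ℝ) / 2 ^ n₃ := by
      push_cast
      have h1 : (2:ℝ) ^ nS = 2 ^ (nS - n₃) * 2 ^ n₃ := by rw [← pow_add]; congr 1; omega
      rw [h1]
      field_simp
    rw [e8, ← sub_div]
    exact hcard
  · obtain ⟨z, hz⟩ := hgood k hk
    have hkI := hGsub hk
    exact (T.tube z _ (hKc' x (hEL k hkI hx)) (hz x hx)).2 w hw1 hw2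

end

end Vale.Agent.P073.H237
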